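import Vale.Agent.P027H.Abs1

/-!
# P027 (H): the Heegner point
-/

open scoped ComplexConjugate

namespace Vale.Agent.P027H

open Vale.Agent.P009.H844 (curve Pt)
open Vale.Agent.P009.Z (xc yc)
open Vale.Agent.P009.H883 Vale.Agent.P009.H262

/-- first coordinate of the parametrisation -/
noncomputable def px (a b a1 : ℂ) : ℂ := 2 * (1 + a) / (a1 * (1 + b) / 2) ^ 2

/-- second coordinate of the parametrisation -/
noncomputable def py (a b a1 : ℂ) : ℂ := 4 * (1 + a) / (a1 * (1 + b) / 2) ^ 3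

theorem map_px (f : ℂ →+* ℂ) (a b a1 : ℂ) : f (px a b a1) = px (f a) (f b) (f a1) := by
  simp only [px, map_div₀, map_mul, map_add, map_pow, map_one, map_ofNat]

theorem map_py (f : ℂ →+* ℂ) (a b a1 : ℂ) : f (py a b a1) = py (f a) (f b) (f a1) := by
  simp only [py, map_div₀, map_mul, map_add, map_pow, map_one, map_ofNat]

theorem usq {b a1 b1 : ℂ} (h1 : a1 ^ 2 + b1 ^ 2 = 1) (h2 : (1 + b) * (1 + b1) = 2) :
    (a1 * (1 + b) / 2) ^ 2 = b := by
  linear_combination ((1 + b) ^ 2 / 4) * h1 - ((1 + b) * (b1 - 1) / 4 + 1 / 2) * h2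

theorem on_curve {a b a1 b1 : ℂ} (h0 : a ^ 2 + b ^ 2 = 1) (h1 : a1 ^ 2 + b1 ^ 2 = 1)
    (h2 : (1 + b) * (1 + b1) = 2) (hb : b ≠ 0) :
    py a b a1 ^ 2 = px a b a1 ^ 3 + 4 * px a b a1 := by
  have h3 := usq h1 h2
  rw [px, py]
  generalize a1 * (1 + b) / 2 = u at h3
  subst h3
  have hu : u ≠ 0 := fun e => hb (by rw [e]; ring)
  field_simp
  linear_combination (-8 * (1 + a)) * h0

theorem flip {a b a1 b1 : ℂ} (h0 : a ^ 2 + b ^ 2 = 1) (h1 : a1 ^ 2 + b1 ^ 2 = 1)
    (h2 : (1 + b) * (1 + b1) = 2) (ha : a ≠ 0) (hb : b ≠ 0) {P Q : EE} (hP : P ≠ 0) (hQ : Q ≠ 0)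
    (px1 : xc P = px a b a1) (py1 : yc P = py a b a1) (px2 : xc Q = px a1 b1 a)
    (py2 : yc Q = py a1 b1 a) : Q = c0 - P := by
  have h3 := usq h1 h2
  have hb1 : 1 + b ≠ 0 := left_ne_zero_of_mul (h2 ▸ two_ne_zero)
  have e1 : 1 + b1 = 2 / (1 + b) := by
    field_simp
    linear_combination h2
  rw [px] at px1 px2
  rw [py] at py1 py2
  rw [e1] at px2 py2
  obtain ⟨u, hu⟩ : ∃ u, u = a1 * (1 + b) / 2 := ⟨_, rfl⟩
  have e2 : a1 = 2 * u / (1 + b) := by
    rw [hu]
    field_simp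
  rw [← hu] at px1 py1 h3
  rw [e2] at px2 py2
  subst h3
  have hu0 : u ≠ 0 := fun e => hb (by rw [e]; ring)
  have hu1 : 1 - u ≠ 0 := fun e => ha (pow_eq_zero_iff two_ne_zero |>.1 (by
    linear_combination h0 + (1 + u) * (1 + u ^ 2) * e))
  have px3 : xc Q = 2 * (1 + u) / (1 - u) := by
    rw [px2]
    field_simp
    linear_combination (-(1 + u)) * h0
  have py3 : yc Q = 4 * (1 + u) * (1 + u ^ 2) / (a * (1 - u)) := by
    rw [py2]
    field_simp
    linear_combination (-(1 + u)) * h0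
  obtain ⟨a1, a2, a3⟩ := c0_spec
  have hne : xc Q ≠ xc (-c0) := by
    rw [xc_neg, a2, px3, Ne, div_eq_iff hu1]
    intro e
    exact hu0 (by linear_combination e / 4)
  obtain ⟨k1, k2, k3⟩ := chord hQ (neg_ne_zero.2 a1) hne
  rw [xc_neg, yc_neg, a2, a3] at k2 k3
  have sl : (yc Q - -4) / (xc Q - 2) = ((1 + u) * (1 + u ^ 2) + a * (1 - u)) / (a * u) := by
    have : xc Q - 2 = 4 * u / (1 - u) := by
      rw [px3]
      field_simp
      ring
    rw [this, py3]
    field_simp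
    ring
  have k4 : cX (xc Q) (yc Q) 2 (-4) = xc P := by
    rw [cX, sl, px3, px1]
    field_simp
    linear_combination (-(1 + u + u ^ 2 + u ^ 3 + 2 * a - 2 * u * a)) * h0
  rw [cY, k4, sl] at k3
  have : Q + -c0 = -P := ext_pt k1 (neg_ne_zero.2 hP) (by rw [k2, k4, xc_neg]) (by
    rw [k3, yc_neg, px1, py1, px3, py3]
    field_simp
    linear_combination (2 * (1 - u ^ 2)) * h0)
  rw [← sub_eq_add_neg, sub_eq_iff_eq_add] at this
  rw [this]
  abel

theorem grp {G : Type} [CommGroup G] [Finite G] {τ : G} (two : ∀ A : G, A * A = 1 → A = 1 ∨ A = τ)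
    (ττ : τ * τ = 1) (nτ : ∀ A : G, A * A ≠ τ) : ∃ H : Subgroup G, H.index = 2 ∧
      Odd (Nat.card H) ∧ ∀ A, A ∈ H ↔ ∃ B, B * B = A := by
  refine ⟨(powMonoidHom 2 : G →* G).range, ?_, ?_, fun A => ?_⟩
  · rw [Subgroup.index_range, Nat.card_eq_two_iff]
    refine ⟨⟨1, one_mem _⟩, ⟨τ, ?_⟩, fun e => nτ 1 ?_, ?_⟩
    · rw [MonoidHom.mem_ker, powMonoidHom_apply, sq, ττ]
    · rw [mul_one]
      exact congrArg Subtype.val e
    · rw [Set.eq_univ_iff_forall]
      rintro ⟨A, hA⟩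
      rw [MonoidHom.mem_ker, powMonoidHom_apply, sq] at hA
      rcases two A hA with e | e
      · exact Or.inl (Subtype.ext e)
      · exact Or.inr (Subtype.ext e)
  · rw [← Nat.not_even_iff_odd, even_iff_two_dvd]
    intro h
    obtain ⟨⟨x, hx0⟩, hx⟩ := exists_prime_orderOf_dvd_card' 2 h
    have h1 : orderOf x = 2 := by rw [← hx, Subgroup.orderOf_mk]
    obtain ⟨B, hB⟩ := hx0
    rw [powMonoidHom_apply, sq] at hB
    rcases two x (by rw [← sq, ← h1, pow_orderOf_eq_one]) with e | e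
    · rw [e, orderOf_one] at h1
      norm_num at h1
    · exact nτ B (hB.trans e)
  · simp only [MonoidHom.mem_range, powMonoidHom_apply, sq]

theorem odd_c0 {n : ℕ} (h : Odd n) : n • c0 = c0 ∨ n • c0 = -c0 := by
  obtain ⟨k, rfl⟩ := h
  have hT : T0 + T0 = 0 := by
    nth_rewrite 1 [← neg_T0]
    exact neg_add_cancel _
  induction k with
  | zero => exact Or.inl (by simp)
  | succ k ih =>
    have : (2 * (k + 1) + 1) • c0 = (2 * k + 1) • c0 + (c0 + c0) := by
      rw [show 2 * (k + 1) + 1 = 2 * k + 1 + 1 + 1 by ring, succ_nsmul, succ_nsmul, add_assoc]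
    rw [this]
    rcases ih with e | e <;> rw [e]
    · right
      rw [eq_neg_iff_add_eq_zero, ← hT, ← c0_add]
      abel
    · left
      abel

theorem abs : AbsStmt := by
  classical
  intro s t h G _ _ θ p τ α β γ c
  have := Fintype.ofFinite G
  obtain ⟨H, h2, hodd, hH⟩ := grp c.two c.ττ c.nτ
  have hp : p ∉ H := fun e => by
    obtain ⟨B, hB⟩ := (hH p).1 e
    exact c.np B hB
  have hτ : τ ∉ H := fun e => by
    obtain ⟨B, hB⟩ := (hH τ).1 e
    exact c.nτ B hB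
  have hm : ∀ {a b : G}, a * b ∈ H ↔ (a ∈ H ↔ b ∈ H) := Subgroup.mul_mem_iff_of_index_two h2
  choose φ hφ using fun A => exists_pt (on_curve (c.circ A)
    (by rw [add_comm]; exact c.circ (A * p⁻¹)) (c.land A) (c.βne A))
  have cα : ∀ A, conj (α A) = β A⁻¹ := fun A => by
    have := c.cj A⁻¹
    rw [inv_inv] at this
    rw [← this, Complex.conj_conj]
  have hcj : ∀ A, MM conj (φ A) = c0 - φ (A⁻¹ * p) := fun A => by
    obtain ⟨a1, a2, a3⟩ := hφ A
    obtain ⟨b1, b2, b3⟩ := hφ (A⁻¹ * p)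
    obtain ⟨d1, d2, d3⟩ := MM_spec conj (φ A)
    have e := c.land (A⁻¹ * p)
    rw [mul_inv_cancel_right] at b2 b3 e
    refine flip (c.circ _) (by rw [add_comm]; exact c.circ A⁻¹) e (c.αne _) (c.βne _) b1
      (fun e => a1 (d1.1 e)) b2 b3 ?_ ?_
    · rw [d2, a2, map_px, cα, c.cj, c.cj, mul_inv, inv_inv]
    · rw [d3, a3, map_py, cα, c.cj, c.cj, mul_inv, inv_inv]
  have ht0 : (t : ℂ) ≠ 0 := by exact_mod_cast h.ht.ne_zero
  have hγ : γ 1 ^ 2 * t = 1 := by
    have h1 := c.γ4 1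
    obtain ⟨x, hx⟩ := Complex.conj_eq_iff_real.1 c.γcj
    rw [hx] at h1 ⊢
    have h3 : (x ^ 2 * t) ^ 2 = 1 ^ 2 := by
      have : x ^ 4 * (t : ℝ) ^ 2 = 1 := by exact_mod_cast h1
      linear_combination this
    have h4 := (pow_left_inj₀ (by positivity) zero_le_one two_ne_zero).1 h3
    exact_mod_cast h4
  have hγ0 : γ 1 ≠ -γ 1 := fun e => by
    have : γ 1 = 0 := by linear_combination e / 2
    rw [this] at hγ
    simp at hγ
  have hcard : (Finset.univ.filter (· ∈ H)).card = Nat.card H := by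
    rw [Nat.card_eq_fintype_card, Fintype.card_subtype]
  refine core h c.θsq (r := γ 1 * t) (by rw [map_mul, c.γcj, map_natCast])
    (by linear_combination (t : ℂ) * hγ) (y0 := ∑ A with A ∈ H, φ A) (y1 := ∑ A with A ∉ H, φ A)
    (odd_c0 hodd) (fun σ hσ => ?_) ?_
  · obtain ⟨ρ, hρ⟩ := c.gal σ hσ
    have hM : ∀ A, MM σ (φ A) = φ (A * ρ) := fun A => by
      obtain ⟨a1, a2, a3⟩ := hφ A
      obtain ⟨b1, b2, b3⟩ := hφ (A * ρ)
      obtain ⟨d1, d2, d3⟩ := MM_spec σ (φ A)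
      refine ext_pt (fun e => a1 (d1.1 e)) b1 ?_ ?_
      · rw [d2, a2, b2, map_px, RingHom.coe_coe, (hρ _).1, (hρ _).2.1, (hρ _).2.1, mul_right_comm]
      · rw [d3, a3, b3, map_py, RingHom.coe_coe, (hρ _).1, (hρ _).2.1, (hρ _).2.1, mul_right_comm]
    have hpow : ∀ x ∈ H, x ^ Nat.card H = 1 := fun x hx =>
      congrArg Subtype.val (pow_card_eq_one' (G := H) (x := ⟨x, hx⟩))
    have h1 : σ (γ 1) ^ 2 = γ 1 ^ 2 := by
      have := congrArg σ hγ
      rw [map_mul, map_pow, map_natCast, map_one, ← hγ] at this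
      exact mul_right_cancel₀ ht0 this
    rw [map_mul, map_natCast, map_sum, map_sum]
    simp only [hM]
    rcases sq_eq_sq_iff_eq_or_eq_neg.1 h1 with e | e
    · have k : ∀ n : ℕ, γ (ρ ^ n) = γ 1 := fun n => by
        induction n with
        | zero => rw [pow_zero]
        | succ n ih => rw [pow_succ, ← (hρ _).2.2, ih, e]
      have hρH : ρ ∈ H := by
        by_contra hh
        have k1 := hpow (ρ * τ) (hm.2 (iff_of_false hh hτ))
        obtain ⟨m, hm'⟩ := hodd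
        have k2 : τ ^ Nat.card H = τ := by rw [hm', pow_succ, pow_mul, sq, c.ττ, one_pow, one_mul]
        have k3 := c.γτ (ρ ^ Nat.card H)
        rw [mul_pow, k2] at k1
        rw [k1, k] at k3
        exact hγ0 k3
      refine Or.inl ⟨by rw [e], ?_, ?_⟩ <;>
        refine Finset.sum_equiv (Equiv.mulRight ρ) (fun A => ?_) fun A _ => rfl
      all_goals simp [hm, hρH]
    · have k : ∀ n : ℕ, γ (ρ ^ n) = (-1) ^ n * γ 1 := fun n => by
        induction n with
        | zero => rw [pow_zero, pow_zero, one_mul]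
        | succ n ih =>
          rw [pow_succ, ← (hρ _).2.2, ih, map_mul, e, map_pow, map_neg, map_one]
          ring
      have hρH : ρ ∉ H := fun hh => by
        have k1 := k (Nat.card H)
        rw [hpow ρ hh, hodd.neg_one_pow, neg_one_mul] at k1
        exact hγ0 k1
      refine Or.inr ⟨by rw [e, neg_mul], ?_, ?_⟩ <;>
        refine Finset.sum_equiv (Equiv.mulRight ρ) (fun A => ?_) fun A _ => rfl
      all_goals simp [hm, hρH]
  · rw [map_sum]
    simp only [hcj]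
    rw [Finset.sum_sub_distrib, Finset.sum_const, hcard]
    congr 1
    refine Finset.sum_equiv ((Equiv.inv G).trans (Equiv.mulRight p)) (fun A => ?_) fun A _ => rfl
    simp [hm, hp]

end Vale.Agent.P027H
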