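import Vale.Agent.P027H.Prod
import Vale.Agent.P027H.Abs2

/-!
# P027 (H): the genus invariant and the end of the proof
-/

open scoped ComplexConjugate

namespace Vale.Agent.P027H

variable {O : Type} [CommRing O] {j : O →+* ℂ} {Λ Λ' : Submodule ℤ ℂ} {P P' Q Q' T : Ideal O}

theorem WT.HP {σ : ℂ →+* ℂ} {c : ℂ} {φ : ℂ → ℂ} (w : WT j σ c φ P P' Q Q' Λ Λ') (h : Two j P P')
    (h' : Two j Q Q') (hi : ∀ (a : ℤ) (z : ℂ), φ (a * z) - a * φ z ∈ Λ') (g : ℤ) (n : ℕ) (u : ℂ) :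
    HP g n (P027H.ff j Q Q' Λ') (φ u) = c ^ n * σ (HP g n (P027H.ff j P P' Λ) u) := by
  rw [P027H.HP, P027H.HP, map_prod, ← Finset.card_range n, ← Finset.prod_const, Finset.card_range,
    ← Finset.prod_mul_distrib]
  refine Finset.prod_congr rfl fun i _ => ?_
  have := hi (g ^ i) u
  push_cast at this
  rw [← w.ff h h', w.ol'.1.ff_congr this]

theorem HP_neg {F : ℂ → ℂ} (hn : ∀ x, F (-x) = -F x) (g : ℤ) (k : ℕ) (u : ℂ) :
    HP g (2 * k) F (-u) = HP g (2 * k) F u := by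
  simp only [HP, mul_neg, hn]
  rw [Finset.prod_neg, Finset.card_range, pow_mul, neg_one_sq, one_pow, one_mul]

variable (j) in
/-- the numerator of the genus invariant -/
noncomputable def num (g : ℤ) (k : ℕ) (θ : O) (P P' T : Ideal O) (Λ : Submodule ℤ ℂ) (z : ℂ) : ℂ :=
  HP g (2 * k) (ff j P P' Λ) (j θ * z) * HP g (2 * k) (ff j P P' (col j T Λ)) z

variable (j) in
/-- the genus invariant -/
noncomputable def gg (g : ℤ) (k : ℕ) (θ : O) (P P' T : Ideal O) (Λ : Submodule ℤ ℂ) : ℂ :=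
  num j g k θ P P' T Λ (pt j T (col j T Λ)) / (DD j P P' Λ * DD j P P' (col j T Λ)) ^ k

theorem gg_symm (g : ℤ) (k : ℕ) (θ : O) (P P' T : Ideal O) (Λ : Submodule ℤ ℂ) :
    gg j g k θ P' P T Λ = gg j g k θ P P' T Λ := by
  rw [gg, gg, num, num, ff_symm P' P, ff_symm P' P, DD_symm P P', DD_symm P P', neg_mul_neg]

namespace LatData

variable {s t : ℕ} {G : Type} [CommGroup G] {θ : O} {cl : Ideal O → G}
  {cls : Submodule ℤ ℂ → G} (d : LatData j s t G θ cl cls P P' T)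
include d

omit d in
theorem ne_bot {I : Ideal O} {n : ℕ} (j : O →+* ℂ) (hn : n ≠ 0) (h : (n : O) ∈ I) : I ≠ ⊥ := by
  rintro rfl
  have := congrArg j (Ideal.mem_bot.1 h)
  rw [map_natCast, map_zero] at this
  exact hn (by exact_mod_cast this)

theorem neP : P ≠ ⊥ := ne_bot j two_ne_zero
  (Ideal.mul_le_left (J := P') (d.PP' ▸ Ideal.mem_span_singleton_self 2))

theorem neP' : P' ≠ ⊥ := ne_bot j two_ne_zero
  (Ideal.mul_le_right (I := P) (d.PP' ▸ Ideal.mem_span_singleton_self 2))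

theorem tw : Two j P P' := ⟨d.PP', d.cop, d.cycP, d.cycP',
  fun Λ h => (d.cls_col Λ P h d.neP).1, fun Λ h => (d.cls_col Λ P' h d.neP').1⟩

theorem tT : (t : O) ∈ T := d.Tdef ▸ Ideal.subset_span (by simp)

theorem θT : θ ∈ T := d.Tdef ▸ Ideal.subset_span (by simp)

theorem t_mul {z : ℂ} (hz : z ∈ col j T Λ) : (t : ℂ) * z ∈ Λ := by
  have := hz _ d.tT
  rwa [map_natCast] at this

theorem memT (hΛ : OLat j Λ) {z : ℂ} (h1 : (t : ℂ) * z ∈ Λ) (h2 : j θ * z ∈ Λ) : z ∈ col j T Λ := by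
  intro a ha
  rw [d.Tdef, Ideal.mem_span_pair] at ha
  obtain ⟨x, y, rfl⟩ := ha
  exact mem_of_eq (add_mem (hΛ.2 x _ h1) (hΛ.2 y _ h2))
    (by simp only [map_add, map_mul, map_natCast]; ring)

theorem jθ : j θ ^ 2 = -((s : ℂ) * t) := by
  rw [← map_pow, d.θsq, map_neg, map_mul, map_natCast, map_natCast]

theorem cjO (x : O) : ∃ x', j x' = conj (j x) := by
  obtain ⟨a, ha, b, hb, e⟩ := Submodule.mem_sup.1 (d.cop ▸ Submodule.mem_top : x ∈ P ⊔ P')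
  obtain ⟨a', -, e1⟩ := d.cjP a ha
  obtain ⟨b', -, e2⟩ := d.cjP' b hb
  exact ⟨a' + b', by rw [← e, map_add, map_add, map_add, e1, e2]⟩

theorem cjT (hθ : conj (j θ) = -j θ) : ∀ a ∈ T, ∃ a' ∈ T, j a' = conj (j a) := by
  intro a ha
  rw [d.Tdef, Ideal.mem_span_pair] at ha
  obtain ⟨x, y, rfl⟩ := ha
  obtain ⟨x', e1⟩ := d.cjO x
  obtain ⟨y', e2⟩ := d.cjO y
  refine ⟨x' * t - y' * θ, sub_mem (T.mul_mem_left _ d.tT) (T.mul_mem_left _ d.θT), ?_⟩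
  simp only [map_add, map_sub, map_mul, map_natCast, e1, e2, hθ]
  ring

theorem exists_trO (hΛ : OLat j Λ) (σ : ℂ ≃+* ℂ) (hσ : σ (j θ) = j θ) :
    ∃ Λ' φ, TrO j σ Λ Λ' φ := by
  obtain ⟨Λ', φ, h⟩ := hΛ.1.exists_tr σ
  have key : ∀ a : O, (∀ z ∈ Λ', j a * z ∈ Λ') ∧ ∀ z, φ (j a * z) - j a * φ z ∈ Λ' := by
    intro a
    by_cases ha : a = 0
    · simp only [ha, map_zero, zero_mul, sub_zero]
      exact ⟨fun _ _ => zero_mem _, fun _ => (h.mem 0).2 (zero_mem _)⟩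
    obtain ⟨a', n, hn, e⟩ := d.nrm a ha
    have e' := congrArg j e
    rw [map_mul, map_natCast] at e'
    have h0 : j a * j a' ≠ 0 := by
      rw [e']
      exact_mod_cast hn.ne'
    refine h.mul (left_ne_zero_of_mul h0) ?_ (hΛ.2 a) hn
      fun z hz => mem_of_eq (hΛ.2 a' _ hz) (by rw [← e']; ring)
    obtain ⟨x, y, hxy⟩ := d.coord a
    rw [hxy, map_add, map_mul, map_ratCast, map_ratCast, RingHom.coe_coe, hσ]
  exact ⟨Λ', φ, h, hΛ, ⟨h.lat', fun a => (key a).1⟩, fun a => (key a).2⟩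

theorem exists_nat {I : Ideal O} (hI : I ≠ ⊥) : ∃ n : ℕ, 0 < n ∧ (n : O) ∈ I := by
  obtain ⟨a, ha, h0⟩ := Submodule.exists_mem_ne_zero_of_ne_bot hI
  obtain ⟨a', n, hn, e⟩ := d.nrm a h0
  exact ⟨n, hn, e ▸ I.mul_mem_right _ ha⟩

variable [hp : Fact t.Prime]

theorem neT : T ≠ ⊥ := ne_bot j hp.out.ne_zero d.tT

theorem olT (hΛ : OLat j Λ) : OLat j (col j T Λ) := (d.cls_col Λ T hΛ d.neT).1

theorem homT (hΛ : OLat j Λ) : Hom t (col j T (col j T Λ)) Λ :=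
  ⟨by exact_mod_cast hp.out.ne_zero, fun z => by rw [col_col, d.TT, hΛ.col_span, map_natCast]⟩

theorem gen (hΛ : OLat j Λ) {u : ℂ} (hu : u ∈ col j T Λ) (hu' : u ∉ Λ) :
    ∀ z ∈ col j T Λ, ∃ a : ℤ, z - a * u ∈ Λ := by
  obtain ⟨w, hw, -, hk⟩ := d.cycT Λ hΛ
  intro z hz
  obtain ⟨b, hb⟩ := hk u hu
  obtain ⟨c, hc⟩ := hk z hz
  have h1 : (b : ZMod t) ≠ 0 := fun e => hu' (mem_of_eq
    (add_mem hb (cong (d.t_mul hw) (b := 0) (by simpa using e))) (by simp))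
  obtain ⟨a, ha⟩ := ZMod.intCast_surjective ((c : ZMod t) / (b : ZMod t))
  have h2 := cong (d.t_mul hw) (a := c) (b := a * b) (by push_cast; rw [ha, div_mul_cancel₀ _ h1])
  exact ⟨a, mem_of_eq (add_mem (sub_mem hc (int_mul_mem a hb)) h2) (by push_cast; ring)⟩

theorem θ_mul (hΛ : OLat j Λ) {z : ℂ} (hz : z ∈ col j T (col j T Λ)) (hz' : z ∉ col j T Λ) :
    j θ * z ∈ col j T Λ ∧ j θ * z ∉ Λ :=
  ⟨hz _ d.θT, fun e => hz' (d.memT hΛ (((d.homT hΛ).2 z).1 hz) e)⟩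

variable {k : ℕ} (ht : t = 4 * k + 1) {g : ℤ} (hg : IsPrimitiveRoot (g : ZMod t) (t - 1))
include ht hg

theorem gg_eq (hΛ : OLat j Λ) {z : ℂ} (hz : z ∈ col j T (col j T Λ)) (hz' : z ∉ col j T Λ)
    (Q Q' : Ideal O) : gg j g k θ Q Q' T Λ =
      num j g k θ Q Q' T Λ z / (DD j Q Q' Λ * DD j Q Q' (col j T Λ)) ^ k := by
  have hM := d.olT hΛ
  obtain ⟨h0, h1⟩ := half_root ht hg
  obtain ⟨a1, a2⟩ := d.cycT.pt hM
  obtain ⟨a, ha⟩ := d.gen hM hz hz' _ a1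
  have h2 : (a : ZMod t) ≠ 0 := fun e => a2 (mem_of_eq
    (add_mem ha (cong (d.t_mul hz) (b := 0) (by simpa using e))) (by simp))
  obtain ⟨i, -, hi⟩ := exists_pow hg h2
  have h3 : pt j T (col j T Λ) - (g : ℂ) ^ i * z ∈ col j T Λ := mem_of_eq
    (add_mem ha (cong (d.t_mul hz) (b := g ^ i) (by push_cast; exact hi.symm))) (by push_cast; ring)
  have h4 : j θ * pt j T (col j T Λ) - (g : ℂ) ^ i * (j θ * z) ∈ Λ :=
    mem_of_eq (h3 _ d.θT) (by ring)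
  rw [gg, num, num, HP_congr (fun _ _ => hM.1.ff_congr) h3, HP_congr (fun _ _ => hΛ.1.ff_congr) h4,
    HP_pow (fun _ _ => hM.1.ff_congr) hM.1.ff_neg h1 h0 (d.t_mul hz),
    HP_pow (fun _ _ => hΛ.1.ff_congr) hΛ.1.ff_neg h1 h0 (d.t_mul (d.θ_mul hΛ hz hz').1),
    mul_mul_mul_comm, ← mul_pow, neg_mul_neg, one_mul, one_pow, one_mul]

theorem gg4 (hΛ : OLat j Λ) : gg j g k θ P P' T Λ ^ 4 * (t : ℂ) ^ 2 = 1 := by
  have hM := d.olT hΛ
  have hN := d.olT hM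
  obtain ⟨a1, a2⟩ := d.cycT.pt hM
  obtain ⟨b1, b2⟩ := d.θ_mul hΛ a1 a2
  have k1 := d.tw.main hΛ hM ht hg (hΛ.le_col T) (fun _ => d.t_mul) b1 b2 (d.gen hΛ b1 b2)
  have k2 := d.tw.main hM hN ht hg (hM.le_col T) (fun _ => d.t_mul) a1 a2 (d.gen hM a1 a2)
  have k3 := ((d.homT hΛ).wt hN P P').DD d.tw d.tw
  have n1 := d.tw.DD_ne hΛ
  have n2 := d.tw.DD_ne hM
  have n3 := (d.homT hΛ).1
  have k4 : DD j P P' (col j T (col j T Λ)) = t ^ 2 * DD j P P' Λ := by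
    rw [k3, RingHom.id_apply]
    field_simp
  rw [k4] at k2
  rw [gg, num, div_pow, div_mul_eq_mul_div, div_eq_one_iff_eq (by simp [n1, n2])]
  apply mul_right_cancel₀ (mul_ne_zero n1 n2)
  rw [← pow_mul, ← pow_succ, mul_comm k, ← ht, mul_pow, mul_pow, ← k1, ← k2]
  ring

theorem ggT (hs : ¬ IsSquare (((-(s : ℕ) : ℤ) : ZMod t))) (hΛ : OLat j Λ) :
    gg j g k θ P P' T (col j T Λ) = -gg j g k θ P P' T Λ := by
  have hM := d.olT hΛ
  have hN := d.olT hM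
  obtain ⟨h0, h1⟩ := half_root ht hg
  obtain ⟨a1, a2⟩ := d.cycT.pt hM
  obtain ⟨b1, b2⟩ := d.θ_mul hΛ a1 a2
  have n3 := (d.homT hΛ).1
  generalize hz : pt j T (col j T Λ) = z at a1 a2 b1 b2
  have e0 : (t : ℂ) * (j θ * z / t) = j θ * z := by field_simp
  have w := (d.homT hΛ).wt hN P P'
  have k1 := w.DD d.tw d.tw
  have k2 := w.HP d.tw d.tw (fun a z => by rw [mul_left_comm, sub_self]; exact zero_mem _) g (2 * k)
    (j θ * z / t)
  rw [e0] at k2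
  rw [RingHom.id_apply] at k1 k2
  obtain ⟨i, -, hi⟩ := exists_pow hg (a := ((-(s : ℕ) : ℤ) : ZMod t)) fun e => hs (e ▸ IsSquare.zero)
  have hodd : Odd i := by
    rw [← Nat.not_even_iff_odd]
    rintro ⟨m, rfl⟩
    exact hs ⟨g ^ m, by rw [← hi, pow_add]⟩
  have h3 : j θ * (j θ * z / t) - (g : ℂ) ^ i * z ∈ col j T Λ := by
    refine mem_of_eq (cong (d.t_mul a1) (a := -(s : ℕ)) (b := g ^ i) (by rw [← hi]; simp)) ?_
    push_cast
    field_simp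
    linear_combination z * d.jθ
  rw [d.gg_eq ht hg hM (z := j θ * z / t) (((d.homT hM).2 _).2 (mem_of_eq b1 e0))
    (fun e => b2 (mem_of_eq (((d.homT hΛ).2 _).1 e) e0.symm)), gg, hz, num, num,
    HP_congr (fun _ _ => hM.1.ff_congr) h3,
    HP_pow (fun _ _ => hM.1.ff_congr) hM.1.ff_neg h1 h0 (d.t_mul a1), hodd.neg_one_pow, k1, k2]
  have n1 := d.tw.DD_ne hM
  have n2 := d.tw.DD_ne hN
  simp only [mul_pow, ← pow_mul]
  field_simp

theorem gg_tr {σ : ℂ →+* ℂ} {c : ℂ} {φ : ℂ → ℂ} (h' : Two j Q Q')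
    (w : WT j σ c φ P P' Q Q' Λ Λ') (w' : WT j σ c φ P P' Q Q' (col j T Λ) (col j T Λ'))
    (hi : ∀ (a : ℤ) (z : ℂ), φ (a * z) - a * φ z ∈ Λ')
    (hm : ∀ z, z ∈ col j T (col j T Λ) → φ z ∈ col j T (col j T Λ'))
    (hθ : ∀ z, j θ * φ z - φ (j θ * z) ∈ Λ' ∨ j θ * φ z - -φ (j θ * z) ∈ Λ') :
    gg j g k θ Q Q' T Λ' = σ (gg j g k θ P P' T Λ) := by
  obtain ⟨a1, a2⟩ := d.cycT.pt w'.ol
  have k1 : HP g (2 * k) (ff j Q Q' Λ') (j θ * φ (pt j T (col j T Λ))) =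
      HP g (2 * k) (ff j Q Q' Λ') (φ (j θ * pt j T (col j T Λ))) := by
    rcases hθ (pt j T (col j T Λ)) with e | e <;> rw [HP_congr (fun _ _ => w.ol'.1.ff_congr) e]
    exact HP_neg w.ol'.1.ff_neg g k _
  have := w.ne
  rw [d.gg_eq ht hg w.ol' (hm _ a1) (mt (w'.mem _).1 a2), gg, num, num, k1, w.HP d.tw h' hi,
    w'.HP d.tw h' fun a z => w.ol'.le_col T (hi a z), w.DD d.tw h', w'.DD d.tw h', map_div₀,
    map_mul, map_pow, map_mul, mul_mul_mul_comm, mul_mul_mul_comm (c ^ 2), mul_pow, mul_pow,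
    ← pow_mul, mul_div_mul_left _ _ (by simp [this])]

theorem gg_hom {c : ℂ} (h : Hom c Λ Λ') (hΛ : OLat j Λ) :
    gg j g k θ P P' T Λ' = gg j g k θ P P' T Λ :=
  d.gg_tr ht hg d.tw (h.wt hΛ P P') ((h.col j T).wt (d.olT hΛ) P P')
    (fun a z => by rw [mul_left_comm, sub_self]; exact zero_mem _)
    (fun z => (((h.col j T).col j T).2 z).1)
    fun z => Or.inl (by rw [mul_left_comm, sub_self]; exact zero_mem _)

theorem gg_cj (hθ : conj (j θ) = -j θ) (hΛ : OLat j Λ) :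
    gg j g k θ P P' T (cjL Λ) = conj (gg j g k θ P P' T Λ) := by
  have e := cj_col (d.cjT hθ) (d.cjT hθ)
  have hM := d.olT hΛ
  rw [← gg_symm]
  refine d.gg_tr ht hg d.tw.symm (wt_cj hΛ (d.cls_cj Λ hΛ).1 d.cjP d.cjP')
    (e Λ ▸ wt_cj hM (d.cls_cj _ hM).1 d.cjP d.cjP')
    (fun a z => by rw [map_mul, map_intCast, sub_self]; exact zero_mem _) (fun z hz => ?_)
    fun z => Or.inr (by rw [map_mul, hθ, neg_mul, neg_neg, sub_self]; exact zero_mem _)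
  rwa [← e, ← e, mem_cjL, Complex.conj_conj]

theorem gg_trO {σ : ℂ →+* ℂ} {φ : ℂ → ℂ} (h : TrO j σ Λ Λ' φ) :
    gg j g k θ P P' T Λ' = σ (gg j g k θ P P' T Λ) :=
  have h' := h.col hp.out.pos d.tT (d.olT h.ol) (d.olT h.ol')
  d.gg_tr ht hg d.tw (h.wt P P') (h'.wt P P') h.tr.int (fun z => (h'.mem_col T z).2)
    fun z => Or.inl (mem_of_eq (neg_mem (h.lin θ z)) (by ring))

end LatData

theorem cmStmt : CMStmt := by
  intro s t h
  obtain ⟨O, _, j, G, _, _, θ, cl, cls, P, P', T, d⟩ := latStmt s t h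
  have := Fact.mk h.ht
  obtain ⟨k, ht⟩ : ∃ k, t = 4 * k + 1 := ⟨t / 4, by have := h.t8; omega⟩
  obtain ⟨g, hg⟩ := exists_root t
  choose L hL hc using d.cls_surj
  have hθ : conj (j θ) = -j θ :=
    conj_theta (Nat.mul_pos h.hs.pos h.ht.pos) (by rw [d.jθ, Nat.cast_mul])
  have tw := d.tw
  have key : ∀ Λ, OLat j Λ → bb j P' P (L (cls Λ)) = bb j P' P Λ ∧
      bb j P P' (L (cls Λ)) = bb j P P' Λ ∧
      gg j g k θ P P' T (L (cls Λ)) = gg j g k θ P P' T Λ := fun Λ hΛ => by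
    obtain ⟨c, e⟩ := (d.hom_iff Λ _ hΛ (hL (cls Λ))).1 (hc _).symm
    exact ⟨(e.wt hΛ P' P).bb tw.symm tw.symm, (e.wt hΛ P P').bb tw tw, d.gg_hom ht hg e hΛ⟩
  refine ⟨G, inferInstance, inferInstance, j θ, cl P, cl T, fun A => bb j P' P (L A),
    fun A => bb j P P' (L A), fun A => gg j g k θ P P' T (L A), d.jθ, d.two, d.ττ, d.nτ, d.np,
    fun A => tw.circ (hL A), fun A => tw.symm.bb_ne (hL A), fun A => tw.bb_ne (hL A), fun A => ?_,
    fun A => ?_, fun A => d.gg4 ht hg (hL A), fun A => ?_, ?_, fun σ hσ => ?_⟩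
  · obtain ⟨h1, h2⟩ := d.cls_col _ P (hL A) d.neP
    have := (key _ h1).1
    rw [h2, hc] at this
    rw [this, tw.land (hL A)]
  · obtain ⟨h1, h2⟩ := d.cls_cj _ (hL A)
    have := (key _ h1).1
    rw [h2, hc] at this
    rw [this, (wt_cj (hL A) h1 d.cjP d.cjP').bb tw tw.symm]
  · obtain ⟨h1, h2⟩ := d.cls_col _ T (hL A) d.neT
    have := (key _ h1).2.2
    rw [h2, hc, inv_eq_of_mul_eq_one_right d.ττ] at this
    rw [this, d.ggT ht hg h.t_negs (hL A)]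
  · obtain ⟨h1, h2⟩ := d.cls_cj _ (hL 1)
    have := (key _ h1).2.2
    rw [h2, hc, inv_one] at this
    rw [← d.gg_cj ht hg hθ (hL 1), this]
  · obtain ⟨Λ', φ, tr⟩ := d.exists_trO (hL 1) σ hσ
    refine ⟨cls Λ', fun A => ?_⟩
    obtain ⟨I, hI, e⟩ := d.cl_surj A⁻¹
    obtain ⟨n, hn, hnI⟩ := d.exists_nat hI
    obtain ⟨a1, a2⟩ := d.cls_col _ I tr.ol hI
    obtain ⟨b1, b2⟩ := d.cls_col _ I tr.ol' hI
    have tr' := tr.col hn hnI a1 b1
    have k1 := key _ a1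
    have k2 := key _ b1
    rw [a2, hc, e, inv_inv, one_mul] at k1
    rw [b2, e, inv_inv, mul_comm] at k2
    rw [k1.1, k1.2.1, k1.2.2, k2.1, k2.2.1, k2.2.2]
    exact ⟨((tr'.wt P' P).bb tw.symm tw.symm).symm, ((tr'.wt P P').bb tw tw).symm,
      (d.gg_trO ht hg tr').symm⟩

/-- the two-prime theorem -/
theorem twoPrime : TwoPrime := twoPrime_of cmStmt abs desc

end Vale.Agent.P027H
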