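import Vale.Agent.P027H.Wp

/-!
# P027 (H): uniformisation and the addition theorem
-/

open Filter Topology

namespace Vale.Agent.P027H

open Vale.Agent.P010.H193

variable {Λ : Submodule ℤ ℂ}

open Real ModularForm in
/-- a lattice with prescribed invariants -/
theorem exists_lat {a b : ℂ} (hd : 4 * (-a / 4) ^ 3 + 27 * (-b / 4) ^ 2 ≠ 0) :
    ∃ Λ, IsLat Λ ∧ g2 Λ = a ∧ g3 Λ = b := by
  have hd' : a ^ 3 ≠ 27 * b ^ 2 := fun e => hd (by linear_combination (-1 / 16) * e)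
  have hπ : (π : ℂ) ≠ 0 := by exact_mod_cast Real.pi_ne_zero
  by_cases h2 : a = 0
  · subst h2
    have h3 : b ≠ 0 := by
      rintro rfl
      simp at hd'
    obtain ⟨τ, hτ⟩ := P014G.exists_tau (α := 1) (β := 0) one_ne_zero
    have h4 : E₄ τ = 0 := by simpa using hτ
    have hΔ := discriminant_ne_zero τ
    rw [discriminant_eq_E₄_cube_sub_E₆_sq, h4] at hΔ
    have h6 : E₆ τ ≠ 0 := fun e => by simp [e] at hΔ
    obtain ⟨c, hc⟩ := IsAlgClosed.exists_pow_nat_eq (8 * π ^ 6 / 27 * E₆ τ / b) (by norm_num : 0 < 6)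
    have hc0 : c ≠ 0 := by
      rintro rfl
      have : 8 * (π : ℂ) ^ 6 / 27 * E₆ τ / b ≠ 0 := by simp [hπ, h6, h3]
      exact this (by rw [← hc]; simp)
    refine ⟨_, ⟨P014G.mkPP c hc0 τ, rfl⟩, ?_, ?_⟩
    · rw [g2_lat, P014G.g2_mk, h4]
      simp
    · rw [g3_lat, P014G.g3_mk, hc]
      field_simp
  by_cases h3 : b = 0
  · subst h3
    obtain ⟨τ, hτ⟩ := P014G.exists_tau (α := 0) (β := 1) zero_ne_one
    have h6 : E₆ τ = 0 := by simpa using hτ.symm
    have hΔ := discriminant_ne_zero τ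
    rw [discriminant_eq_E₄_cube_sub_E₆_sq, h6] at hΔ
    have h4 : E₄ τ ≠ 0 := fun e => by simp [e] at hΔ
    obtain ⟨c, hc⟩ := IsAlgClosed.exists_pow_nat_eq (4 * π ^ 4 / 3 * E₄ τ / a) (by norm_num : 0 < 4)
    have hc0 : c ≠ 0 := by
      rintro rfl
      have : 4 * (π : ℂ) ^ 4 / 3 * E₄ τ / a ≠ 0 := by simp [hπ, h4, h2]
      exact this (by rw [← hc]; simp)
    refine ⟨_, ⟨P014G.mkPP c hc0 τ, rfl⟩, ?_, ?_⟩
    · rw [g2_lat, P014G.g2_mk, hc]
      field_simp
    · rw [g3_lat, P014G.g3_mk, h6]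
      simp
  obtain ⟨L, h4, h6⟩ := P014G.exists_lattice h2 h3 hd'
  exact ⟨_, ⟨L, rfl⟩, h4, h6⟩

/-- the slope -/
noncomputable def sl (x y x' y' : ℂ) : ℂ := (y - y') / (x - x')

/-- the first coordinate of the sum -/
noncomputable def aX (x y x' y' : ℂ) : ℂ := sl x y x' y' ^ 2 / 4 - x - x'

/-- the second coordinate of the sum -/
noncomputable def aY (x y x' y' : ℂ) : ℂ := -(y + sl x y x' y' * (aX x y x' y' - x))

theorem map_aX (σ : ℂ →+* ℂ) (x y x' y' : ℂ) :
    aX (σ x) (σ y) (σ x') (σ y') = σ (aX x y x' y') := by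
  simp [aX, sl, map_ofNat]

theorem map_aY (σ : ℂ →+* ℂ) (x y x' y' : ℂ) :
    aY (σ x) (σ y) (σ x') (σ y') = σ (aY x y x' y') := by
  simp [aY, aX, sl, map_ofNat]

namespace IsLat

variable (h : IsLat Λ)
include h

theorem surj {x y : ℂ} (e : y ^ 2 = 4 * x ^ 3 - g2 Λ * x - g3 Λ) :
    ∃ z, z ∉ Λ ∧ wp Λ z = x ∧ dwp Λ z = y := by
  obtain ⟨z, hz, h1⟩ : ∃ z, z ∉ Λ ∧ wp Λ z = x := by
    by_contra! k
    obtain ⟨c, hc⟩ := h.liou (f := fun z => (wp Λ z - x)⁻¹)
      (fun z _ l hl => by rw [h.wp_congr (z := z + l) (w := z) (by simpa using hl)])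
      (fun z hz => ((h.hasDerivAt_wp hz).differentiableAt.sub_const x).inv (sub_ne_zero.2 (k z hz)))
      (fun z _ => by rw [h.wp_neg]) (by
        have t0 : Tendsto (fun z : ℂ => z) (𝓝[≠] 0) (𝓝 0) := tendsto_id.mono_left nhdsWithin_le_nhds
        have t1 := (t0.pow 4).mul ((h.tendsto_wp.sub ((t0.pow 2).mul_const x)).inv₀ (by simp))
        simp only [ne_eq, OfNat.ofNat_ne_zero, not_false_eq_true, zero_pow, zero_mul] at t1
        refine t1.congr' ?_
        filter_upwards [self_mem_nhdsWithin] with z (hz : z ≠ 0)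
        rw [← mul_sub, mul_inv]
        field_simp)
    obtain ⟨a, b, -, ha, hb, -, -, -, -, h1, -⟩ := h.exists_three
    exact h1 (sub_left_injective (inv_injective ((hc a ha).trans (hc b hb).symm)))
  have h2 := h.ode hz
  rw [h1, ← e] at h2
  rcases sq_eq_sq_iff_eq_or_eq_neg.1 h2 with h3 | h3
  · exact ⟨z, hz, h1, h3⟩
  · exact ⟨-z, fun k => hz (by simpa using k), by rw [h.wp_neg, h1], by rw [h.dwp_neg, h3, neg_neg]⟩

theorem hasDerivAt_dwp {z : ℂ} (hz : z ∉ Λ) :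
    HasDerivAt (dwp Λ) (6 * wp Λ z ^ 2 - g2 Λ / 2) z := by
  obtain ⟨L, rfl⟩ := h
  have k := (wp_deriv_analyticAt L hz).differentiableAt.hasDerivAt
  rwa [(wp_ode L hz).self_of_nhds] at k

theorem analyticAt_dwp {z : ℂ} (hz : z ∉ Λ) : AnalyticAt ℂ (dwp Λ) z := by
  obtain ⟨L, rfl⟩ := h
  exact wp_deriv_analyticAt L hz

theorem mer_wp (z : ℂ) : MeromorphicAt (wp Λ) z := by
  obtain ⟨L, rfl⟩ := h
  exact L.meromorphic_weierstrassP z

theorem mer_dwp (z : ℂ) : MeromorphicAt (dwp Λ) z := by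
  obtain ⟨L, rfl⟩ := h
  exact L.meromorphic_derivWeierstrassP z

theorem simple {z : ℂ} (hz : z ∉ Λ) (h0 : dwp Λ z = 0) : 12 * wp Λ z ^ 2 - g2 Λ ≠ 0 := by
  have k := (h.hasDerivAt_dwp hz).deriv
  have k2 := (h.dwp_eq_zero hz).1 h0
  obtain ⟨L, rfl⟩ := h
  exact fun e => wp_deriv2_ne L hz k2 (k.trans (by linear_combination e / 2))

theorem ev_ne {z : ℂ} (hz : z ∉ Λ) (c : ℂ) : ∀ᶠ x in 𝓝[≠] z, wp Λ x ≠ c := by
  refine ((h.analyticAt_wp hz).eventually_eq_or_eventually_ne analyticAt_const).resolve_left ?_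
  obtain ⟨L, rfl⟩ := h
  exact wp_not_const L

/-- the addition theorem -/
theorem add {z w : ℂ} (hz : z ∉ Λ) (hw : w ∉ Λ) (hne : wp Λ z ≠ wp Λ w) :
    z + w ∉ Λ ∧ wp Λ (z + w) = aX (wp Λ z) (dwp Λ z) (wp Λ w) (dwp Λ w) ∧
      dwp Λ (z + w) = aY (wp Λ z) (dwp Λ z) (wp Λ w) (dwp Λ w) := by
  have ew := h.ode hw
  obtain ⟨l, hl⟩ : ∃ l : ℂ → ℂ, l = fun s => sl (wp Λ s) (dwp Λ s) (wp Λ w) (dwp Λ w) := ⟨_, rfl⟩
  obtain ⟨X, hX⟩ : ∃ X : ℂ → ℂ, X = fun s => l s ^ 2 / 4 - wp Λ s - wp Λ w := ⟨_, rfl⟩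
  obtain ⟨Y, hY⟩ : ∃ Y : ℂ → ℂ, Y = fun s => -(dwp Λ s + l s * (X s - wp Λ s)) := ⟨_, rfl⟩
  have key : ∀ s, s ∉ Λ → wp Λ s ≠ wp Λ w → dwp Λ w = dwp Λ s - l s * (wp Λ s - wp Λ w) ∧
      g2 Λ = 4 * (wp Λ s ^ 2 + wp Λ s * wp Λ w + wp Λ w ^ 2) -
        l s * (2 * dwp Λ s - l s * (wp Λ s - wp Λ w)) := fun s hs k => by
    have k1 := sub_ne_zero.2 k
    have e1 : dwp Λ w = dwp Λ s - l s * (wp Λ s - wp Λ w) := by
      rw [hl]
      simp only [sl]
      field_simp
      ring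
    refine ⟨e1, mul_left_cancel₀ k1 ?_⟩
    have es := h.ode hs
    rw [e1] at ew
    linear_combination es - ew
  have der : ∀ s, s ∉ Λ → wp Λ s ≠ wp Λ w →
      HasDerivAt X (Y s) s ∧ HasDerivAt Y (6 * X s ^ 2 - g2 Λ / 2) s := fun s hs k => by
    obtain ⟨e1, e2⟩ := key s hs k
    have k1 := sub_ne_zero.2 k
    have d1 := h.hasDerivAt_wp hs
    have d2 := h.hasDerivAt_dwp hs
    have d3 : HasDerivAt l (2 * (wp Λ s - X s)) s := by
      have := (d2.sub_const (dwp Λ w)).fun_div (d1.sub_const (wp Λ w)) k1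
      refine (hl ▸ this : HasDerivAt l _ s).congr_deriv ?_
      rw [div_eq_iff (pow_ne_zero 2 k1), e2, e1, hX]
      ring
    have d4 : HasDerivAt X (Y s) s := by
      have := (((d3.fun_pow 2).div_const 4).fun_sub d1).sub_const (wp Λ w)
      refine (this.congr_of_eventuallyEq (.of_forall fun x => congrFun hX x)).congr_deriv ?_
      rw [hY]
      push_cast
      ring
    refine ⟨d4, ?_⟩
    have := (d2.fun_add (d3.fun_mul (d4.fun_sub d1))).fun_neg
    refine (this.congr_of_eventuallyEq (.of_forall fun x => congrFun hY x)).congr_deriv ?_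
    rw [e2, hY, hX]
    ring
  obtain ⟨u, hu, u1, u2⟩ := h.surj (x := X z) (y := Y z) (by
    have e3 : g3 Λ = 4 * wp Λ z ^ 3 - g2 Λ * wp Λ z - dwp Λ z ^ 2 := by
      linear_combination h.ode hz
    rw [e3, (key z hz hne).2, hY, hX]
    ring)
  have ht : ∀ y : ℂ, Tendsto (fun s => y + s) (𝓝 0) (𝓝 y) := fun y => by
    simpa using (continuous_const_add y).tendsto 0
  have aA : ∀ {f : ℂ → ℂ} {y : ℂ}, AnalyticAt ℂ f y → AnalyticAt ℂ (fun s => f (y + s)) 0 :=
    fun {f y} k => AnalyticAt.comp (g := f) (f := fun s => y + s) (by simpa using k) (by fun_prop)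
  have aX' : AnalyticAt ℂ X z := by
    have a1 := h.analyticAt_wp hz
    have a2 := h.analyticAt_dwp hz
    have a3 : AnalyticAt ℂ l z :=
      hl ▸ (a2.sub analyticAt_const).div (a1.sub analyticAt_const) (sub_ne_zero.2 hne)
    rw [hX]
    fun_prop
  have n1 := (ht z).eventually ((h.notMem_nhds hz).and
    ((h.analyticAt_wp hz).continuousAt.eventually_ne hne))
  have n2 := (ht u).eventually (h.notMem_nhds hu)
  have hW := wp_ode_zero (W := fun s => X (z + s) - wp Λ (u + s))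
    (h := fun s => 6 * (X (z + s) + wp Λ (u + s))) ((aA aX').sub (aA (h.analyticAt_wp hu)))
    (analyticAt_const.mul ((aA aX').add (aA (h.analyticAt_wp hu)))) (by simp [u1]) (by
      have k := (((der _ n1.self_of_nhds.1 n1.self_of_nhds.2).1.comp_const_add z 0).fun_sub
        ((h.hasDerivAt_wp n2.self_of_nhds).comp_const_add u 0)).deriv
      rwa [add_zero, add_zero, u2, sub_self] at k) (by
      have k : deriv (fun s => X (z + s) - wp Λ (u + s)) =ᶠ[𝓝 0]
          fun s => Y (z + s) - dwp Λ (u + s) := by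
        filter_upwards [n1, n2] with s s1 s2
        exact (((der _ s1.1 s1.2).1.comp_const_add z s).fun_sub
          ((h.hasDerivAt_wp s2).comp_const_add u s)).deriv
      filter_upwards [k.eventuallyEq_nhds, n1, n2] with s s0 s1 s2
      rw [s0.deriv_eq, (((der _ s1.1 s1.2).2.comp_const_add z s).fun_sub
        ((h.hasDerivAt_dwp s2).comp_const_add u s)).deriv]
      ring)
  have hm : Meromorphic fun s => X s - wp Λ (s + (u - z)) := fun s => by
    have m1 := h.mer_wp s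
    have m2 := h.mer_dwp s
    have m3 : MeromorphicAt l s := hl ▸ (m2.sub (.const _ _)).div (m1.sub (.const _ _))
    refine MeromorphicAt.sub (f := X) ?_
      ((h.mer_wp _).comp_analyticAt (g := fun x => x + (u - z)) (by fun_prop))
    rw [hX]
    fun_prop
  have i1 := wp_ident hm (z := z) (w := -w) (by
    have t2 : Tendsto (fun x : ℂ => x - z) (𝓝 z) (𝓝 0) := by
      simpa using (continuous_sub_right z).tendsto z
    filter_upwards [(t2.eventually hW).filter_mono nhdsWithin_le_nhds] with x hx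
    rwa [add_sub_cancel, show u + (x - z) = x + (u - z) by ring] at hx)
  have hw' : -w ∉ Λ := fun k => hw (by simpa using k)
  have hc : -w + (u - z) ∈ Λ := by
    by_contra hc
    have c1 := (h.analyticAt_wp hw').continuousAt
    have c2 := (h.analyticAt_dwp hw').continuousAt
    have c3 : ContinuousAt (fun s => wp Λ (s + (u - z))) (-w) :=
      ContinuousAt.comp (g := wp Λ) (h.analyticAt_wp hc).continuousAt (by fun_prop)
    have lim : ∀ {f : ℂ → ℂ}, ContinuousAt f (-w) → (∀ᶠ s in 𝓝[≠] (-w), f s = 0) → f (-w) = 0 :=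
      fun {f} k1 k2 => tendsto_nhds_unique_of_eventuallyEq
        (k1.tendsto.mono_left nhdsWithin_le_nhds) tendsto_const_nhds k2
    have ev := ((h.notMem_nhds hw').filter_mono nhdsWithin_le_nhds).and
      ((h.ev_ne hw' (wp Λ w)).and i1)
    have y0 : dwp Λ w = 0 := by
      have k := lim (f := fun s => (dwp Λ s - dwp Λ w) ^ 2 -
        4 * (wp Λ (s + (u - z)) + wp Λ s + wp Λ w) * (wp Λ s - wp Λ w) ^ 2) (by fun_prop) (by
          filter_upwards [ev] with s ⟨s1, s2, s3⟩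
          rw [(key s s1 s2).1, ← sub_eq_zero.1 s3, hX]
          ring)
      simp only [h.wp_neg, h.dwp_neg] at k
      exact pow_eq_zero_iff (two_ne_zero) |>.1 (by linear_combination k / 4)
    have k := lim (f := fun s => 4 * (wp Λ s ^ 2 + wp Λ s * wp Λ w + wp Λ w ^ 2) - g2 Λ -
      4 * (wp Λ (s + (u - z)) + wp Λ s + wp Λ w) * (wp Λ s - wp Λ w)) (by fun_prop) (by
        filter_upwards [ev] with s ⟨s1, s2, s3⟩
        obtain ⟨e1, e2⟩ := key s s1 s2
        rw [y0] at e1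
        rw [e2, ← sub_eq_zero.1 s3, hX]
        linear_combination (-2 * l s) * e1)
    simp only [h.wp_neg] at k
    exact h.simple hw y0 (by linear_combination k)
  have hc' : u - (z + w) ∈ Λ := mem_of_eq hc (by ring)
  refine ⟨fun k => hu (mem_of_eq (add_mem hc' k) (by ring)), ?_, ?_⟩
  · rw [← h.wp_congr hc', u1, hX, hl]
    rfl
  · rw [← h.dwp_congr hc', u2, hY, hX, hl]
    rfl

end IsLat

end Vale.Agent.P027H
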