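import Vale.Agent.P027H.Iface

/-!
# P027 (H): conics without points
-/

namespace Vale.Agent.P027H

theorem nosolN {q : ℕ} (hq : q.Prime) {c d : ℤ} (hc : ¬ IsSquare (c : ZMod q))
    (hd : ¬ (q : ℤ) ∣ d) : ∀ (n : ℕ) (x y z : ℤ), x.natAbs + y.natAbs + z.natAbs = n →
      x ^ 2 = c * y ^ 2 + q * d * z ^ 2 → x = 0 ∧ y = 0 ∧ z = 0 := by
  intro n
  induction n using Nat.strong_induction_on with
  | _ n ih =>
    intro x y z hn h
    have := Fact.mk hq
    have hq' : Prime (q : ℤ) := Nat.prime_iff_prime_int.mp hq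
    have hq0 : (q : ℤ) ≠ 0 := hq'.ne_zero
    have h1 : (x : ZMod q) ^ 2 = c * (y : ZMod q) ^ 2 := by
      have := congrArg (Int.cast : ℤ → ZMod q) h
      push_cast at this
      rw [this, ZMod.natCast_self]
      ring
    have hy : (y : ZMod q) = 0 := by
      by_contra hy
      exact hc ⟨x / y, by field_simp; linear_combination -h1⟩
    have hx : (x : ZMod q) = 0 := by
      rw [hy] at h1
      exact pow_eq_zero_iff (two_ne_zero) |>.1 (by rw [h1]; ring)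
    obtain ⟨x', rfl⟩ := (ZMod.intCast_zmod_eq_zero_iff_dvd _ _).1 hx
    obtain ⟨y', rfl⟩ := (ZMod.intCast_zmod_eq_zero_iff_dvd _ _).1 hy
    have h2 : (q : ℤ) ∣ d * z ^ 2 :=
      ⟨x' ^ 2 - c * y' ^ 2, mul_left_cancel₀ hq0 (by linear_combination -h)⟩
    obtain ⟨z', rfl⟩ := hq'.dvd_of_dvd_pow ((hq'.dvd_or_dvd h2).resolve_left hd)
    have h3 : x' ^ 2 = c * y' ^ 2 + q * d * z' ^ 2 :=
      mul_left_cancel₀ (pow_ne_zero 2 hq0) (by linear_combination h)
    by_cases h0 : x'.natAbs + y'.natAbs + z'.natAbs = 0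
    · have a1 : x' = 0 := by omega
      have a2 : y' = 0 := by omega
      have a3 : z' = 0 := by omega
      simp [a1, a2, a3]
    · have hlt : x'.natAbs + y'.natAbs + z'.natAbs < n := by
        rw [← hn]
        simp only [Int.natAbs_mul, Int.natAbs_natCast]
        have := hq.two_le
        nlinarith [Nat.pos_of_ne_zero h0]
      obtain ⟨a1, a2, a3⟩ := ih _ hlt x' y' z' rfl h3
      simp [a1, a2, a3]

theorem nosolZ {q : ℕ} (hq : q.Prime) {c d : ℤ} (hc : ¬ IsSquare (c : ZMod q))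
    (hd : ¬ (q : ℤ) ∣ d) {x y z : ℤ} (h : x ^ 2 = c * y ^ 2 + q * d * z ^ 2) :
    x = 0 ∧ y = 0 ∧ z = 0 := nosolN hq hc hd _ x y z rfl h

theorem nosolQ {q : ℕ} (hq : q.Prime) {c d : ℤ} (hc : ¬ IsSquare (c : ZMod q))
    (hd : ¬ (q : ℤ) ∣ d) {x y z : ℚ} (h : x ^ 2 = c * y ^ 2 + q * d * z ^ 2) :
    x = 0 ∧ y = 0 ∧ z = 0 := by
  have hx := Rat.mul_den_eq_num x
  have hy := Rat.mul_den_eq_num y
  have hz := Rat.mul_den_eq_num z
  have h1 : (x.num * y.den * z.den : ℤ) ^ 2 = c * (y.num * x.den * z.den) ^ 2 +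
      q * d * (z.num * x.den * y.den) ^ 2 := by
    have : ((x.num : ℚ) * y.den * z.den) ^ 2 = c * (y.num * x.den * z.den) ^ 2 +
      q * d * (z.num * x.den * y.den) ^ 2 := by
      rw [← hx, ← hy, ← hz]
      linear_combination ((x.den : ℚ) * y.den * z.den) ^ 2 * h
    exact_mod_cast this
  obtain ⟨a1, a2, a3⟩ := nosolZ hq hc hd h1
  simp only [mul_eq_zero, Rat.num_eq_zero, Nat.cast_eq_zero, Rat.den_ne_zero, or_false] at a1 a2 a3
  exact ⟨a1, a2, a3⟩

namespace Hyp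

variable {s t : ℕ} (h : Hyp s t)
include h

theorem ne : s ≠ t := by
  have := h.s8
  have := h.t8
  omega

theorem s_neg : ¬ IsSquare (((-1 : ℤ) : ZMod s)) := by
  have := Fact.mk h.hs
  have h1 := h.s8
  push_cast
  rw [ZMod.exists_sq_eq_neg_one_iff]
  omega

theorem s_two : ¬ IsSquare (((2 : ℤ) : ZMod s)) := by
  have := Fact.mk h.hs
  have h1 := h.s8
  push_cast
  rw [ZMod.exists_sq_eq_two_iff (by omega)]
  omega

theorem t_two : ¬ IsSquare (((2 : ℤ) : ZMod t)) := by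
  have := Fact.mk h.ht
  have h1 := h.t8
  push_cast
  rw [ZMod.exists_sq_eq_two_iff (by omega)]
  omega

theorem t_s : ¬ IsSquare ((((s : ℕ) : ℤ) : ZMod t)) := by
  push_cast
  exact h.ns

theorem s_t : ¬ IsSquare ((((t : ℕ) : ℤ) : ZMod s)) := by
  have := Fact.mk h.ht
  have := Fact.mk h.hs
  have h1 := h.t8
  have h2 := h.s8
  push_cast
  rw [← ZMod.exists_sq_eq_prime_iff_of_mod_four_eq_one (by omega) (by omega)]
  exact h.ns

theorem t_negs : ¬ IsSquare (((-(s : ℕ) : ℤ) : ZMod t)) := by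
  have := Fact.mk h.ht
  have h1 := h.t8
  have h2 : IsSquare (-1 : ZMod t) := by
    rw [ZMod.exists_sq_eq_neg_one_iff]
    omega
  intro h3
  apply h.ns
  have := h2.mul h3
  push_cast at this
  simpa using this

theorem s_one : ¬ (s : ℤ) ∣ 1 := (Nat.prime_iff_prime_int.mp h.hs).not_dvd_one
theorem t_one : ¬ (t : ℤ) ∣ 1 := (Nat.prime_iff_prime_int.mp h.ht).not_dvd_one
theorem s_none : ¬ (s : ℤ) ∣ -1 := by rw [dvd_neg]; exact h.s_one
theorem t_none : ¬ (t : ℤ) ∣ -1 := by rw [dvd_neg]; exact h.t_one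

theorem s_dt : ¬ (s : ℤ) ∣ (t : ℤ) := by
  rw [Int.natCast_dvd_natCast, Nat.prime_dvd_prime_iff_eq h.hs h.ht]
  exact h.ne

theorem t_ds : ¬ (t : ℤ) ∣ (s : ℤ) := by
  rw [Int.natCast_dvd_natCast, Nat.prime_dvd_prime_iff_eq h.ht h.hs]
  exact h.ne.symm

theorem s_ndt : ¬ (s : ℤ) ∣ -(t : ℤ) := by rw [dvd_neg]; exact h.s_dt
theorem t_nds : ¬ (t : ℤ) ∣ -(s : ℤ) := by rw [dvd_neg]; exact h.t_ds

end Hyp

end Vale.Agent.P027H
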