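import Vale.Agent.P027H.Add

/-!
# P027 (H): points of order two, the transformation of Landen and the product formula
-/

open Filter Topology Finset

namespace Vale.Agent.P027H

variable {Λ M : Submodule ℤ ℂ} {a b : ℂ}

/-- two independent points of order two -/
structure Half (Λ : Submodule ℤ ℂ) (a b : ℂ) : Prop where
  lat : IsLat Λ
  a0 : a ∉ Λ
  b0 : b ∉ Λ
  ab : a + b ∉ Λ
  a2 : 2 * a ∈ Λ
  b2 : 2 * b ∈ Λ

namespace Half

variable (h : Half Λ a b)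
include h

theorem symm : Half Λ b a := ⟨h.lat, h.b0, h.a0, add_comm a b ▸ h.ab, h.b2, h.a2⟩

theorem third : Half Λ a (a + b) :=
  ⟨h.lat, h.a0, h.ab, fun k => h.b0 (mem_of_eq (sub_mem k h.a2) (by ring)), h.a2,
    mem_of_eq (add_mem h.a2 h.b2) (by ring)⟩

theorem ne {z : ℂ} (hz : z ∉ Λ) (hz' : z + a ∉ Λ) : wp Λ z ≠ wp Λ a :=
  h.lat.wp_ne hz h.a0 (fun k => hz' (mem_of_eq (add_mem k h.a2) (by ring))) hz'

theorem ne12 : wp Λ a - wp Λ b ≠ 0 := sub_ne_zero.2 (h.symm.ne h.a0 h.ab)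

theorem root : 4 * wp Λ a ^ 3 - g2 Λ * wp Λ a - g3 Λ = 0 := by
  rw [← h.lat.ode h.a0, (h.lat.dwp_eq_zero h.a0).2 h.a2]
  simp

theorem g2_eq : g2 Λ = 4 * (wp Λ a ^ 2 + wp Λ a * wp Λ b + wp Λ b ^ 2) :=
  mul_left_cancel₀ h.ne12 (by linear_combination h.symm.root - h.root)

theorem sum : wp Λ (a + b) = -wp Λ a - wp Λ b := by
  have k := h.symm.third.ne12
  rw [add_comm b a] at k
  exact mul_left_cancel₀ k (by linear_combination (h.third.g2_eq - h.g2_eq) / 4)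

theorem ne13 : 2 * wp Λ a + wp Λ b ≠ 0 := fun e => h.third.ne12 (by
  rw [h.sum]
  linear_combination e)

theorem fac {z : ℂ} (hz : z ∉ Λ) :
    dwp Λ z ^ 2 = 4 * (wp Λ z - wp Λ a) * (wp Λ z - wp Λ b) * (wp Λ z + wp Λ a + wp Λ b) := by
  have e : g3 Λ = 4 * wp Λ a ^ 3 - g2 Λ * wp Λ a := by linear_combination -h.root
  rw [h.lat.ode hz, e, h.g2_eq]
  ring

theorem tr {z : ℂ} (hz : z ∉ Λ) (hz' : z + a ∉ Λ) :
    (wp Λ (z + a) - wp Λ a) * (wp Λ z - wp Λ a) = (wp Λ a - wp Λ b) * (2 * wp Λ a + wp Λ b) := by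
  have k := sub_ne_zero.2 (h.ne hz hz')
  rw [(h.lat.add hz h.a0 (h.ne hz hz')).2.1, (h.lat.dwp_eq_zero h.a0).2 h.a2, aX, sl, sub_zero,
    div_pow, h.fac hz]
  field_simp
  ring

theorem four {x : ℂ} (hx : 2 * x - a ∈ Λ) : x ∉ Λ ∧ x + a ∉ Λ ∧ wp Λ (x - a) = wp Λ x ∧
    (wp Λ x - wp Λ a) ^ 2 = (wp Λ a - wp Λ b) * (2 * wp Λ a + wp Λ b) := by
  have x0 : x ∉ Λ := fun k => h.a0 (mem_of_eq (sub_mem (add_mem k k) hx) (by ring))
  have x1 : x + a ∉ Λ := fun k =>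
    h.a0 (mem_of_eq (sub_mem (sub_mem (add_mem k k) hx) h.a2) (by ring))
  refine ⟨x0, x1, h.lat.wp_congr' (mem_of_eq hx (by ring)), ?_⟩
  rw [← h.tr x0 x1, h.lat.wp_congr' (z := x + a) (w := x) (mem_of_eq (add_mem hx h.a2) (by ring))]
  ring

end Half

/-- `y` generates the cyclic group `M / Λ` of order `t` -/
structure Gen (t : ℕ) (y : ℂ) (Λ M : Submodule ℤ ℂ) : Prop where
  le : Λ ≤ M
  mem : y ∈ M
  dvd : ∀ k : ℤ, (k : ℂ) * y ∈ Λ ↔ (t : ℤ) ∣ k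
  ex : ∀ w ∈ M, ∃ k : ℤ, w - k * y ∈ Λ

theorem gen_of {t : ℕ} (ht : t.Prime) (hle : Λ ≤ M) (h1 : ∀ z ∈ M, (t : ℂ) * z ∈ Λ) {z y : ℂ}
    (hz : z ∈ M) (h2 : ∀ w ∈ M, ∃ k : ℤ, w - k * z ∈ Λ) (hy : y ∈ M) (hy' : y ∉ Λ) :
    Gen t y Λ M := by
  have cop : ∀ k : ℤ, ¬ (t : ℤ) ∣ k → ∃ u v : ℤ, (u : ℂ) * t + v * k = 1 := fun k hk => by
    obtain ⟨u, v, e⟩ := ((Nat.prime_iff_prime_int.1 ht).irreducible.coprime_iff_not_dvd).2 hk
    exact ⟨u, v, by exact_mod_cast congrArg (Int.cast : ℤ → ℂ) e⟩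
  have dv : ∀ x ∈ M, ∀ k : ℤ, (t : ℤ) ∣ k → (k : ℂ) * x ∈ Λ := by
    rintro x hx _ ⟨k, rfl⟩
    exact mem_of_eq (int_mul_mem k (h1 x hx)) (by push_cast; ring)
  refine ⟨hle, hy, fun k => ⟨fun e => by_contra fun hk => ?_, dv y hy k⟩, fun w hw => ?_⟩
  · obtain ⟨u, v, e'⟩ := cop k hk
    exact hy' (mem_of_eq (add_mem (int_mul_mem u (h1 y hy)) (int_mul_mem v e))
      (by linear_combination -y * e'))
  · obtain ⟨m, hm⟩ := h2 y hy
    obtain ⟨k, hk⟩ := h2 w hw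
    obtain ⟨u, v, e'⟩ := cop m fun e => hy' (mem_of_eq (add_mem hm (dv z hz m e)) (by ring))
    exact ⟨k * v, mem_of_eq (add_mem hk (int_mul_mem k (sub_mem (int_mul_mem u (h1 z hz))
      (int_mul_mem v hm)))) (by push_cast; linear_combination -k * z * e')⟩

theorem Gen.reps {t : ℕ} {y : ℂ} (h : Gen t y Λ M) (ht : 0 < t) :
    Reps (fun i : Fin t => ((i : ℕ) : ℂ) * y) Λ M := by
  have ht' : (0 : ℤ) < t := by exact_mod_cast ht
  refine ⟨h.le, fun i => nat_mul_mem _ h.mem, fun m hm => ?_, fun i k e => ?_⟩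
  · obtain ⟨k, hk⟩ := h.ex m hm
    have h1 := Int.emod_nonneg k ht'.ne'
    have h2 := Int.emod_lt_of_pos k ht'
    refine ⟨⟨(k % t).toNat, by omega⟩, mem_of_eq (add_mem hk ((h.dvd (k - k % t)).2
      (Int.dvd_self_sub_emod))) ?_⟩
    have : (((k % t).toNat : ℕ) : ℂ) = ((k % t : ℤ) : ℂ) := by
      exact_mod_cast congrArg (Int.cast : ℤ → ℂ) (Int.toNat_of_nonneg h1)
    simp only [this]
    push_cast
    ring
  · have e' := (h.dvd ((i : ℕ) - (k : ℕ))).1 (mem_of_eq e (by push_cast; ring))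
    have h1 := i.2
    have h2 := k.2
    have := Int.eq_zero_of_abs_lt_dvd e' (abs_lt.2 ⟨by omega, by omega⟩)
    exact Fin.ext (by omega)

theorem Gen.two (h : Gen 2 a Λ M) {z : ℂ} (hz : z ∈ M) (hz' : z ∉ Λ) : z - a ∈ Λ := by
  obtain ⟨i, hi⟩ := (h.reps two_pos).ex z hz
  fin_cases i
  · exact absurd (by simpa using hi) hz'
  · simpa using hi

theorem Gen.velu (h : Gen 2 a Λ M) (hΛ : IsLat Λ) (hM : IsLat M) (z : ℂ) :
    wp M z = wp Λ z + wp Λ (z - a) - wp Λ a := by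
  rw [(h.reps two_pos).wp hΛ hM, Fin.sum_univ_two]
  simp [hΛ.wp_mem (zero_mem _)]
  ring

/-- the transformation of Landen -/
theorem landen (h : Half Λ a b) (g : Gen 2 a Λ M) {x x' : ℂ} (h' : Half M x b)
    (hx : 2 * x - a ∈ Λ) (hx' : 2 * x' - b ∈ Λ) :
    (1 + (wp Λ x - wp Λ a) / (wp Λ a - wp Λ b)) *
      (1 + (wp M x' - wp M b) / (wp M b - wp M x)) = 2 := by
  obtain ⟨-, -, x2, x3⟩ := h.four hx
  obtain ⟨y0, -, -, y3⟩ := h.symm.four hx'
  have y1 : x' + a ∉ Λ := fun k =>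
    h.b0 (mem_of_eq (sub_mem (sub_mem (add_mem k k) hx') h.a2) (by ring))
  have y2 := h.tr y0 y1
  have y4 : wp Λ (x' - a) = -wp Λ x' + 2 * wp Λ b := by
    rw [h.lat.wp_congr (z := x' - a) (w := x' + a) (mem_of_eq (neg_mem h.a2) (by ring))]
    exact mul_right_cancel₀ (sub_ne_zero.2 (h.ne y0 y1)) (by linear_combination y2 + y3)
  have k := h'.symm.ne12
  have k1 := h.ne12
  rw [g.velu h.lat h'.lat b, g.velu h.lat h'.lat x, x2, h.lat.wp_congr (z := b - a) (w := a + b)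
    (mem_of_eq (neg_mem h.a2) (by ring)), h.sum] at k ⊢
  rw [g.velu h.lat h'.lat x', y4, one_add_div k1, one_add_div k, div_mul_div_comm,
    div_eq_iff (mul_ne_zero k1 k)]
  linear_combination -2 * x3

theorem Reps.prod_comp {ι : Type} [Fintype ι] {r : ι → ℂ} (h : Reps r Λ M) (f : ℂ → ℂ)
    (hf : ∀ x y, x - y ∈ Λ → f x = f y) (φ : ℂ → ℂ) (h1 : ∀ i, φ (r i) ∈ M)
    (h2 : ∀ i k, φ (r i) - φ (r k) ∈ Λ → r i - r k ∈ Λ) : ∏ i, f (φ (r i)) = ∏ i, f (r i) := by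
  choose p hp using fun i => h.ex _ (h1 i)
  have hb : Function.Bijective p := Finite.injective_iff_bijective.1 fun i k e =>
    h.inj i k (h2 i k (mem_of_eq (sub_mem (hp i) (hp k)) (by rw [e]; ring)))
  rw [← hb.prod_comp fun i => f (r i)]
  exact prod_congr rfl fun i _ => hf _ _ (hp i)

/-- the product formula -/
theorem prod_wp {n : ℕ} {r : Fin (n + 1) → ℂ} (h : Reps r Λ M) (h0 : r 0 = 0) (hΛ : IsLat Λ)
    (hM : IsLat M) {z w : ℂ} (hz : z ∉ M) (hw : w ∉ M) :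
    (wp Λ z - wp Λ w) * ∏ i : Fin n, (wp Λ (z - r i.succ) - wp Λ w) =
      (∏ i : Fin n, (wp Λ (r i.succ) - wp Λ w)) * (wp M z - wp M w) := by
  have e : ∀ z, ∏ i, (wp Λ (z - r i) - wp Λ w) =
      (wp Λ z - wp Λ w) * ∏ i : Fin n, (wp Λ (z - r i.succ) - wp Λ w) := fun z => by
    rw [Fin.prod_univ_succ, h0, sub_zero]
  have nm : ∀ z, z ∉ M → ∀ i, z - r i ∉ Λ := fun z hz i k =>
    hz (mem_of_eq (add_mem (h.le k) (h.mem i)) (by ring))
  obtain ⟨c, hc⟩ := hM.liou (f := fun z => ∏ i, (wp Λ (z - r i) - wp Λ w) -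
      (∏ i : Fin n, (wp Λ (r i.succ) - wp Λ w)) * wp M z) (fun z _ l hl => by
      rw [hM.wp_congr (z := z + l) (w := z) (by simpa using hl),
        ← h.prod_comp (fun x => wp Λ (z - x) - wp Λ w) (fun x y k => by
          rw [hΛ.wp_congr (z := z - x) (w := z - y) (mem_of_eq (neg_mem k) (by ring))])
          (fun x => x - l) (fun i => sub_mem (h.mem i) hl) fun i k e => mem_of_eq e (by ring)]
      simp only [sub_sub_eq_add_sub])
    (fun z hz => (DifferentiableAt.fun_finsetProd fun i _ =>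
      (((hΛ.hasDerivAt_wp (nm z hz i)).comp_sub_const z (r i)).differentiableAt.sub_const _)).sub
        ((hM.hasDerivAt_wp hz).differentiableAt.const_mul _))
    (fun z _ => by
      rw [hM.wp_neg, ← h.prod_comp (fun x => wp Λ (z - x) - wp Λ w) (fun x y k => by
          rw [hΛ.wp_congr (z := z - x) (w := z - y) (mem_of_eq (neg_mem k) (by ring))])
          (fun x => -x) (fun i => neg_mem (h.mem i)) fun i k e => mem_of_eq (neg_mem e) (by ring)]
      refine congrArg (· - _) (prod_congr rfl fun i _ => ?_)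
      rw [← hΛ.wp_neg, neg_sub, sub_neg_eq_add, sub_neg_eq_add, add_comm]) (by
      have t0 : Tendsto (fun z : ℂ => z) (𝓝[≠] 0) (𝓝 0) := tendsto_id.mono_left nhdsWithin_le_nhds
      have t1 : Tendsto (fun z => ∏ i : Fin n, (wp Λ (z - r i.succ) - wp Λ w)) (𝓝[≠] 0)
          (𝓝 (∏ i : Fin n, (wp Λ (r i.succ) - wp Λ w))) := tendsto_finsetProd _ fun i _ => by
        have k : 0 - r i.succ ∉ Λ := fun k => Fin.succ_ne_zero i (h.inj _ _ (by simpa [h0] using k))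
        have := ((hΛ.analyticAt_wp k).continuousAt.tendsto.comp (t0.sub_const _)).sub_const (wp Λ w)
        rwa [zero_sub, hΛ.wp_neg] at this
      have t2 := ((hΛ.tendsto_wp.sub ((t0.pow 2).mul_const (wp Λ w))).mul t1).sub
        (hM.tendsto_wp.const_mul (∏ i : Fin n, (wp Λ (r i.succ) - wp Λ w)))
      simp only [ne_eq, OfNat.ofNat_ne_zero, not_false_eq_true, zero_pow, zero_mul, sub_zero,
        one_mul, mul_one, sub_self] at t2
      refine t2.congr fun z => ?_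
      rw [e]
      ring)
  have e1 := hc z hz
  have e2 := hc w hw
  rw [e] at e1 e2
  linear_combination e1 - e2

/-- an odd function of weight `-1` -/
noncomputable def eta (Λ : Submodule ℤ ℂ) (e e' z : ℂ) : ℂ :=
  dwp Λ z / (2 * (wp Λ z - e) * (wp Λ z - e'))

theorem eta_symm (e e' z : ℂ) : eta Λ e e' z = eta Λ e' e z := by
  rw [eta, eta, mul_right_comm]

theorem IsLat.eta_congr (h : IsLat Λ) (e e' : ℂ) {z w : ℂ} (k : z - w ∈ Λ) :
    eta Λ e e' z = eta Λ e e' w := by rw [eta, eta, h.wp_congr k, h.dwp_congr k]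

theorem IsLat.eta_neg (h : IsLat Λ) (e e' z : ℂ) : eta Λ e e' (-z) = -eta Λ e e' z := by
  rw [eta, eta, h.wp_neg, h.dwp_neg, neg_div]

theorem prod_half {F : ℕ → ℂ} {n : ℕ} (h : ∀ k < n, F (n + n - k) = F (k + 1)) :
    ∏ i : Fin (n + n), F (i + 1) = (∏ k ∈ Ico 1 n.succ, F k) ^ 2 := by
  rw [Fin.prod_univ_eq_prod_range (fun k => F (k + 1)), prod_range_add, prod_Ico_eq_prod_range,
    Nat.succ_sub_one, sq, ← prod_range_reflect fun k => F (n + k + 1)]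
  refine congrArg₂ _ (prod_congr rfl fun k _ => by rw [add_comm]) (prod_congr rfl fun k hk => ?_)
  have := mem_range.1 hk
  rw [show n + (n - 1 - k) + 1 = n + n - k by omega, h k this, add_comm]

theorem Gen.dd {t : ℕ} {y : ℂ} (g : Gen t y Λ M) (ht : t % 2 = 1) (h : Half Λ a b)
    (h' : Half M a b) : wp M a - wp M b = (wp Λ a - wp Λ b) ^ t *
      (∏ k ∈ Ico 1 (t / 2).succ, eta Λ (wp Λ a) (wp Λ b) (k * y)) ^ 4 := by
  obtain ⟨n, rfl⟩ : ∃ n, t = n + n + 1 := ⟨t / 2, by omega⟩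
  have hr := g.reps (Nat.succ_pos _)
  have e := prod_wp hr (by simp) h.lat h'.lat h'.b0 h'.a0
  have r0 : ∀ i : Fin (n + n), ((i.succ : ℕ) : ℂ) * y ∉ Λ := fun i k =>
    Fin.succ_ne_zero i (hr.inj _ _ (by simpa using k))
  have r1 : ∀ x, x ∉ M → ∀ i : Fin (n + n), ((i.succ : ℕ) : ℂ) * y + x ∉ Λ := fun x hx i k =>
    hx (mem_of_eq (sub_mem (g.le k) (hr.mem i.succ)) (by ring))
  have ra := fun i => sub_ne_zero.2 (h.ne (r0 i) (r1 a h'.a0 i))
  have e1 : ∀ i : Fin (n + n), wp Λ (b - ((i.succ : ℕ) : ℂ) * y) - wp Λ a =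
      (wp Λ b - wp Λ a) * eta Λ (wp Λ a) (wp Λ b) (((i + 1 : ℕ) : ℂ) * y) ^ 2 *
        (wp Λ (((i.succ : ℕ) : ℂ) * y) - wp Λ a) := fun i => by
    have k1 := ra i
    have k2 := sub_ne_zero.2 (h.symm.ne (r0 i) (r1 b h'.b0 i))
    have k3 := h.symm.tr (r0 i) (r1 b h'.b0 i)
    rw [h.lat.wp_congr' (z := b - _) (w := ((i.succ : ℕ) : ℂ) * y + b) (mem_of_eq h.b2 (by ring)),
      ← Fin.val_succ, eta, div_pow, h.fac (r0 i)]
    field_simp
    linear_combination 4 * k3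
  simp only [e1, prod_mul_distrib, prod_const, card_univ, Fintype.card_fin] at e
  rw [prod_half (F := fun k => eta Λ (wp Λ a) (wp Λ b) (k * y) ^ 2) fun k hk => by
    rw [h.lat.eta_congr _ _ (w := -(((k + 1 : ℕ) : ℂ) * y)) (mem_of_eq ((g.dvd _).2 dvd_rfl) (by
      rw [Nat.cast_sub (by omega)]
      push_cast
      ring)), h.lat.eta_neg, neg_sq], prod_pow] at e
  rw [show (n + n + 1) / 2 = n by omega]
  refine mul_left_cancel₀ (prod_ne_zero_iff.2 fun i (_ : i ∈ univ) => ra i) ?_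
  rw [← neg_sub (wp Λ a), Even.neg_pow ⟨n, rfl⟩] at e
  linear_combination e

/-- the lemma of Gauss -/
theorem gauss {t : ℕ} [Fact t.Prime] (ht : t ≠ 2) {F : ℤ → ℂ}
    (h1 : ∀ k l, (t : ℤ) ∣ k - l → F k = F l) (h2 : ∀ k, F (-k) = -F k) {m : ℤ}
    (hm : (m : ZMod t) ≠ 0) : ∏ k ∈ Ico 1 (t / 2).succ, F (m * k) =
      legendreSym t m * ∏ k ∈ Ico 1 (t / 2).succ, F k := by
  have e : ∀ k : ℕ, F (m * k) = (if t / 2 < (m * k : ZMod t).val then -1 else 1) *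
      F ((m * k : ZMod t).valMinAbs.natAbs : ℕ) := fun k => by
    have e1 := ZMod.natCast_natAbs_valMinAbs (m * k : ZMod t)
    split_ifs with c
    · rw [if_neg c.not_ge] at e1
      rw [neg_one_mul, ← h2]
      refine h1 _ _ ((ZMod.intCast_zmod_eq_zero_iff_dvd _ t).1 ?_)
      rw [Int.cast_sub, Int.cast_neg, Int.cast_natCast, e1]
      simp
    · rw [if_pos (not_lt.1 c)] at e1
      rw [one_mul]
      refine h1 _ _ ((ZMod.intCast_zmod_eq_zero_iff_dvd _ t).1 ?_)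
      rw [Int.cast_sub, Int.cast_natCast, e1]
      simp
  simp only [e]
  rw [prod_mul_distrib, prod_ite, prod_const, prod_const_one, mul_one, ZMod.gauss_lemma ht hm]
  rw [Int.cast_pow, Int.cast_neg, Int.cast_one]
  congr 1
  have := congrArg (fun s => (s.map fun k : ℕ => F k).prod)
    (ZMod.Ico_map_valMinAbs_natAbs_eq_Ico_map_id t m hm)
  simpa only [Multiset.map_map, Function.comp_def, ← prod_eq_multiset_prod] using this

end Vale.Agent.P027H
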