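import Vale.Agent.P027H.Cor
import Vale.Agent.P027H.Half

/-!
# P027 (H): the modulus of a lattice with complex multiplication
-/

namespace Vale.Agent.P027H

variable {O : Type} [CommRing O] {j : O →+* ℂ} {Λ Λ' M : Submodule ℤ ℂ} {I I' P P' Q Q' : Ideal O}
  {a b x z c : ℂ} {σ : ℂ →+* ℂ} {R : ℂ → ℂ → Prop}

theorem col_mul : z ∈ col j I (col j I' Λ) ↔ z ∈ col j (I' * I) Λ :=
  ⟨fun h _ hu => Submodule.mul_induction_on hu
    (fun u hu v hv => mem_of_eq (h v hv u hu) (by rw [map_mul, mul_assoc]))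
    fun u v hu hv => mem_of_eq (add_mem hu hv) (by rw [map_add, add_mul]),
    fun h v hv u hu => mem_of_eq (h _ (Ideal.mul_mem_mul hu hv)) (by rw [map_mul, mul_assoc])⟩

theorem col_span (o : OLat j Λ) {S : Set O} : z ∈ col j (Ideal.span S) Λ ↔ ∀ u ∈ S, j u * z ∈ Λ :=
  ⟨fun h u hu => h u (Ideal.subset_span hu), fun h u hu => by
    induction hu using Submodule.span_induction with
    | mem u hu => exact h u hu
    | zero => simp
    | add u v _ _ hu hv => exact mem_of_eq (add_mem hu hv) (by rw [map_add, add_mul])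
    | smul r u _ hu => exact mem_of_eq (o.2 r _ hu) (by rw [smul_eq_mul, map_mul, mul_assoc])⟩

theorem col_mono (h : Λ ≤ M) (I : Ideal O) : col j I Λ ≤ col j I M := fun _ k u hu => h (k u hu)

variable (j) in
/-- a generator of `I⁻¹ Λ / Λ` -/
noncomputable def pt (I : Ideal O) (Λ : Submodule ℤ ℂ) : ℂ :=
  Classical.epsilon fun z => z ∈ col j I Λ ∧ z ∉ Λ

theorem pt_spec (h : Cyc j I) (o : OLat j Λ) : pt j I Λ ∈ col j I Λ ∧ pt j I Λ ∉ Λ :=
  Classical.epsilon_spec (p := fun z => z ∈ col j I Λ ∧ z ∉ Λ)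
    ((h Λ o).imp fun _ k => ⟨k.1, k.2.1⟩)

theorem gen_col (h : Cyc j I) (o : OLat j Λ) {t : ℕ} (ht : t.Prime) (hI : (t : O) ∈ I)
    (hz : z ∈ col j I Λ) (hz' : z ∉ Λ) : Gen t z Λ (col j I Λ) :=
  let ⟨_, h1, _, h2⟩ := h Λ o
  gen_of ht (o.le I) (fun z k => by simpa using k _ hI) h1 h2 hz hz'

variable (j) in
/-- the value of `℘` at the point of order two -/
noncomputable def ee (I : Ideal O) (Λ : Submodule ℤ ℂ) : ℂ := wp Λ (pt j I Λ)

variable (j) in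
/-- the modulus -/
noncomputable def be (P P' : Ideal O) (Λ : Submodule ℤ ℂ) : ℂ :=
  (wp Λ (pt j P (col j P Λ)) - ee j P Λ) / (ee j P Λ - ee j P' Λ)

variable (j) in
/-- the prime two splits -/
structure Two (P P' : Ideal O) : Prop where
  mul : P * P' = Ideal.span {(2 : O)}
  cop : P ⊔ P' = ⊤
  cyc : Cyc j P
  cyc' : Cyc j P'
  ol : ∀ Λ, OLat j Λ → OLat j (col j P Λ)
  ol' : ∀ Λ, OLat j Λ → OLat j (col j P' Λ)

namespace Two

variable (h : Two j P P')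
include h

theorem symm : Two j P' P :=
  ⟨mul_comm P P' ▸ h.mul, sup_comm P P' ▸ h.cop, h.cyc', h.cyc, h.ol', h.ol⟩

theorem mem : ((2 : ℕ) : O) ∈ P := by
  have k : (2 : O) ∈ P * P' := h.mul ▸ Ideal.subset_span rfl
  simpa using Ideal.mul_le_left k

theorem inter (hz : z ∈ col j P Λ) (hz' : z ∈ col j P' Λ) : z ∈ Λ := by
  obtain ⟨u, hu, v, hv, e⟩ := Submodule.mem_sup.1 (h.cop ▸ Submodule.mem_top : (1 : O) ∈ P ⊔ P')
  exact mem_of_eq (add_mem (hz u hu) (hz' v hv)) (by rw [← add_mul, ← map_add, e, map_one, one_mul])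

theorem dbl (hz : z ∈ col j P Λ) : 2 * z ∈ Λ := by simpa [map_ofNat] using hz _ h.mem

variable (o : OLat j Λ)
include o

theorem uniq (ha : a ∈ col j P Λ ∧ a ∉ Λ) (hz : z ∈ col j P Λ ∧ z ∉ Λ) : z - a ∈ Λ :=
  (gen_col h.cyc o Nat.prime_two h.mem ha.1 ha.2).two hz.1 hz.2

theorem ee_eq (ha : a ∈ col j P Λ ∧ a ∉ Λ) : ee j P Λ = wp Λ a :=
  o.1.wp_congr (h.uniq o ha (pt_spec h.cyc o))

theorem half (ha : a ∈ col j P Λ ∧ a ∉ Λ) (hb : b ∈ col j P' Λ ∧ b ∉ Λ) : Half Λ a b :=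
  ⟨o.1, ha.2, hb.2, fun k => hb.2 (h.inter (mem_of_eq (sub_mem (o.le P k) ha.1) (by ring)) hb.1),
    h.dbl ha.1, h.symm.dbl hb.1⟩

theorem nmem (hx : x ∈ col j P (col j P Λ) ∧ x ∉ col j P Λ) : 2 * x ∉ Λ := fun k =>
  hx.2 (h.inter hx.1 (col_mul.2 (h.mul ▸ (col_span o).2 fun u hu => by
    rw [Set.mem_singleton_iff.1 hu, map_ofNat]
    exact k)))

theorem four (ha : a ∈ col j P Λ ∧ a ∉ Λ) (hx : x ∈ col j P (col j P Λ) ∧ x ∉ col j P Λ) :
    2 * x - a ∈ Λ := h.uniq o ha ⟨h.dbl hx.1, h.nmem o hx⟩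

theorem be_eq (ha : a ∈ col j P Λ ∧ a ∉ Λ) (hb : b ∈ col j P' Λ ∧ b ∉ Λ)
    (hx : x ∈ col j P (col j P Λ) ∧ x ∉ col j P Λ) :
    be j P P' Λ = (wp Λ x - wp Λ a) / (wp Λ a - wp Λ b) := by
  have k := h.uniq (h.ol Λ o) hx (pt_spec h.cyc (h.ol Λ o))
  have e : wp Λ (pt j P (col j P Λ)) = wp Λ x := by
    by_cases k' : pt j P (col j P Λ) - x ∈ Λ
    · exact o.1.wp_congr k'
    · exact o.1.wp_congr' (mem_of_eq (add_mem (add_mem (h.uniq o ha ⟨k, k'⟩) (h.four o ha hx))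
        (h.dbl ha.1)) (by ring))
  rw [be, e, h.ee_eq o ha, h.symm.ee_eq o hb]

theorem ne : ee j P Λ - ee j P' Λ ≠ 0 := (h.half o (pt_spec h.cyc o) (pt_spec h.cyc' o)).ne12

theorem be_sq : be j P P' Λ ^ 2 = (2 * ee j P Λ + ee j P' Λ) / (ee j P Λ - ee j P' Λ) := by
  have k := h.ne o
  rw [be]
  simp only [ee] at k ⊢
  rw [div_pow, ((h.half o (pt_spec h.cyc o) (pt_spec h.cyc' o)).four
    (h.four o (pt_spec h.cyc o) (pt_spec h.cyc (h.ol Λ o)))).2.2.2, div_eq_div_iff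
      (pow_ne_zero 2 k) k]
  ring

theorem circ : be j P' P Λ ^ 2 + be j P P' Λ ^ 2 = 1 := by
  have k := h.ne o
  rw [h.be_sq o, h.symm.be_sq o, ← neg_sub (ee j P Λ), div_neg]
  field_simp
  ring

theorem be_ne : be j P P' Λ ≠ 0 := fun e => by
  have k := h.be_sq o
  rw [e, zero_pow two_ne_zero] at k
  exact div_ne_zero (h.half o (pt_spec h.cyc o) (pt_spec h.cyc' o)).ne13 (h.ne o) k.symm

theorem land : (1 + be j P P' Λ) * (1 + be j P' P (col j P Λ)) = 2 := by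
  have o' := h.ol Λ o
  have ha := pt_spec h.cyc o
  have hb := pt_spec h.cyc' o
  have hx := pt_spec h.cyc o'
  have hy := pt_spec h.cyc' (h.ol' Λ o)
  have hb' : pt j P' Λ ∈ col j P' (col j P Λ) ∧ pt j P' Λ ∉ col j P Λ :=
    ⟨col_mono (o.le P) _ hb.1, fun k => hb.2 (h.inter k hb.1)⟩
  rw [h.be_eq o ha hb hx, h.symm.be_eq o' hb' hx ⟨col_mono (col_mono (o.le P) _) _ hy.1, fun k =>
    h.symm.nmem o hy (by
      simpa [map_ofNat] using (col_span (S := {2}) o).1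
        (by rw [← h.mul]; exact col_mul.1 k) 2 rfl)⟩]
  exact landen (h.half o ha hb) (gen_col h.cyc o Nat.prime_two h.mem ha.1 ha.2) (h.half o' hx hb')
    (h.four o ha hx) (h.symm.four o hb hy)

end Two

namespace OCor

variable (k : OCor j σ c R Λ Λ') (h : Two j P P') (h' : Two j Q Q') (m : Mt j σ P Q)
include k h h' m

theorem two : OCor j σ c R (P027H.col j P Λ) (P027H.col j Q Λ') :=
  k.col m (h.ol _ k.ol) (h'.ol _ k.ol') two_pos h.mem

theorem spec {z w : ℂ} (r : R z w) (hz : z ∈ P027H.col j P Λ ∧ z ∉ Λ) :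
    w ∈ P027H.col j Q Λ' ∧ w ∉ Λ' :=
  ⟨((k.two h h' m).cor.mem r).1 hz.1, mt (k.cor.mem r).2 hz.2⟩

theorem ee : ee j Q Λ' = c ^ 2 * σ (ee j P Λ) := by
  obtain ⟨w, r⟩ := k.cor.left (pt j P Λ)
  rw [h'.ee_eq k.ol' (k.spec h h' m r (pt_spec h.cyc k.ol)), k.cor.wp r, P027H.ee]

theorem be (m' : Mt j σ P' Q') : be j Q Q' Λ' = σ (be j P P' Λ) := by
  obtain ⟨w, r⟩ := k.cor.left (pt j P (P027H.col j P Λ))
  rw [h'.be_eq k.ol' (pt_spec h'.cyc k.ol') (pt_spec h'.cyc' k.ol')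
    ((k.two h h' m).spec h h' m r (pt_spec h.cyc (h.ol _ k.ol))), k.cor.wp r, ← P027H.ee,
    ← P027H.ee, k.ee h h' m, k.ee h.symm h'.symm m', ← mul_sub, ← mul_sub,
    mul_div_mul_left _ _ (pow_ne_zero 2 k.cor.cne), P027H.be, map_div₀, map_sub, map_sub]

end OCor

end Vale.Agent.P027H
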