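import Vale.Agent.P027H.Cm1

/-!
# P027 (H): a fourth root attached to the ramified prime
-/

open Finset

namespace Vale.Agent.P027H

variable {O : Type} [CommRing O] {j : O →+* ℂ} {Λ Λ' : Submodule ℤ ℂ} {P P' Q Q' T : Ideal O}
  {y z w c : ℂ} {σ : ℂ →+* ℂ} {R : ℂ → ℂ → Prop} {s t : ℕ} {θ : O}

variable (j) in
/-- the half product -/
noncomputable def hp (t : ℕ) (P P' : Ideal O) (Λ : Submodule ℤ ℂ) (y : ℂ) : ℂ :=
  ∏ k ∈ Ico 1 (t / 2).succ, eta Λ (ee j P Λ) (ee j P' Λ) (k * y)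

theorem hp_mul [Fact t.Prime] (ht : t ≠ 2) (h : IsLat Λ) (hy : (t : ℂ) * y ∈ Λ) {m : ℤ}
    (hm : (m : ZMod t) ≠ 0) (hz : z - m * y ∈ Λ) :
    hp j t P P' Λ z = legendreSym t m * hp j t P P' Λ y := by
  have k := gauss ht (F := fun k => eta Λ (ee j P Λ) (ee j P' Λ) (k * y))
    (fun k l ⟨n, e⟩ => h.eta_congr _ _ (mem_of_eq (int_mul_mem n hy) (by
      rw [← sub_mul, ← Int.cast_sub, e]
      push_cast
      ring))) (fun k => by rw [Int.cast_neg, neg_mul, h.eta_neg]) hm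
  simp only [Int.cast_natCast] at k
  rw [hp, hp, ← k]
  exact prod_congr rfl fun k _ => h.eta_congr _ _ (mem_of_eq (nat_mul_mem k hz) (by
    push_cast
    ring))

theorem OCor.hp (k : OCor j σ c R Λ Λ') (h : Two j P P') (h' : Two j Q Q') (m : Mt j σ P Q)
    (m' : Mt j σ P' Q') (r : R z w) :
    hp j t Q Q' Λ' w = c⁻¹ ^ (t / 2) * σ (hp j t P P' Λ z) := by
  have hc := k.cor.cne
  rw [P027H.hp, P027H.hp, map_prod, show c⁻¹ ^ (t / 2) = ∏ _k ∈ Ico 1 (t / 2).succ, c⁻¹ by simp,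
    ← prod_mul_distrib]
  refine prod_congr rfl fun n _ => ?_
  rw [eta, eta, k.cor.wp (k.cor.nat r n), k.cor.dwp (k.cor.nat r n), k.ee h h' m,
    k.ee h.symm h'.symm m', ← mul_sub, ← mul_sub, map_div₀, map_mul, map_mul, map_sub, map_sub,
    map_ofNat, ← div_div, ← div_div, ← div_div, ← div_div, div_eq_mul_inv, div_eq_mul_inv _ (_ * _),
    mul_inv, mul_inv]
  field_simp

variable (j) in
/-- the fourth root, computed from a generator -/
noncomputable def gb (t : ℕ) (θ : O) (P P' T : Ideal O) (Λ : Submodule ℤ ℂ) (y : ℂ) : ℂ :=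
  hp j t P P' Λ (j θ * y) * hp j t P P' (col j T Λ) y *
    ((ee j P Λ - ee j P' Λ) * (ee j P (col j T Λ) - ee j P' (col j T Λ))) ^ (t / 4)

variable (j) in
/-- the fourth root -/
noncomputable def ga (t : ℕ) (θ : O) (P P' T : Ideal O) (Λ : Submodule ℤ ℂ) : ℂ :=
  gb j t θ P P' T Λ (pt j T (col j T Λ))

theorem ga_symm : ga j t θ P' P T Λ = ga j t θ P P' T Λ := by
  simp only [ga, gb, hp, eta_symm (ee j P' _)]
  congr 2
  ring

variable (j) in
/-- the ramified prime -/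
structure Ram (s t : ℕ) (θ : O) (T : Ideal O) : Prop where
  hyp : Hyp s t
  sq : θ ^ 2 = -((s : O) * t)
  df : T = Ideal.span {(t : O), θ}
  mul : T * T = Ideal.span {(t : O)}
  cyc : Cyc j T
  ol : ∀ Λ, OLat j Λ → OLat j (col j T Λ)

namespace Ram

variable (g : Ram j s t θ T)
include g

theorem mem : (t : O) ∈ T := g.df ▸ Ideal.subset_span (by simp)

theorem mem' : θ ∈ T := g.df ▸ Ideal.subset_span (by simp)

theorem ne : (t : ℂ) ≠ 0 := Nat.cast_ne_zero.2 g.hyp.ht.ne_zero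

theorem two : t ≠ 2 := by
  have := g.hyp.t8
  omega

theorem tmul (hz : z ∈ col j T Λ) : (t : ℂ) * z ∈ Λ := by simpa using hz _ g.mem

variable (o : OLat j Λ)
include o

theorem hom : Hom (t : ℂ)⁻¹ Λ (col j T (col j T Λ)) := ⟨inv_ne_zero g.ne, fun z => by
  rw [col_mul, g.mul, col_span o]
  simp [g.ne]⟩

theorem ocor : OCor j (RingHom.id ℂ) t (fun z w => w = (t : ℂ)⁻¹ * z) Λ (col j T (col j T Λ)) := by
  simpa using (g.hom o).ocor o (g.ol _ (g.ol _ o))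

theorem spec (hy : y ∈ col j T (col j T Λ) ∧ y ∉ col j T Λ) :
    j θ * y ∈ col j T Λ ∧ j θ * y ∉ Λ := ⟨hy.1 _ g.mem', fun k => hy.2 (by
  rw [g.df, col_span o]
  rintro u (rfl | rfl)
  · simpa [g.ne] using ((g.hom o).symm.2 y).1 hy.1
  · exact k)⟩

theorem ga_eq (hy : y ∈ col j T (col j T Λ) ∧ y ∉ col j T Λ) :
    ga j t θ P P' T Λ = gb j t θ P P' T Λ y := by
  have := Fact.mk g.hyp.ht
  have o' := g.ol _ o
  have hx := pt_spec g.cyc o'
  have k := gen_col g.cyc o' g.hyp.ht g.mem hy.1 hy.2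
  obtain ⟨m, hm⟩ := k.ex _ hx.1
  have m0 : (m : ZMod t) ≠ 0 := fun e => hx.2 (mem_of_eq (add_mem hm ((k.dvd m).2
    ((ZMod.intCast_zmod_eq_zero_iff_dvd _ _).1 e))) (by ring))
  have e : (legendreSym t m : ℂ) ^ 2 = 1 := by exact_mod_cast legendreSym.sq_one t m0
  rw [ga, gb, gb, hp_mul g.two o'.1 (g.tmul hy.1) m0 hm, hp_mul g.two o.1 (g.tmul (g.spec o hy).1)
    m0 (mem_of_eq (hm _ g.mem') (by ring)), mul_mul_mul_comm, ← pow_two, e, one_mul]

variable (h : Two j P P')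
include h

theorem odd (ha : z ∈ col j P Λ ∧ z ∉ Λ) : z ∈ col j P (col j T Λ) ∧ z ∉ col j T Λ :=
  ⟨col_mono (o.le T) _ ha.1, fun k => ha.2 (mem_of_eq (sub_mem (g.tmul k)
    (nat_mul_mem (t / 2) (h.dbl ha.1))) (by
      have : t = 2 * (t / 2) + 1 := by
        have := g.hyp.t8
        omega
      nth_rewrite 1 [this]
      push_cast
      ring))⟩

theorem dd (hy : y ∈ col j T Λ ∧ y ∉ Λ) : ee j P (col j T Λ) - ee j P' (col j T Λ) =
    (ee j P Λ - ee j P' Λ) ^ t * hp j t P P' Λ y ^ 4 := by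
  have ha := pt_spec h.cyc o
  have hb := pt_spec h.cyc' o
  have ha' := g.odd o h ha
  have hb' := g.odd o h.symm hb
  rw [h.ee_eq (g.ol _ o) ha', h.symm.ee_eq (g.ol _ o) hb']
  exact (gen_col g.cyc o g.hyp.ht g.mem hy.1 hy.2).dd (by have := g.hyp.t8; omega)
    (h.half o ha hb) (h.half (g.ol _ o) ha' hb')

theorem ee2 : ee j P (col j T (col j T Λ)) = (t : ℂ) ^ 2 * ee j P Λ :=
  (g.ocor o).ee h h (Mt.rfl (fun _ => rfl) _)

theorem ga4 : ga j t θ P P' T Λ ^ 4 = (t : ℂ) ^ 2 := by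
  have o' := g.ol _ o
  have hx := pt_spec g.cyc o'
  have e1 := g.dd o h (g.spec o hx)
  have e2 := g.dd o' h hx
  have k := mul_ne_zero (h.ne o) (h.ne o')
  rw [g.ee2 o h, g.ee2 o h.symm] at e2
  refine mul_left_cancel₀ k ?_
  rw [ga, gb, mul_pow, ← pow_mul, mul_left_comm, ← pow_succ', show t / 4 * 4 + 1 = t by
    have := g.hyp.t8
    omega, mul_pow, mul_pow, mul_comm, mul_mul_mul_comm, ← e1, ← e2]
  ring

theorem ga_col : ga j t θ P P' T (col j T Λ) = -ga j t θ P P' T Λ := by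
  have := Fact.mk g.hyp.ht
  have o' := g.ol _ o
  have hx := pt_spec g.cyc o'
  have m : ∀ I, Mt j (RingHom.id ℂ) I I := Mt.rfl fun _ => rfl
  have k := g.ocor o
  have k' := k.col (m T) o' (g.ol _ k.ol') g.hyp.ht.pos g.mem
  have hy := g.spec o hx
  have e : legendreSym t (-s) = -1 := by
    rw [legendreSym.at_neg g.two, ZMod.χ₄_nat_one_mod_four (by have := g.hyp.t8; omega),
      one_mul, (legendreSym.eq_neg_one_iff' t).2 g.hyp.ns]
  have e' := congrArg j g.sq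
  simp only [map_pow, map_neg, map_mul, map_natCast] at e'
  have t0 := g.ne
  rw [g.ga_eq o' ⟨(k'.cor.mem rfl).1 hy.1, mt (k.cor.mem rfl).2 hy.2⟩, ga, gb, gb,
    k.hp h h (m _) (m _) rfl, g.ee2 o h, g.ee2 o h.symm, hp_mul g.two o'.1 (g.tmul hx.1)
      (m := -s) (fun a => by simp [(legendreSym.eq_zero_iff _ _).2 a] at e) (by
        rw [mul_left_comm, ← mul_assoc (j θ), ← pow_two, e']
        refine mem_of_eq (zero_mem _) ?_
        push_cast
        field_simp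
        ring), e, show t / 2 = 2 * (t / 4) by have := g.hyp.t8; omega, ← mul_sub, pow_mul,
    mul_left_comm _ (_ ^ 2), mul_pow, mul_comm (ee j P Λ - _), inv_pow, inv_pow]
  simp only [RingHom.id_apply]
  push_cast
  field_simp

end Ram

theorem OCor.ga (k : OCor j σ c R Λ Λ') (g : Ram j s t θ T) (h : Two j P P') (h' : Two j Q Q')
    (m : Mt j σ P Q) (m' : Mt j σ P' Q') (n : Mt j σ T T) (e : σ (j θ) = j θ ∨ σ (j θ) = -j θ) :
    ga j t θ Q Q' T Λ' = σ (ga j t θ P P' T Λ) := by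
  have := Fact.mk g.hyp.ht
  have k1 := k.col n (g.ol _ k.ol) (g.ol _ k.ol') g.hyp.ht.pos g.mem
  have k2 := k1.col n (g.ol _ k1.ol) (g.ol _ k1.ol') g.hyp.ht.pos g.mem
  have hx := pt_spec g.cyc k1.ol
  obtain ⟨w, r⟩ := k.cor.left (pt j T (P027H.col j T Λ))
  have hw := (⟨(k2.cor.mem r).1 hx.1, mt (k1.cor.mem r).2 hx.2⟩ : _ ∧ _)
  have hc := k.cor.cne
  have e1 : P027H.hp j t Q Q' Λ' (j θ * w) = c⁻¹ ^ (t / 2) *
      σ (P027H.hp j t P P' Λ (j θ * pt j T (P027H.col j T Λ))) := by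
    rcases e with e | e
    · exact k.hp h h' m m' (k.mul θ θ e.symm r)
    · rw [← k.hp h h' m m' (k.mul θ (-θ) (by rw [e, map_neg]) r), eq_comm,
        hp_mul g.two k.ol'.1 (g.tmul (g.spec k.ol' hw).1) (m := -1) (by simp) (by simp),
        legendreSym.at_neg_one g.two, ZMod.χ₄_nat_one_mod_four (by have := g.hyp.t8; omega)]
      simp
  rw [g.ga_eq k.ol' hw, P027H.ga, gb, gb, e1, k1.hp h h' m m' r, k.ee h h' m, k1.ee h h' m,
    k.ee h.symm h'.symm m', k1.ee h.symm h'.symm m', ← mul_sub, ← mul_sub, mul_mul_mul_comm (c ^ 2),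
    mul_pow, show t / 2 = 2 * (t / 4) by have := g.hyp.t8; omega, pow_mul, inv_pow, inv_pow, mul_pow]
  simp only [map_mul, map_pow, map_sub]
  field_simp

end Vale.Agent.P027H
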