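import Vale.Agent.P027H.Cm2

/-!
# P027 (H): block CM from block LAT
-/

open scoped ComplexConjugate

namespace Vale.Agent.P027H

theorem cm_of (h : LatStmt) : CMStmt := by
  intro s t H
  obtain ⟨O, _, j, G, _, _, θ, cl, cls, P, P', T, D⟩ := h s t H
  choose L L1 L2 using D.cls_surj
  have nb : ∀ {I : Ideal O} {n : ℕ}, 0 < n → (n : O) ∈ I → I ≠ ⊥ := fun hn hI e => by
    have := congrArg j (Ideal.mem_bot.1 (e ▸ hI))
    rw [map_natCast, map_zero, Nat.cast_eq_zero] at this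
    omega
  have m2 : ((2 : ℕ) : O) ∈ P * P' := by simp [D.PP']
  have P0 := nb two_pos (Ideal.mul_le_left m2)
  have T0 : T ≠ ⊥ := nb H.ht.pos (D.Tdef ▸ Ideal.subset_span (by simp))
  have h2 : Two j P P' := ⟨D.PP', D.cop, D.cycP, D.cycP', fun Λ o => (D.cls_col Λ P o P0).1,
    fun Λ o => (D.cls_col Λ P' o (nb two_pos (Ideal.mul_le_right m2))).1⟩
  have g : Ram j s t θ T := ⟨H, D.θsq, D.Tdef, D.TT, D.cycT, fun Λ o => (D.cls_col Λ T o T0).1⟩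
  have tr : ∀ {σ c R Λ Λ'}, OCor j σ c R Λ Λ' → (∀ a, σ (j a) = j a) →
      be j P' P Λ' = σ (be j P' P Λ) ∧ be j P P' Λ' = σ (be j P P' Λ) ∧
        ga j t θ P P' T Λ' = σ (ga j t θ P P' T Λ) := fun k e =>
    ⟨k.be h2.symm h2.symm (Mt.rfl e _) (Mt.rfl e _), k.be h2 h2 (Mt.rfl e _) (Mt.rfl e _),
      k.ga g h2 h2 (Mt.rfl e _) (Mt.rfl e _) (Mt.rfl e _) (.inl (e _))⟩
  have inv : ∀ {Λ A}, OLat j Λ → cls Λ = A → be j P' P (L A) = be j P' P Λ ∧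
      be j P P' (L A) = be j P P' Λ ∧ ga j t θ P P' T (L A) = ga j t θ P P' T Λ :=
    fun o e => by
      obtain ⟨c, hc⟩ := (D.hom_iff _ _ o (L1 _)).1 (e.trans (L2 _).symm)
      exact tr (hc.ocor o (L1 _)) fun _ => rfl
  have sq : j θ ^ 2 = -((s : ℂ) * t) := by simpa using congrArg j D.θsq
  have mt : ∀ {I I' : Ideal O}, (∀ a ∈ I, ∃ a' ∈ I', j a' = conj (j a)) →
      (∀ a ∈ I', ∃ a' ∈ I, j a' = conj (j a)) → Mt j (starRingEnd ℂ) I I' := fun h1 h2 =>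
    ⟨h1, fun a k => (h2 a k).imp fun _ e => ⟨e.1, by rw [e.2, Complex.conj_conj]⟩⟩
  have cθ : conj (j θ) = j θ ∨ conj (j θ) = -j θ :=
    sq_eq_sq_iff_eq_or_eq_neg.1 (by rw [← map_pow, sq]; simp)
  have cO : ∀ a : O, ∃ a', j a' = conj (j a) := fun a => by
    obtain ⟨u, hu, v, hv, e⟩ := Submodule.mem_sup.1 (D.cop ▸ Submodule.mem_top : a ∈ P ⊔ P')
    obtain ⟨u', -, e1⟩ := D.cjP u hu
    obtain ⟨v', -, e2⟩ := D.cjP' v hv
    exact ⟨u' + v', by rw [← e, map_add, map_add, map_add, e1, e2]⟩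
  have cT : ∀ a ∈ T, ∃ a' ∈ T, j a' = conj (j a) := fun a k => by
    obtain ⟨u, v, rfl⟩ := Ideal.mem_span_pair.1 (D.Tdef ▸ k)
    obtain ⟨u', e1⟩ := cO u
    obtain ⟨v', e2⟩ := cO v
    rcases cθ with e | e
    · exact ⟨_, add_mem (T.mul_mem_left u' g.mem) (T.mul_mem_left v' g.mem'), by simp [e, e1, e2]⟩
    · exact ⟨_, sub_mem (T.mul_mem_left u' g.mem) (T.mul_mem_left v' g.mem'), by
        simp [e, e1, e2, sub_eq_add_neg]⟩
  have kc := fun A => (L1 A).ocor_cj (D.cls_cj _ (L1 A)).1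
  refine ⟨G, _, inferInstance, j θ, cl P, cl T, fun A => be j P' P (L A), fun A => be j P P' (L A),
    fun A => (ga j t θ P P' T (L A))⁻¹, sq, D.two, D.ττ, D.nτ, D.np, fun A => h2.circ (L1 A),
    fun A => h2.symm.be_ne (L1 A), fun A => h2.be_ne (L1 A), fun A => ?_, fun A => ?_, fun A => ?_,
    fun A => ?_, ?_, fun σ e => ?_⟩
  · rw [(inv (h2.ol _ (L1 A)) (by rw [(D.cls_col _ P (L1 A) P0).2, L2])).1]
    exact h2.land (L1 A)
  · rw [(inv (kc A).ol' (by rw [(D.cls_cj _ (L1 A)).2, L2])).1]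
    exact ((kc A).be h2 h2.symm (mt D.cjP D.cjP') (mt D.cjP' D.cjP)).symm
  · rw [inv_pow, g.ga4 (L1 A) h2, inv_mul_cancel₀ (pow_ne_zero 2 g.ne)]
  · rw [(inv (g.ol _ (L1 A)) (by rw [(D.cls_col _ T (L1 A) T0).2, L2,
      inv_eq_of_mul_eq_one_right D.ττ])).2.2, g.ga_col (L1 A) h2, inv_neg]
  · rw [map_inv₀, ← (kc 1).ga g h2 h2.symm (mt D.cjP D.cjP') (mt D.cjP' D.cjP) (mt cT cT) cθ,
      ga_symm, (inv (kc 1).ol' (by rw [(D.cls_cj _ (L1 1)).2, L2, inv_one])).2.2]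
  · have hσ : ∀ a, σ (j a) = j a := fun a => by
      obtain ⟨x, y, k⟩ := D.coord a
      rw [k, map_add, map_mul, e, map_ratCast, map_ratCast]
    obtain ⟨Λ, R, k⟩ := (L1 1).ocor_rel σ hσ D.nrm
    refine ⟨cls Λ, fun A => ?_⟩
    obtain ⟨I, I0, hI⟩ := D.cl_surj A⁻¹
    obtain ⟨a, ha, a0⟩ := Submodule.exists_mem_ne_zero_of_ne_bot I0
    obtain ⟨a', n, n0, en⟩ := D.nrm a a0
    have c1 := D.cls_col _ I k.ol I0
    have c2 := D.cls_col _ I k.ol' I0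
    have e0 := tr (k.col (Mt.rfl hσ I) c1.1 c2.1 n0 (en ▸ I.mul_mem_right a' ha)) hσ
    have e1 := inv c1.1 (A := A) (by rw [c1.2, L2, hI, inv_inv, one_mul])
    have e2 := inv c2.1 (A := A * cls Λ) (by rw [c2.2, hI, inv_inv, mul_comm])
    rw [e1.1, e1.2.1, e1.2.2, e2.1, e2.2.1, e2.2.2, map_inv₀, e0.1, e0.2.1, e0.2.2]
    exact ⟨rfl, rfl, rfl⟩

end Vale.Agent.P027H
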