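import Vale.Agent.P027H.Add

/-!
# P027 (H): correspondences between lattices
-/

open scoped ComplexConjugate
open Filter Topology

namespace Vale.Agent.P027H

variable {Λ Λ' M M' : Submodule ℤ ℂ} {c : ℂ} {σ : ℂ →+* ℂ} {R : ℂ → ℂ → Prop}

/-- `R` induces an isomorphism `ℂ / Λ → ℂ / Λ'` which transforms `℘` by `σ` -/
structure Cor (σ : ℂ →+* ℂ) (c : ℂ) (R : ℂ → ℂ → Prop) (Λ Λ' : Submodule ℤ ℂ) : Prop where
  lat : IsLat Λ
  lat' : IsLat Λ'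
  cne : c ≠ 0
  left : ∀ z, ∃ w, R z w
  right : ∀ w, ∃ z, R z w
  sub : ∀ {z w z' w'}, R z w → R z' w' → R (z - z') (w - w')
  mem : ∀ {z w}, R z w → (z ∈ Λ ↔ w ∈ Λ')
  wp : ∀ {z w}, R z w → wp Λ' w = c ^ 2 * σ (wp Λ z)
  dwp : ∀ {z w}, R z w → dwp Λ' w = c ^ 3 * σ (dwp Λ z)

namespace Cor

variable (h : Cor σ c R Λ Λ')
include h

theorem zero : R 0 0 := by
  obtain ⟨w, k⟩ := h.left 0
  simpa using h.sub k k

theorem neg {z w : ℂ} (k : R z w) : R (-z) (-w) := by simpa using h.sub h.zero k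

theorem add {z w z' w' : ℂ} (k : R z w) (k' : R z' w') : R (z + z') (w + w') := by
  simpa using h.sub k (h.neg k')

theorem nat {z w : ℂ} (k : R z w) (n : ℕ) : R (n * z) (n * w) := by
  induction n with
  | zero => simpa using h.zero
  | succ n ih => simpa [add_mul] using h.add ih k

theorem int {z w : ℂ} (k : R z w) (n : ℤ) : R (n * z) (n * w) := by
  obtain ⟨m, rfl | rfl⟩ := n.eq_nat_or_neg
  · simpa using h.nat k m
  · simpa using h.neg (h.nat k m)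

theorem up (hM : IsLat M) (hle : Λ ≤ M) {n : ℕ} (hn : 0 < n) (hnM : ∀ z ∈ M, (n : ℂ) * z ∈ Λ)
    (hm : ∀ {z w}, R z w → (z ∈ M ↔ w ∈ M')) : Cor σ c R M M' := by
  have hle' : Λ' ≤ M' := fun w hw => (h.right w).elim fun z k => (hm k).1 (hle ((h.mem k).2 hw))
  have hM' : IsLat M' := h.lat'.of_between hle' hn fun w hw => (h.right w).elim fun z k =>
    (h.mem (h.nat k n)).1 (hnM z ((hm k).2 hw))
  obtain ⟨ι, _, r, hr⟩ := exists_reps hM hle hn hnM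
  choose f hf using h.left
  have hr' : Reps (fun i => f (r i)) Λ' M' := ⟨hle', fun i => (hm (hf _)).1 (hr.mem i),
    fun w hw => (h.right w).elim fun z k => (hr.ex z ((hm k).2 hw)).imp fun i hi =>
      (h.mem (h.sub k (hf _))).1 hi,
    fun i k e => hr.inj i k ((h.mem (h.sub (hf _) (hf _))).2 e)⟩
  refine ⟨hM, hM', h.cne, h.left, h.right, h.sub, hm, fun k => ?_, fun k => ?_⟩
  · rw [hr.wp h.lat hM, hr'.wp h.lat' hM', map_sum, Finset.mul_sum]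
    refine Finset.sum_congr rfl fun i _ => ?_
    rw [h.wp (h.sub k (hf _)), h.wp (hf _), map_sub, mul_sub]
  · rw [hr.dwp h.lat hM, hr'.dwp h.lat' hM', map_sum, Finset.mul_sum]
    exact Finset.sum_congr rfl fun i _ => h.dwp (h.sub k (hf _))

theorem img (hle : Λ ≤ M) : ∃ M' : Submodule ℤ ℂ, ∀ {z w}, R z w → (z ∈ M ↔ w ∈ M') :=
  ⟨⟨⟨⟨{w | ∃ z ∈ M, R z w}, fun ⟨_, a, a'⟩ ⟨_, b, b'⟩ => ⟨_, add_mem a b, h.add a' b'⟩⟩,
    _, zero_mem _, h.zero⟩, fun n _ ⟨z, a, a'⟩ => ⟨_, int_mul_mem n a, by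
      rw [zsmul_eq_mul]
      exact h.int a' n⟩⟩, fun k => ⟨fun a => ⟨_, a, k⟩, fun ⟨z', a, a'⟩ =>
    mem_of_eq (add_mem (hle ((h.mem (h.sub k a')).2 (by simp))) a) (by ring)⟩⟩

theorem g : g2 Λ' = c ^ 4 * σ (g2 Λ) ∧ g3 Λ' = c ^ 6 * σ (g3 Λ) := by
  have key : ∀ z, z ∉ Λ → (g2 Λ' - c ^ 4 * σ (g2 Λ)) * (c ^ 2 * σ (P027H.wp Λ z)) +
      (g3 Λ' - c ^ 6 * σ (g3 Λ)) = 0 := fun z hz => by
    obtain ⟨w, k⟩ := h.left z
    have e1 := h.lat'.ode (mt (h.mem k).2 hz)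
    have e2 := congrArg σ (h.lat.ode hz)
    rw [h.wp k, h.dwp k] at e1
    simp only [map_sub, map_mul, map_pow, map_ofNat] at e2
    linear_combination e1 - c ^ 6 * e2
  obtain ⟨a, b, -, ha, hb, -, -, -, -, h1, -⟩ := h.lat.exists_three
  have k1 := mul_ne_zero (pow_ne_zero 2 h.cne) (sub_ne_zero.2 (σ.injective.ne h1))
  have e : g2 Λ' - c ^ 4 * σ (g2 Λ) = 0 :=
    mul_right_cancel₀ k1 (by linear_combination key a ha - key b hb)
  have e' := key a ha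
  rw [e, zero_mul, zero_add] at e'
  exact ⟨sub_eq_zero.1 e, sub_eq_zero.1 e'⟩

end Cor

theorem Hom.cor (h : Hom c Λ Λ') (hΛ : IsLat Λ) :
    Cor (RingHom.id ℂ) c⁻¹ (fun z w => w = c * z) Λ Λ' :=
  ⟨hΛ, h.isLat hΛ, inv_ne_zero h.1, fun _ => ⟨_, rfl⟩,
    fun w => ⟨c⁻¹ * w, by rw [← mul_assoc, mul_inv_cancel₀ h.1, one_mul]⟩,
    fun a b => by rw [a, b, mul_sub], fun a => a ▸ h.2 _, fun a => a ▸ h.wp _, fun a => a ▸ h.dwp _⟩

theorem IsLat.cor_cj (hΛ : IsLat Λ) :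
    Cor (starRingEnd ℂ) 1 (fun z w => w = conj z) Λ (cjL Λ) :=
  ⟨hΛ, hΛ.cj, one_ne_zero, fun _ => ⟨_, rfl⟩, fun w => ⟨conj w, (Complex.conj_conj w).symm⟩,
    fun a b => by rw [a, b, map_sub], fun a => by rw [a, mem_cjL, Complex.conj_conj],
    fun a => by rw [a, wp_cj, one_pow, one_mul], fun a => by rw [a, dwp_cj, one_pow, one_mul]⟩

/-- the action of an automorphism on the points -/
def Rel (σ : ℂ →+* ℂ) (Λ Λ' : Submodule ℤ ℂ) (z w : ℂ) : Prop :=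
  (z ∈ Λ ↔ w ∈ Λ') ∧ wp Λ' w = σ (wp Λ z) ∧ dwp Λ' w = σ (dwp Λ z)

section rel

variable (h : IsLat Λ) (h' : IsLat Λ')
include h h'

theorem rel_mem {z w : ℂ} (hz : z ∈ Λ) (hw : w ∈ Λ') : Rel σ Λ Λ' z w :=
  ⟨iff_of_true hz hw, by rw [h.wp_mem hz, h'.wp_mem hw, map_zero],
    by rw [h.dwp_mem hz, h'.dwp_mem hw, map_zero]⟩

theorem rel_congr {z w z' w' : ℂ} (k : Rel σ Λ Λ' z w) (hz : z' - z ∈ Λ) (hw : w' - w ∈ Λ') :
    Rel σ Λ Λ' z' w' :=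
  ⟨⟨fun a => mem_of_eq (add_mem hw (k.1.1 (mem_of_eq (sub_mem a hz) (by ring)))) (by ring),
    fun a => mem_of_eq (add_mem hz (k.1.2 (mem_of_eq (sub_mem a hw) (by ring)))) (by ring)⟩,
    by rw [h.wp_congr hz, h'.wp_congr hw, k.2.1], by rw [h.dwp_congr hz, h'.dwp_congr hw, k.2.2]⟩

theorem rel_neg {z w : ℂ} (k : Rel σ Λ Λ' z w) : Rel σ Λ Λ' (-z) (-w) :=
  ⟨by rw [neg_mem_iff, neg_mem_iff, k.1], by rw [h.wp_neg, h'.wp_neg, k.2.1],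
    by rw [h.dwp_neg, h'.dwp_neg, k.2.2, map_neg]⟩

theorem rel_gen {z w z' w' : ℂ} (k : Rel σ Λ Λ' z w) (k' : Rel σ Λ Λ' z' w') (hz : z ∉ Λ)
    (hz' : z' ∉ Λ) (hne : wp Λ z ≠ wp Λ z') : Rel σ Λ Λ' (z + z') (w + w') := by
  obtain ⟨a1, a2, a3⟩ := h.add hz hz' hne
  obtain ⟨b1, b2, b3⟩ := h'.add (mt k.1.2 hz) (mt k'.1.2 hz') (by
    rw [k.2.1, k'.2.1]
    exact σ.injective.ne hne)
  exact ⟨iff_of_false a1 b1, by rw [a2, b2, k.2.1, k.2.2, k'.2.1, k'.2.2, map_aX],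
    by rw [a3, b3, k.2.1, k.2.2, k'.2.1, k'.2.2, map_aY]⟩

theorem rel_add (left : ∀ z, ∃ w, Rel σ Λ Λ' z w) {z w z' w' : ℂ} (k : Rel σ Λ Λ' z w)
    (k' : Rel σ Λ Λ' z' w') : Rel σ Λ Λ' (z + z') (w + w') := by
  by_cases hz : z ∈ Λ
  · exact rel_congr h h' k' (by simpa using hz) (by simpa using k.1.1 hz)
  by_cases hz' : z' ∈ Λ
  · exact rel_congr h h' k (by simpa using hz') (by simpa using k'.1.1 hz')
  by_cases hs : z + z' ∈ Λ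
  · refine rel_mem h h' hs (mem_of_eq (h'.sub_mem_of_eq (z := w) (w := -w') (mt k.1.2 hz)
      (fun a => hz' (k'.1.2 (by simpa using a))) ?_ ?_) (by ring))
    · rw [h'.wp_neg, k.2.1, k'.2.1, h.wp_congr' hs]
    · rw [h'.dwp_neg, k.2.2, k'.2.2, h.dwp_congr' hs, map_neg]
  by_cases hd : z - z' ∈ Λ
  swap
  · exact rel_gen h h' k k' hz hz' (h.wp_ne hz hz' hd hs)
  have t1 : Tendsto (fun u : ℂ => 2 * u) (𝓝[≠] 0) (𝓝[≠] 0) := by
    simpa using ((hasDerivAt_id' (0 : ℂ)).const_mul 2).tendsto_nhdsNE (by simp)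
  have t2 : Tendsto (fun u : ℂ => z + u) (𝓝[≠] 0) (𝓝 z) := by
    simpa using ((continuous_const_add z).tendsto 0).mono_left nhdsWithin_le_nhds
  have t3 : Tendsto (fun u : ℂ => z - u) (𝓝[≠] 0) (𝓝 z) := by
    simpa using ((continuous_sub_left z).tendsto 0).mono_left nhdsWithin_le_nhds
  obtain ⟨u, u1, u2, u3⟩ := ((t1.eventually h.notMem_zero).and
    ((t2.eventually (h.notMem_nhds hz)).and (t3.eventually (h.notMem_nhds hz)))).exists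
  have u0 : u ∉ Λ := fun a => u1 (mem_of_eq (add_mem a a) (by ring))
  have u4 : z' + -u ∉ Λ := fun a => u3 (mem_of_eq (add_mem a hd) (by ring))
  obtain ⟨v, kv⟩ := left u
  have k1 := rel_gen h h' k kv hz u0 (h.wp_ne hz u0 u3 u2)
  have k2 := rel_gen h h' k' (rel_neg h h' kv) hz' (by simpa using u0)
    (h.wp_ne hz' (by simpa using u0) (fun a => u2 (mem_of_eq (add_mem a hd) (by ring))) u4)
  have k3 := rel_gen h h' k1 k2 u2 u4 (h.wp_ne u2 u4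
    (fun a => u1 (mem_of_eq (sub_mem a hd) (by ring))) fun a => hs (mem_of_eq a (by ring)))
  rwa [show z + u + (z' + -u) = z + z' by ring, show w + v + (w' + -v) = w + w' by ring] at k3

theorem cor_rel (σ : ℂ ≃+* ℂ) (h2 : g2 Λ' = σ (g2 Λ)) (h3 : g3 Λ' = σ (g3 Λ)) :
    Cor σ 1 (Rel σ Λ Λ') Λ Λ' := by
  have left : ∀ z, ∃ w, Rel σ Λ Λ' z w := fun z => by
    by_cases hz : z ∈ Λ
    · exact ⟨0, rel_mem h h' hz (zero_mem _)⟩
    obtain ⟨w, w1, w2, w3⟩ := h'.surj (x := σ (wp Λ z)) (y := σ (dwp Λ z)) (by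
      simpa only [h2, h3, map_sub, map_mul, map_pow, map_ofNat] using congrArg σ (h.ode hz))
    exact ⟨w, iff_of_false hz w1, w2, w3⟩
  refine ⟨h, h', one_ne_zero, left, fun w => ?_, fun a b => ?_, fun a => a.1,
    fun a => by rw [a.2.1, one_pow, one_mul], fun a => by rw [a.2.2, one_pow, one_mul]⟩
  · by_cases hw : w ∈ Λ'
    · exact ⟨0, rel_mem h h' (zero_mem _) hw⟩
    obtain ⟨z, z1, z2, z3⟩ := h.surj (x := σ.symm (wp Λ' w)) (y := σ.symm (dwp Λ' w))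
      (σ.injective (by simpa only [h2, h3, map_sub, map_mul, map_pow, map_ofNat,
        RingEquiv.apply_symm_apply] using h'.ode hw))
    exact ⟨z, iff_of_false z1 hw, by simp [z2], by simp [z3]⟩
  · simpa only [sub_eq_add_neg] using rel_add h h' left a (rel_neg h h' b)

end rel

theorem Cor.rel_mul (h : Cor σ 1 (Rel σ Λ Λ') Λ Λ') {a : ℂ} (ha : a ≠ 0) (hσ : σ a = a)
    (h1 : ∀ z ∈ Λ, a * z ∈ Λ) {n : ℕ} (hn : 0 < n) (h2 : ∀ z, a * z ∈ Λ → (n : ℂ) * z ∈ Λ) :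
    (∀ w ∈ Λ', a * w ∈ Λ') ∧ ∀ {z w}, Rel σ Λ Λ' z w → Rel σ Λ Λ' (a * z) (a * w) := by
  have k := (hom_scl (inv_ne_zero ha) Λ).symm
  have k' := (hom_scl (inv_ne_zero ha) Λ').symm
  rw [inv_inv] at k k'
  have l := k.symm.isLat h.lat
  have hle : Λ ≤ scl a⁻¹ Λ := fun z hz => (k.2 z).2 (h1 z hz)
  obtain ⟨M', hm⟩ := h.img hle
  have u := h.up l hle hn (fun z hz => h2 z ((k.2 z).1 hz)) hm
  obtain rfl : M' = scl a⁻¹ Λ' := u.lat'.ext_g (k'.symm.isLat h.lat')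
    (by rw [u.g.1, k.symm.g2, k'.symm.g2, h.g.1]; simp [hσ])
    (by rw [u.g.2, k.symm.g3, k'.symm.g3, h.g.2]; simp [hσ])
  refine ⟨fun w hw => (h.right w).elim fun z b => (k'.2 w).1 ((hm b).1 (hle (b.1.2 hw))),
    fun b => ⟨by rw [← k.2, ← k'.2]; exact hm b, ?_, ?_⟩⟩
  · rw [k.wp, k'.wp, u.wp b]
    simp [hσ]
  · rw [k.dwp, k'.dwp, u.dwp b]
    simp [hσ]

/-! ### complex multiplication -/

variable {O : Type} [CommRing O] {j : O →+* ℂ} {I I' : Ideal O}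

theorem mem_col {z : ℂ} : z ∈ col j I Λ ↔ ∀ a ∈ I, j a * z ∈ Λ := Iff.rfl

theorem OLat.le (h : OLat j Λ) (I : Ideal O) : Λ ≤ col j I Λ := fun z hz a _ => h.2 a z hz

/-- `σ` maps `I` onto `I'` -/
def Mt (j : O →+* ℂ) (σ : ℂ →+* ℂ) (I I' : Ideal O) : Prop :=
  (∀ a ∈ I, ∃ a' ∈ I', j a' = σ (j a)) ∧ ∀ a' ∈ I', ∃ a ∈ I, j a' = σ (j a)

theorem Mt.rfl (h : ∀ a, σ (j a) = j a) (I : Ideal O) : Mt j σ I I :=
  ⟨fun a k => ⟨a, k, (h a).symm⟩, fun a k => ⟨a, k, (h a).symm⟩⟩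

/-- a correspondence which is compatible with the complex multiplication -/
structure OCor (j : O →+* ℂ) (σ : ℂ →+* ℂ) (c : ℂ) (R : ℂ → ℂ → Prop) (Λ Λ' : Submodule ℤ ℂ) :
    Prop where
  cor : Cor σ c R Λ Λ'
  ol : OLat j Λ
  ol' : OLat j Λ'
  mul : ∀ a a' : O, j a' = σ (j a) → ∀ {z w}, R z w → R (j a * z) (j a' * w)

theorem OCor.col (h : OCor j σ c R Λ Λ') (m : Mt j σ I I') (o : OLat j (col j I Λ))
    (o' : OLat j (col j I' Λ')) {n : ℕ} (hn : 0 < n) (hI : (n : O) ∈ I) :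
    OCor j σ c R (col j I Λ) (col j I' Λ') :=
  ⟨h.cor.up o.1 (h.ol.le I) hn (fun z hz => by simpa using hz _ hI) fun k =>
    ⟨fun b a' ha' => (m.2 a' ha').elim fun a e => (h.cor.mem (h.mul a a' e.2 k)).1 (b a e.1),
      fun b a ha => (m.1 a ha).elim fun a' e => (h.cor.mem (h.mul a a' e.2 k)).2 (b a' e.1)⟩,
    o, o', h.mul⟩

theorem Hom.ocor (h : Hom c Λ Λ') (o : OLat j Λ) (o' : OLat j Λ') :
    OCor j (RingHom.id ℂ) c⁻¹ (fun z w => w = c * z) Λ Λ' :=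
  ⟨h.cor o.1, o, o', fun a a' e z w k => by rw [k, e, RingHom.id_apply, mul_left_comm]⟩

theorem OLat.ocor_cj (o : OLat j Λ) (o' : OLat j (cjL Λ)) :
    OCor j (starRingEnd ℂ) 1 (fun z w => w = conj z) Λ (cjL Λ) :=
  ⟨o.1.cor_cj, o, o', fun a a' e z w k => by rw [k, e, map_mul]⟩

theorem OLat.ocor_rel (o : OLat j Λ) (σ : ℂ ≃+* ℂ) (hσ : ∀ a, σ (j a) = j a)
    (nrm : ∀ a : O, a ≠ 0 → ∃ (a' : O) (n : ℕ), 0 < n ∧ a * a' = n) :
    ∃ Λ' R, OCor j σ 1 R Λ Λ' := by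
  obtain ⟨Λ', h', h2, h3⟩ := exists_lat (a := σ (g2 Λ)) (b := σ (g3 Λ)) (by
    simpa [map_ofNat] using (map_ne_zero σ).2 o.1.disc_ne)
  have h := cor_rel o.1 h' σ h2 h3
  have key : ∀ a : O, (∀ w ∈ Λ', j a * w ∈ Λ') ∧
      ∀ {z w}, Rel σ Λ Λ' z w → Rel σ Λ Λ' (j a * z) (j a * w) := fun a => by
    by_cases ha : j a = 0
    · rw [ha]
      exact ⟨fun w _ => by simp, fun _ => by simpa using h.zero⟩
    obtain ⟨a', n, n0, e⟩ := nrm a fun e => ha (by rw [e, map_zero])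
    exact h.rel_mul ha (hσ a) (o.2 a) n0 fun z hz => mem_of_eq (o.2 a' _ hz) (by
      rw [← mul_assoc, ← map_mul, mul_comm a', e, map_natCast])
  exact ⟨Λ', _, h, o, ⟨h', fun a => (key a).1⟩, fun a a' e z w k => by
    rw [show j a' = j a from e.trans (hσ a)]
    exact (key a).2 k⟩

end Vale.Agent.P027H
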