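import Vale.Agent.P027H.Arith

/-!
# P027 (H): isogeny, Fermat descent and the local conditions
-/

namespace Vale.Agent.P027H

theorem split {x y d m : ℕ} (hxy : x.Coprime y) (hd : d ≠ 0) (h : x * y = d * m ^ 2) :
    ∃ d1 d2 m1 m2 : ℕ, d1 * d2 = d ∧ x = d1 * m1 ^ 2 ∧ y = d2 * m2 ^ 2 := by
  have h1 := hxy.gcd_mul d
  rw [h, Nat.gcd_eq_left (dvd_mul_right d _)] at h1
  obtain ⟨x', hx⟩ := Nat.gcd_dvd_right d x
  obtain ⟨y', hy⟩ := Nat.gcd_dvd_right d y
  generalize Nat.gcd d x = d1 at *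
  generalize Nat.gcd d y = d2 at *
  subst hx hy
  have h2 : x' * y' = m ^ 2 := by
    apply Nat.eq_of_mul_eq_mul_left (Nat.pos_of_ne_zero hd)
    rw [← h, h1]
    ring
  have h3 : x'.Coprime y' := (hxy.coprime_mul_left).coprime_mul_left_right
  obtain ⟨m1, h4⟩ := exists_eq_pow_of_mul_eq_pow (a := x') (b := y') (c := m)
    (Nat.isUnit_iff.2 h3) h2
  obtain ⟨m2, h5⟩ := exists_eq_pow_of_mul_eq_pow (a := y') (b := x') (c := m)
    (Nat.isUnit_iff.2 h3.symm) (by rw [mul_comm, h2])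
  exact ⟨d1, d2, m1, m2, h1.symm, by rw [h4], by rw [h5]⟩

theorem fac1 {p a b : ℕ} (hp : p.Prime) (h : a * b = p) : a = p ∧ b = 1 ∨ a = 1 ∧ b = p := by
  rcases Nat.prime_mul_iff.1 (h ▸ hp) with ⟨-, h1⟩ | ⟨-, h1⟩
  · left
    rw [h1, mul_one] at h
    exact ⟨h, h1⟩
  · right
    rw [h1, one_mul] at h
    exact ⟨h1, h⟩

theorem fac0 {a b : ℕ} (h : a * b = 1) : a = 1 ∧ b = 1 :=
  ⟨Nat.eq_one_of_mul_eq_one_right h, Nat.eq_one_of_mul_eq_one_left h⟩

theorem fac2 {p q a b : ℕ} (hp : p.Prime) (hq : q.Prime) (h : a * b = p * q) :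
    a = p * q ∧ b = 1 ∨ a = p ∧ b = q ∨ a = q ∧ b = p ∨ a = 1 ∧ b = p * q := by
  rcases (Nat.Prime.dvd_mul hp).1 (Dvd.intro q h.symm) with ⟨e, rfl⟩ | ⟨e, rfl⟩
  · rw [mul_assoc] at h
    rcases fac1 hq (Nat.eq_of_mul_eq_mul_left hp.pos h) with ⟨h1, h2⟩ | ⟨h1, h2⟩
    · exact Or.inl ⟨by rw [h1], h2⟩
    · exact Or.inr (Or.inl ⟨by rw [h1, mul_one], h2⟩)
  · rw [mul_left_comm] at h
    rcases fac1 hq (Nat.eq_of_mul_eq_mul_left hp.pos h) with ⟨h1, h2⟩ | ⟨h1, h2⟩
    · exact Or.inr (Or.inr (Or.inl ⟨h1, by rw [h2, mul_one]⟩))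
    · exact Or.inr (Or.inr (Or.inr ⟨h1, by rw [h2]⟩))

/-- the descent step of Fermat -/
theorem fermat {n u v w z : ℕ} (hn : Odd n) (hv : 0 < n * v ^ 2) (hz : Odd (z ^ 2))
    (hc : (u ^ 2).Coprime (n * v ^ 2)) (e1 : u ^ 2 + n * v ^ 2 = w ^ 2)
    (e2 : u ^ 2 = n * v ^ 2 + z ^ 2) :
    ∃ a b c m : ℕ, a < u ^ 2 ∧ a = b + c ∧ 0 < b ∧ Odd c ∧ a.Coprime b ∧
      a * b * ((a + b) * c) = n * m ^ 2 := by
  have hz' : Odd z := (Nat.odd_pow_iff two_ne_zero).1 hz
  have hw' : Odd w := by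
    refine (Nat.odd_pow_iff two_ne_zero).1 ?_
    obtain ⟨k, hk⟩ := hz
    exact ⟨n * v ^ 2 + k, by omega⟩
  have hzw : z < w := by
    by_contra h
    have := Nat.pow_le_pow_left (not_lt.1 h) 2
    omega
  obtain ⟨p, q, hp, hq⟩ : ∃ p q : ℤ, (w : ℤ) = p + q ∧ (z : ℤ) = p - q := by
    obtain ⟨k, hk⟩ := hz'
    obtain ⟨l, hl⟩ := hw'
    exact ⟨l + k + 1, l - k, by omega, by omega⟩
  have E1 : (u : ℤ) ^ 2 + n * v ^ 2 = w ^ 2 := by exact_mod_cast e1
  have E2 : (u : ℤ) ^ 2 = n * v ^ 2 + z ^ 2 := by exact_mod_cast e2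
  rw [hp] at E1
  rw [hq] at E2
  have h1 : p * p + q * q = u * u := by linarith
  have h2 : 2 * (p * q) = n * v ^ 2 := by linarith
  have hp0 : 0 < p := by omega
  have hq0 : 0 < q := by omega
  have hu0 : (0 : ℤ) < u := by
    rcases Nat.eq_zero_or_pos u with h | h
    · rw [h] at h1
      have := mul_pos hp0 hp0
      have := mul_pos hq0 hq0
      simp only [Nat.cast_zero, mul_zero] at h1
      omega
    · exact_mod_cast h
  have hcop : Int.gcd p q = 1 := by
    have h3 : IsCoprime ((u : ℤ) ^ 2) (n * v ^ 2) := by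
      have := Nat.isCoprime_iff_coprime.2 hc
      exact_mod_cast this
    rw [← Int.isCoprime_iff_gcd_eq_one]
    obtain ⟨x, y, hxy⟩ := h3
    exact ⟨x * p + y * 2 * q, x * q, by linear_combination hxy + x * h1 + y * h2⟩
  have key : ∃ A B : ℤ, p * q = (A ^ 2 - B ^ 2) * (2 * A * B) ∧ 0 < A ^ 2 - B ^ 2 ∧
      0 < 2 * A * B ∧ (u : ℤ) = A ^ 2 + B ^ 2 ∧ Int.gcd A B = 1 ∧
      (A % 2 = 0 ∧ B % 2 = 1 ∨ A % 2 = 1 ∧ B % 2 = 0) ∧ 0 ≤ A := by
    have hpar : p % 2 = 1 ∨ q % 2 = 1 := by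
      obtain ⟨l, hl⟩ := hw'
      omega
    rcases hpar with h | h
    · obtain ⟨A, B, a1, a2, a3, a4, a5, a6⟩ :=
        PythagoreanTriple.coprime_classification' (x := p) (y := q) (z := u) h1 hcop h hu0
      exact ⟨A, B, by rw [← a1, ← a2], a1 ▸ hp0, a2 ▸ hq0, a3, a4, a5, a6⟩
    · obtain ⟨A, B, a1, a2, a3, a4, a5, a6⟩ :=
        PythagoreanTriple.coprime_classification' (x := q) (y := p) (z := u)
          (by unfold PythagoreanTriple; linarith) (by rw [Int.gcd_comm, hcop]) h hu0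
      exact ⟨A, B, by rw [← a1, ← a2, mul_comm], a1 ▸ hq0, a2 ▸ hp0, a3, a4, a5, a6⟩
  obtain ⟨A, B, k1, k2, k3, k4, k5, k6, k7⟩ := key
  have hB : 0 < B := by
    by_contra h
    exact absurd k3 (not_lt.2 (Int.mul_nonpos_of_nonneg_of_nonpos (by omega) (not_lt.1 h)))
  have hAB : B < A := lt_of_pow_lt_pow_left₀ 2 k7 (by linarith)
  obtain ⟨a, rfl⟩ := Int.eq_ofNat_of_zero_le k7
  obtain ⟨b, rfl⟩ := Int.eq_ofNat_of_zero_le hB.le
  obtain ⟨c, rfl⟩ : ∃ c, a = b + c := ⟨a - b, by omega⟩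
  have h4 : (4 : ℤ) * ((b + c) * b * ((b + c + b) * c)) = n * v ^ 2 := by
    rw [← h2, k1]
    push_cast
    ring
  have h5 : 4 * ((b + c) * b * ((b + c + b) * c)) = n * v ^ 2 := by exact_mod_cast h4
  have h6 : Even v := by
    by_contra h
    have h7 : Odd (n * v ^ 2) := hn.mul (Nat.not_even_iff_odd.1 h).pow
    rw [← h5] at h7
    obtain ⟨k, hk⟩ := h7
    omega
  obtain ⟨m, rfl⟩ := h6
  refine ⟨b + c, b, c, m, ?_, rfl, by omega, Nat.odd_iff.2 (by omega), ?_, ?_⟩
  · have h7 : u = (b + c) ^ 2 + b ^ 2 := by exact_mod_cast k4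
    have h8 : 0 < b := by omega
    have h9 := Nat.le_self_pow two_ne_zero u
    have h10 := Nat.le_self_pow two_ne_zero (b + c)
    have h11 := pow_pos h8 2
    omega
  · rwa [Int.gcd_natCast_natCast] at k5
  · apply Nat.eq_of_mul_eq_mul_left (by norm_num : 0 < 4)
    rw [h5]
    ring

theorem desc_aux {s t : ℕ} (h : Hyp s t) : ∀ a b c m : ℕ, a = b + c → 0 < b → Odd c →
    a.Coprime b → a * b * ((a + b) * c) = s * t * m ^ 2 → Cert s t := by
  intro a
  induction a using Nat.strong_induction_on with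
  | _ a ih =>
    intro b c m habc hb hc hab he
    have hc0 : 0 < c := hc.pos
    have c1 : b.Coprime c := by
      rw [habc] at hab
      exact (Nat.coprime_add_self_left.1 (by rwa [add_comm] at hab)).symm
    have c2 : a.Coprime c := by
      rw [habc]
      exact Nat.coprime_add_self_left.2 c1
    have c3 : a.Coprime (a + b) := Nat.coprime_self_add_right.2 hab
    have c4 : b.Coprime (a + b) := Nat.coprime_add_self_right.2 hab.symm
    have c5 : (a + b).Coprime c := by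
      rw [show a + b = 2 * b + c by omega]
      exact Nat.coprime_add_self_left.2 (Nat.Coprime.mul_left (Nat.coprime_two_left.2 hc) c1)
    have hst : s * t ≠ 0 := mul_ne_zero h.hs.ne_zero h.ht.ne_zero
    obtain ⟨e1, e2, m1, m2, g0, g1, g2⟩ := split
      (Nat.Coprime.mul_left (c3.mul_right c2) (c4.mul_right c1)) hst he
    have he1 : e1 ≠ 0 := left_ne_zero_of_mul (g0 ▸ hst)
    have he2 : e2 ≠ 0 := right_ne_zero_of_mul (g0 ▸ hst)
    obtain ⟨d1, d2, u, v, f0, f1, f2⟩ := split hab he1 g1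
    obtain ⟨d3, d4, w, z, f3, f4, f5⟩ := split c5 he2 g2
    have hu : (u : ℤ) ≠ 0 := by
      rintro h0
      rw [Int.natCast_eq_zero.1 h0] at f1
      omega
    have hv : (v : ℤ) ≠ 0 := by
      rintro h0
      rw [Int.natCast_eq_zero.1 h0] at f2
      omega
    have hw : (w : ℤ) ≠ 0 := by
      rintro h0
      rw [Int.natCast_eq_zero.1 h0] at f4
      omega
    have hz : (z : ℤ) ≠ 0 := by
      rintro h0
      rw [Int.natCast_eq_zero.1 h0] at f5
      omega
    have n1 : d1 * u ^ 2 + d2 * v ^ 2 = d3 * w ^ 2 := by rw [← f1, ← f2, f4]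
    have n2 : d1 * u ^ 2 = d2 * v ^ 2 + d4 * z ^ 2 := by rw [← f1, ← f2, ← f5, habc]
    have E1 : (d1 : ℤ) * u ^ 2 + d2 * v ^ 2 = d3 * w ^ 2 := by exact_mod_cast n1
    have E2 : (d1 : ℤ) * u ^ 2 = d2 * v ^ 2 + d4 * z ^ 2 := by exact_mod_cast n2
    rcases fac2 h.hs h.ht g0 with ⟨k1, k2⟩ | ⟨k1, k2⟩ | ⟨k1, k2⟩ | ⟨k1, k2⟩ <;>
      rw [k1] at f0 <;> rw [k2] at f3
    · obtain ⟨l3, l4⟩ := fac0 f3
      rw [l3] at E1 n1
      rw [l4] at E2 n2 f5
      rcases fac2 h.hs h.ht f0 with ⟨l1, l2⟩ | ⟨l1, l2⟩ | ⟨l1, l2⟩ | ⟨l1, l2⟩ <;>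
        rw [l1, l2] at E1 E2 <;> push_cast at E1 E2
      · exact absurd (nosolZ h.hs h.s_neg h.s_dt (x := z) (y := v) (z := u)
          (by linear_combination -E2)).1 hz
      · exact absurd (nosolZ h.hs h.s_t h.s_one (x := w) (y := v) (z := u)
          (by linear_combination -E1)).1 hw
      · exact absurd (nosolZ h.hs h.s_t h.s_one (x := w) (y := u) (z := v)
          (by linear_combination -E1)).1 hw
      · rw [l1, l2] at n1 n2
        rw [l1, one_mul] at f1
        rw [l2] at f2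
        simp only [one_mul] at n1 n2 f5
        have hodd : Odd (s * t) := by
          have := h.s8
          have := h.t8
          exact (Nat.odd_iff.2 (by omega)).mul (Nat.odd_iff.2 (by omega))
        obtain ⟨a', b', c', m', q1, q2, q3, q4, q5, q6⟩ := fermat hodd (f2 ▸ hb) (f5 ▸ hc)
          (f1 ▸ f2 ▸ hab) n1 n2
        exact ih a' (f1 ▸ q1) b' c' m' q2 q3 q4 q5 q6
    · rcases fac1 h.hs f0 with ⟨l1, l2⟩ | ⟨l1, l2⟩ <;>
        rcases fac1 h.ht f3 with ⟨l3, l4⟩ | ⟨l3, l4⟩ <;>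
        rw [l1, l2, l3] at E1 <;> rw [l1, l2, l4] at E2 <;> push_cast at E1 E2
      · exact absurd (nosolZ h.hs h.s_t h.s_none (x := v) (y := w) (z := u)
          (by linear_combination E1)).1 hv
      · exact absurd (nosolZ h.ht h.t_s h.t_none (x := v) (y := u) (z := z)
          (by linear_combination -E2)).1 hv
      · exact absurd (nosolZ h.hs h.s_t h.s_none (x := u) (y := w) (z := v)
          (by linear_combination E1)).1 hu
      · exact absurd (nosolZ h.hs h.s_t h.s_one (x := u) (y := z) (z := v)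
          (by linear_combination E2)).1 hu
    · rcases fac1 h.ht f0 with ⟨l1, l2⟩ | ⟨l1, l2⟩ <;>
        rcases fac1 h.hs f3 with ⟨l3, l4⟩ | ⟨l3, l4⟩ <;>
        rw [l1, l2, l3] at E1 <;> rw [l1, l2, l4] at E2 <;> push_cast at E1 E2
      · exact absurd (nosolZ h.ht h.t_s h.t_none (x := v) (y := w) (z := u)
          (by linear_combination E1)).1 hv
      · exact absurd (nosolZ h.hs h.s_t h.s_none (x := v) (y := u) (z := z)
          (by linear_combination -E2)).1 hv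
      · exact absurd (nosolZ h.hs h.s_two h.s_none (x := z) (y := u) (z := w)
          (by linear_combination -E1 - E2)).1 hz
      · exact absurd (nosolZ h.hs h.s_t h.s_one (x := u) (y := v) (z := z)
          (by linear_combination E2)).1 hu
    · obtain ⟨l1, l2⟩ := fac0 f0
      rw [l1, l2] at E1 E2 n1 n2
      rcases fac2 h.hs h.ht f3 with ⟨l3, l4⟩ | ⟨l3, l4⟩ | ⟨l3, l4⟩ | ⟨l3, l4⟩ <;>
        rw [l3] at E1 <;> rw [l4] at E2 <;> push_cast at E1 E2
      · exact absurd (nosolZ h.hs h.s_neg h.s_dt (x := u) (y := v) (z := w)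
          (by linear_combination E1)).1 hu
      · exact absurd (nosolZ h.hs h.s_neg h.s_one (x := u) (y := v) (z := w)
          (by linear_combination E1)).1 hu
      · rw [l1, one_mul] at f1
        rw [l2, one_mul] at f2
        rw [l3] at n1
        rw [l4] at n2
        simp only [one_mul] at n1 n2
        refine ⟨u, v, w, z, ?_, by omega, by omega, by omega, n1, n2⟩
        rw [f1, f2] at hab
        exact (Nat.coprime_pow_left_iff two_pos _ _).1 ((Nat.coprime_pow_right_iff two_pos _ _).1 hab)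
      · exact absurd (nosolZ h.hs h.s_two h.s_ndt (x := w) (y := u) (z := z)
          (by linear_combination -E1 - E2)).1 hw

theorem desc_nat {s t : ℕ} (h : Hyp s t) {a b c m : ℕ} (h1 : a = b + c) (hb : 0 < b) (hc : 0 < c)
    (hab : a.Coprime b) (he : a * b * ((a + b) * c) = s * t * m ^ 2) : Cert s t := by
  rcases Nat.even_or_odd c with ⟨k, hk⟩ | hc'
  · subst h1 hk
    have c1 : b.Coprime (k + k) := (Nat.coprime_add_self_left.1 (by rwa [add_comm] at hab)).symm
    have hbo : Odd b := Nat.coprime_two_right.1 (c1.coprime_dvd_right ⟨k, by ring⟩)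
    have hodd : Odd (s * t) := by
      have := h.s8
      have := h.t8
      exact (Nat.odd_iff.2 (by omega)).mul (Nat.odd_iff.2 (by omega))
    have h5 : 4 * ((k + b) * k * ((k + b + k) * b)) = s * t * m ^ 2 := by
      rw [← he]
      ring
    have h6 : Even m := by
      by_contra h
      have h7 : Odd (s * t * m ^ 2) := hodd.mul (Nat.not_even_iff_odd.1 h).pow
      rw [← h5] at h7
      obtain ⟨k, hk⟩ := h7
      omega
    obtain ⟨m, rfl⟩ := h6
    refine desc_aux h (k + b) k b m rfl (by omega) hbo ?_ ?_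
    · exact Nat.coprime_self_add_left.2 (c1.coprime_dvd_right ⟨2, by ring⟩)
    · apply Nat.eq_of_mul_eq_mul_left (by norm_num : 0 < 4)
      rw [h5]
      ring
  · exact desc_aux h a b c m h1 hb hc' hab he

theorem desc : DescStmt := by
  rintro s t h ⟨X, Y, hY, he⟩
  have hs : (0 : ℚ) < s := by exact_mod_cast h.hs.pos
  have ht : (0 : ℚ) < t := by exact_mod_cast h.ht.pos
  have hY2 : 0 < Y ^ 2 := by positivity
  have hX : X < 0 := by
    by_contra hh
    have h1 := not_lt.1 hh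
    have h2 : 0 ≤ X ^ 3 + 4 * X := by positivity
    have h3 : 0 < (s : ℚ) * t * Y ^ 2 := by positivity
    linarith
  have hX2 : X + 2 ≠ 0 := by
    intro h0
    have h1 : X = -2 := by linarith
    rw [h1] at he
    have := (nosolQ h.hs h.s_neg h.s_dt (x := 4) (y := 0) (z := Y)
      (by push_cast; linear_combination he)).1
    norm_num at this
  have hX0 : X ≠ 0 := hX.ne
  obtain ⟨x, hx⟩ : ∃ x : ℚ, x = -(X ^ 2 + 4) / (4 * X) := ⟨_, rfl⟩
  obtain ⟨y, hy⟩ : ∃ y : ℚ, y = Y * (X ^ 2 - 4) / (8 * X ^ 2) := ⟨_, rfl⟩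
  have h1 : 1 < x := by
    have : x - 1 = (X + 2) ^ 2 / (4 * -X) := by
      rw [hx]
      field_simp
      ring
    have h2 : 0 < (X + 2) ^ 2 / (4 * -X) := div_pos (by positivity) (by linarith)
    linarith
  have h2 : x * (x + 1) * (x - 1) = s * t * y ^ 2 := by
    rw [hx, hy]
    field_simp
    linear_combination (X ^ 2 - 4) ^ 2 * 64 * he
  have h3 := Rat.mul_den_eq_num x
  have hd : (0 : ℚ) < x.den := by exact_mod_cast x.den_pos
  have h4 : (x.den : ℤ) < x.num := by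
    have : (x.den : ℚ) < x.num := by
      rw [← h3]
      nlinarith
    exact_mod_cast this
  obtain ⟨a, ha⟩ := Int.eq_ofNat_of_zero_le (a := x.num) (by omega)
  obtain ⟨c, hc⟩ : ∃ c, a = x.den + c := ⟨a - x.den, by omega⟩
  have hcop : a.Coprime x.den := by
    have := x.reduced
    rwa [ha, Int.natAbs_natCast] at this
  have h5 : ((a * x.den * ((a + x.den) * c) : ℕ) : ℚ) = s * t * (y * x.den ^ 2) ^ 2 := by
    have h6 : (c : ℚ) = a - x.den := by
      rw [hc]
      push_cast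
      ring
    rw [ha, Int.cast_natCast] at h3
    push_cast
    rw [h6, ← h3]
    linear_combination (x.den : ℚ) ^ 4 * h2
  generalize y * x.den ^ 2 = r at h5
  have h6 : r.den = 1 := by
    have h7 := Rat.mul_den_eq_num r
    have h8 : ((a * x.den * ((a + x.den) * c) * r.den ^ 2 : ℕ) : ℤ) = s * t * r.num ^ 2 := by
      have : ((a * x.den * ((a + x.den) * c) * r.den ^ 2 : ℕ) : ℚ) = s * t * r.num ^ 2 := by
        rw [Nat.cast_mul, h5, ← h7]
        push_cast
        ring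
      exact_mod_cast this
    have h9 : r.den ^ 2 ∣ s * t * r.num.natAbs ^ 2 := by
      have := congrArg Int.natAbs h8
      rw [Int.natAbs_natCast, Int.natAbs_mul, Int.natAbs_mul, Int.natAbs_pow, Int.natAbs_natCast,
        Int.natAbs_natCast] at this
      exact ⟨_, by rw [← this, mul_comm]⟩
    have h10 : r.den ^ 2 ∣ s * t :=
      (Nat.Coprime.pow 2 2 r.reduced.symm).dvd_of_dvd_mul_right h9
    have h11 : Squarefree (s * t) :=
      (Nat.squarefree_mul ((Nat.coprime_primes h.hs h.ht).2 h.ne)).2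
        ⟨h.hs.squarefree, h.ht.squarefree⟩
    exact Nat.isUnit_iff.1 (h11 _ (by rwa [← sq]))
  have h7 : ((r.num.natAbs : ℕ) : ℚ) ^ 2 = r ^ 2 := by
    rw [Nat.cast_natAbs, Int.cast_abs, sq_abs, ← Rat.mul_den_eq_num r, h6]
    simp
  rw [← h7] at h5
  exact desc_nat h hc x.den_pos (by omega) hcop (by exact_mod_cast h5)

end Vale.Agent.P027H
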