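import Mathlib

/-!
# P027 (H): interfaces of the proof that `s t` is a congruent number

`s ≡ 3`, `t ≡ 5` modulo `8` are primes and `s` is not a square modulo `t`.
Every block is a `Prop`, proved in its own file.
-/

open scoped ComplexConjugate

namespace Vale.Agent.P027H

/-- the hypotheses on the two primes -/
structure Hyp (s t : ℕ) : Prop where
  hs : s.Prime
  ht : t.Prime
  s8 : s % 8 = 3
  t8 : t % 8 = 5
  ns : ¬ IsSquare (s : ZMod t)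

/-- the conclusion -/
def Cert (s t : ℕ) : Prop := ∃ u v w z : ℕ, Nat.Coprime u v ∧ 0 < v ∧ 0 < w ∧ 0 < z ∧
  u ^ 2 + v ^ 2 = t * w ^ 2 ∧ u ^ 2 = v ^ 2 + s * z ^ 2

/-- the theorem -/
def TwoPrime : Prop := ∀ s t : ℕ, Hyp s t → Cert s t

/-- a rational point on the twist of `y² = x³ + 4 x` which is not killed by two -/
def RatPt (s t : ℕ) : Prop := ∃ X Y : ℚ, Y ≠ 0 ∧ -((s : ℚ) * t) * Y ^ 2 = X ^ 3 + 4 * X

/-- block DESC: isogeny, Fermat descent and local conditions -/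
def DescStmt : Prop := ∀ s t : ℕ, Hyp s t → RatPt s t → Cert s t

/-- the values of three modular functions on the class group -/
structure CM (s t : ℕ) (G : Type) [CommGroup G] (θ : ℂ) (p τ : G) (α β γ : G → ℂ) : Prop where
  θsq : θ ^ 2 = -((s : ℂ) * t)
  two : ∀ A : G, A * A = 1 → A = 1 ∨ A = τ
  ττ : τ * τ = 1
  nτ : ∀ A : G, A * A ≠ τ
  np : ∀ A : G, A * A ≠ p
  circ : ∀ A, α A ^ 2 + β A ^ 2 = 1
  αne : ∀ A, α A ≠ 0
  βne : ∀ A, β A ≠ 0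
  land : ∀ A, (1 + β A) * (1 + α (A * p⁻¹)) = 2
  cj : ∀ A, conj (β A) = α A⁻¹
  γ4 : ∀ A, γ A ^ 4 * (t : ℂ) ^ 2 = 1
  γτ : ∀ A, γ (A * τ) = -γ A
  γcj : conj (γ 1) = γ 1
  gal : ∀ σ : ℂ ≃+* ℂ, σ θ = θ → ∃ ρ : G, ∀ A,
    σ (α A) = α (A * ρ) ∧ σ (β A) = β (A * ρ) ∧ σ (γ A) = γ (A * ρ)

/-- block ABS: the Heegner point -/
def AbsStmt : Prop := ∀ s t : ℕ, Hyp s t → ∀ (G : Type) [CommGroup G] [Finite G] (θ : ℂ)
  (p τ : G) (α β γ : G → ℂ), CM s t G θ p τ α β γ → RatPt s t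

/-- block CM -/
def CMStmt : Prop := ∀ s t : ℕ, Hyp s t → ∃ (G : Type) (_ : CommGroup G) (_ : Finite G) (θ : ℂ)
  (p τ : G) (α β γ : G → ℂ), CM s t G θ p τ α β γ

/-! ### lattices -/

/-- a lattice in `ℂ` -/
def IsLat (Λ : Submodule ℤ ℂ) : Prop := ∃ L : PeriodPair, L.lattice = Λ

/-- `Λ' = c Λ` -/
def Hom (c : ℂ) (Λ Λ' : Submodule ℤ ℂ) : Prop := c ≠ 0 ∧ ∀ z, z ∈ Λ ↔ c * z ∈ Λ'

/-- the complex conjugate lattice -/
def cjL (Λ : Submodule ℤ ℂ) : Submodule ℤ ℂ where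
  carrier := {z | conj z ∈ Λ}
  add_mem' := fun {a b} ha hb => by
    show conj (a + b) ∈ Λ
    rw [map_add]
    exact Λ.add_mem ha hb
  zero_mem' := by
    show conj (0 : ℂ) ∈ Λ
    rw [map_zero]
    exact Λ.zero_mem
  smul_mem' := fun c {a} ha => by
    show conj (c • a) ∈ Λ
    rw [map_zsmul]
    exact Λ.smul_mem c ha

section

variable {O : Type} [CommRing O] (j : O →+* ℂ)

/-- `I⁻¹ Λ` -/
def col (I : Ideal O) (Λ : Submodule ℤ ℂ) : Submodule ℤ ℂ where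
  carrier := {z | ∀ a ∈ I, j a * z ∈ Λ}
  add_mem' := fun {a b} ha hb c hc => by
    rw [mul_add]
    exact Λ.add_mem (ha c hc) (hb c hc)
  zero_mem' := fun c _ => by
    rw [mul_zero]
    exact Λ.zero_mem
  smul_mem' := fun n {a} ha c hc => by
    rw [mul_smul_comm]
    exact Λ.smul_mem n (ha c hc)

/-- a lattice with multiplication by `O` -/
def OLat (Λ : Submodule ℤ ℂ) : Prop := IsLat Λ ∧ ∀ a : O, ∀ z ∈ Λ, j a * z ∈ Λ

/-- `I⁻¹ Λ / Λ` is cyclic and not trivial -/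
def Cyc (I : Ideal O) : Prop := ∀ Λ, OLat j Λ →
  ∃ z ∈ col j I Λ, z ∉ Λ ∧ ∀ w ∈ col j I Λ, ∃ k : ℤ, w - k * z ∈ Λ

/-- the class group acts on the lattices with complex multiplication -/
structure LatData (s t : ℕ) (G : Type) [CommGroup G] (θ : O) (cl : Ideal O → G)
    (cls : Submodule ℤ ℂ → G) (P P' T : Ideal O) : Prop where
  θsq : θ ^ 2 = -((s : O) * t)
  coord : ∀ a : O, ∃ x y : ℚ, j a = x + y * j θ
  nrm : ∀ a : O, a ≠ 0 → ∃ (a' : O) (n : ℕ), 0 < n ∧ a * a' = n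
  cls_surj : ∀ A, ∃ Λ, OLat j Λ ∧ cls Λ = A
  cl_surj : ∀ A, ∃ I, I ≠ ⊥ ∧ cl I = A
  hom_iff : ∀ Λ Λ', OLat j Λ → OLat j Λ' → (cls Λ = cls Λ' ↔ ∃ c, Hom c Λ Λ')
  cls_col : ∀ Λ I, OLat j Λ → I ≠ ⊥ → OLat j (col j I Λ) ∧ cls (col j I Λ) = cls Λ * (cl I)⁻¹
  cls_cj : ∀ Λ, OLat j Λ → OLat j (cjL Λ) ∧ cls (cjL Λ) = (cls Λ)⁻¹
  PP' : P * P' = Ideal.span {(2 : O)}
  cop : P ⊔ P' = ⊤
  cjP : ∀ a ∈ P, ∃ a' ∈ P', j a' = conj (j a)
  cjP' : ∀ a ∈ P', ∃ a' ∈ P, j a' = conj (j a)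
  Tdef : T = Ideal.span {(t : O), θ}
  TT : T * T = Ideal.span {(t : O)}
  cycP : Cyc j P
  cycP' : Cyc j P'
  cycT : Cyc j T
  two : ∀ A : G, A * A = 1 → A = 1 ∨ A = cl T
  ττ : cl T * cl T = 1
  nτ : ∀ A : G, A * A ≠ cl T
  np : ∀ A : G, A * A ≠ cl P

end

/-- block LAT -/
def LatStmt : Prop := ∀ s t : ℕ, Hyp s t → ∃ (O : Type) (_ : CommRing O) (j : O →+* ℂ) (G : Type)
  (_ : CommGroup G) (_ : Finite G) (θ : O) (cl : Ideal O → G) (cls : Submodule ℤ ℂ → G)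
  (P P' T : Ideal O), LatData j s t G θ cl cls P P' T

theorem twoPrime_of (h1 : CMStmt) (h2 : AbsStmt) (h3 : DescStmt) : TwoPrime := by
  intro s t h
  obtain ⟨G, _, _, θ, p, τ, α, β, γ, hc⟩ := h1 s t h
  exact h3 s t h (h2 s t h G θ p τ α β γ hc)

end Vale.Agent.P027H
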