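import Vale.Agent.P027H.Lat0
import Vale.Agent.P027H.Abs1
import Vale.Agent.P027H.Desc
import Vale.Agent.P014D.Prm

/-!
# P027 (H): ideals and lattices
-/

open scoped ComplexConjugate Classical
open NumberField

namespace Vale.Agent.P027H

open Vale.Agent.P017.H185 Vale.Agent.P014.H70 Vale.Agent.P014D

section gen

variable {O : Type} [CommRing O] (j : O →+* ℂ) {Λ Λ' : Submodule ℤ ℂ} {c : ℂ}

theorem mem_col {I : Ideal O} {z : ℂ} : z ∈ col j I Λ ↔ ∀ a ∈ I, j a * z ∈ Λ := Iff.rfl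

theorem Hom.col (h : Hom c Λ Λ') (I : Ideal O) : Hom c (col j I Λ) (col j I Λ') :=
  ⟨h.1, fun z => forall₂_congr fun a _ => by rw [h.2, mul_left_comm]⟩

theorem Hom.cjL (h : Hom c Λ Λ') : Hom (conj c) (cjL Λ) (cjL Λ') :=
  ⟨(map_ne_zero _).2 h.1, fun z => by
    rw [mem_cjL, mem_cjL, h.2, map_mul, Complex.conj_conj]⟩

theorem Hom.oLat (h : Hom c Λ Λ') (hΛ : OLat j Λ) : OLat j Λ' :=
  ⟨h.isLat hΛ.1, fun a z hz => by
    rw [h.symm.2] at hz ⊢
    rw [mul_left_comm]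
    exact hΛ.2 a _ hz⟩

/-- the image of an ideal -/
def lat (I : Ideal O) : Submodule ℤ ℂ where
  carrier := {z | ∃ a ∈ I, j a = z}
  add_mem' := by
    rintro _ _ ⟨a, ha, rfl⟩ ⟨b, hb, rfl⟩
    exact ⟨a + b, add_mem ha hb, map_add _ _ _⟩
  zero_mem' := ⟨0, zero_mem _, map_zero _⟩
  smul_mem' := by
    rintro n _ ⟨a, ha, rfl⟩
    exact ⟨n • a, zsmul_mem ha n, map_zsmul _ _ _⟩

theorem mem_lat {I : Ideal O} {z : ℂ} : z ∈ lat j I ↔ ∃ a ∈ I, j a = z := Iff.rfl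

end gen

variable {K : Type} [Field K] [NumberField K] {n : ℕ} (q : QF K n) (hn4 : n % 4 = 3)
  (j : 𝓞 K →+* ℂ) (hj : Function.Injective j)

include q in
theorem jt_sq : j q.t ^ 2 = -(n : ℂ) := by rw [← map_pow, q.t_sq, map_neg, map_natCast]

theorem cj_jt : conj (j q.t) = -j q.t := conj_theta q.d_pos (jt_sq q j)

theorem j_om : j (om q hn4) = (1 + j q.t) / 2 := by
  have := congrArg j (two_om q hn4)
  rw [map_mul, map_add, map_one, map_ofNat] at this
  linear_combination this / 2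

include hn4 in
theorem j_s (a : 𝓞 K) : j (q.s a) = conj (j a) := by
  obtain ⟨u, v, rfl⟩ := exists_uv q hn4 a
  simp only [map_add, map_mul, map_intCast, s_om, map_sub, map_one, j_om, map_div₀, map_ofNat,
    cj_jt]
  ring

theorem jt_im : (j q.t).im ≠ 0 := by
  intro h
  have h1 := cj_jt q j
  rw [Complex.conj_eq_iff_im.2 h] at h1
  have h2 := jt_sq q j
  rw [show j q.t = 0 by linear_combination h1 / 2] at h2
  have : (n : ℂ) = 0 := by linear_combination h2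
  exact q.d_pos.ne' (by exact_mod_cast this)

include q hn4 in
theorem isLat_top : IsLat (lat j ⊤) := by
  refine ⟨⟨1, j (om q hn4), ?_⟩, ?_⟩
  · rw [LinearIndependent.pair_iff]
    intro a b h
    rw [j_om] at h
    have h1 := congrArg Complex.im h
    have h2 := congrArg Complex.re h
    simp [jt_im q j] at h1 h2
    rw [h1] at h2
    exact ⟨by simpa using h2, h1⟩
  · ext z
    rw [PeriodPair.mem_lattice, mem_lat]
    constructor
    · rintro ⟨u, v, rfl⟩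
      exact ⟨u + v * om q hn4, trivial, by simp⟩
    · rintro ⟨a, -, rfl⟩
      obtain ⟨u, v, rfl⟩ := exists_uv q hn4 a
      exact ⟨u, v, by simp⟩

include q hn4 in
theorem oLat_lat {I : Ideal (𝓞 K)} (hI : I ≠ ⊥) : OLat j (lat j I) := by
  have h0 := NI_ne_zero q hI
  have h1 : (NI q I : ℂ) ≠ 0 := by exact_mod_cast h0
  refine ⟨((hom_scl h1 _).isLat (isLat_top q hn4 j)).of_between ?_ (Nat.pos_of_ne_zero h0) ?_, ?_⟩
  · rintro z ⟨a, -, ha⟩
    refine ⟨NI q I * a, I.mul_mem_right _ (NI_mem q I), ?_⟩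
    rw [map_mul, map_natCast, ha]
    field_simp
  · rintro _ ⟨a, -, rfl⟩
    exact ⟨a, trivial, by field_simp⟩
  · rintro a _ ⟨b, hb, rfl⟩
    exact ⟨a * b, I.mul_mem_left _ hb, map_mul _ _ _⟩

include q in
theorem exists_ideal {Λ : Submodule ℤ ℂ} (h : OLat j Λ) :
    ∃ I : Ideal (𝓞 K), I ≠ ⊥ ∧ ∃ c, Hom c Λ (lat j I) := by
  obtain ⟨⟨L, rfl⟩, h2⟩ := h
  obtain ⟨a, b, hab⟩ := PeriodPair.mem_lattice.1 (h2 q.t _ L.ω₁_mem_lattice)
  have h1 : L.ω₁ ≠ 0 := L.indep.ne_zero 0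
  have hb : (b : ℂ) ≠ 0 := by
    intro e
    rw [e, zero_mul, add_zero] at hab
    apply jt_im q j
    rw [← mul_right_cancel₀ h1 hab, Complex.intCast_im]
  let I : Ideal (𝓞 K) :=
    { carrier := {x | L.ω₁ / b * j x ∈ L.lattice}
      add_mem' := fun {x y} hx hy => by
        show L.ω₁ / b * j (x + y) ∈ L.lattice
        rw [map_add, mul_add]
        exact add_mem hx hy
      zero_mem' := by
        show L.ω₁ / b * j 0 ∈ L.lattice
        rw [map_zero, mul_zero]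
        exact zero_mem _
      smul_mem' := fun x y hy => by
        show L.ω₁ / b * j (x * y) ∈ L.lattice
        rw [map_mul, mul_left_comm]
        exact h2 x _ hy }
  refine ⟨I, fun e => ?_, b / L.ω₁, div_ne_zero hb h1, fun z => ⟨fun hz => ?_, ?_⟩⟩
  · have h3 : (b : 𝓞 K) ∈ I := by
      show L.ω₁ / b * j b ∈ L.lattice
      rw [map_intCast, div_mul_cancel₀ _ hb]
      exact L.ω₁_mem_lattice
    rw [e, Ideal.mem_bot, Int.cast_eq_zero] at h3
    exact hb (by rw [h3, Int.cast_zero])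
  · obtain ⟨u, v, huv⟩ := PeriodPair.mem_lattice.1 hz
    have h3 : j (u * b + v * (q.t - a)) = b / L.ω₁ * z := by
      simp only [map_add, map_mul, map_sub, map_intCast]
      rw [← huv]
      field_simp
      linear_combination (-(v : ℂ)) * hab
    refine ⟨_, ?_, h3⟩
    show L.ω₁ / b * j _ ∈ L.lattice
    rw [h3]
    exact mem_of_eq hz (by field_simp)
  · rintro ⟨x, hx, e⟩
    have h3 : L.ω₁ / b * j x ∈ L.lattice := hx
    rw [e] at h3
    exact mem_of_eq h3 (by field_simp)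

include hj in
theorem hom_lat_iff {I J : Ideal (𝓞 K)} (hI : I ≠ ⊥) (hJ : J ≠ ⊥) :
    (∃ c, Hom c (lat j I) (lat j J)) ↔ cl I = cl J := by
  have key : ∀ x y : 𝓞 K, x ≠ 0 → y ≠ 0 → (Hom (j x / j y) (lat j I) (lat j J) ↔
      Ideal.span {x} * I = Ideal.span {y} * J) := by
    intro x y hx hy
    have h1 : j x ≠ 0 := (map_ne_zero_iff j hj).2 hx
    have h2 : j y ≠ 0 := (map_ne_zero_iff j hj).2 hy
    constructor
    · intro h
      ext z
      rw [Ideal.mem_span_singleton_mul, Ideal.mem_span_singleton_mul]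
      constructor
      · rintro ⟨a, ha, rfl⟩
        obtain ⟨b, hb, e⟩ := (h.2 _).1 ⟨a, ha, rfl⟩
        exact ⟨b, hb, hj (by rw [map_mul, map_mul, e]; field_simp)⟩
      · rintro ⟨b, hb, rfl⟩
        obtain ⟨a, ha, e⟩ := (h.symm.2 _).1 ⟨b, hb, rfl⟩
        exact ⟨a, ha, hj (by rw [map_mul, map_mul, e]; field_simp)⟩
    · intro h
      refine ⟨div_ne_zero h1 h2, fun z => ⟨?_, ?_⟩⟩
      · rintro ⟨a, ha, rfl⟩
        obtain ⟨b, hb, e⟩ := Ideal.mem_span_singleton_mul.1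
          (h ▸ Ideal.mem_span_singleton_mul.2 ⟨a, ha, rfl⟩)
        have := congrArg j e
        rw [map_mul, map_mul] at this
        exact ⟨b, hb, by field_simp; linear_combination this⟩
      · rintro ⟨b, hb, e0⟩
        obtain ⟨a, ha, e⟩ := Ideal.mem_span_singleton_mul.1
          (h.symm ▸ Ideal.mem_span_singleton_mul.2 ⟨b, hb, rfl⟩)
        have := congrArg j e
        rw [map_mul, map_mul, e0] at this
        exact ⟨a, ha, mul_left_cancel₀ h1 (by rw [this]; field_simp)⟩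
  constructor
  · rintro ⟨c, h⟩
    obtain ⟨a, ha, ha0⟩ := Submodule.exists_mem_ne_zero_of_ne_bot hI
    obtain ⟨b, -, e⟩ := (h.2 _).1 ⟨a, ha, rfl⟩
    have h1 : j a ≠ 0 := (map_ne_zero_iff j hj).2 ha0
    have hb0 : b ≠ 0 := by
      rintro rfl
      rw [map_zero] at e
      exact mul_ne_zero h.1 h1 e.symm
    have h2 := congrArg cl ((key b a hb0 ha0).1 (by rwa [e, mul_div_cancel_right₀ _ h1]))
    rwa [cl_mul (QF.span_ne_bot hb0) hI, cl_mul (QF.span_ne_bot ha0) hJ, cl_span, cl_span,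
      one_mul, one_mul] at h2
  · intro h
    rw [cl_eq (mem_nonZeroDivisors_of_ne_zero hI), cl_eq (mem_nonZeroDivisors_of_ne_zero hJ),
      ClassGroup.mk0_eq_mk0_iff] at h
    obtain ⟨x, y, hx, hy, e⟩ := h
    exact ⟨_, (key x y hx hy).2 e⟩

/-- the class of a lattice -/
noncomputable def cls (Λ : Submodule ℤ ℂ) : ClassGroup (𝓞 K) :=
  if h : ∃ I : Ideal (𝓞 K), I ≠ ⊥ ∧ ∃ c, Hom c Λ (lat j I) then cl h.choose else 1

include hj in
theorem cls_eq {Λ : Submodule ℤ ℂ} {I : Ideal (𝓞 K)} (hI : I ≠ ⊥) {c : ℂ}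
    (h : Hom c Λ (lat j I)) : cls j Λ = cl I := by
  have h0 : ∃ I : Ideal (𝓞 K), I ≠ ⊥ ∧ ∃ c, Hom c Λ (lat j I) := ⟨I, hI, c, h⟩
  rw [cls, dif_pos h0]
  obtain ⟨h1, d, h2⟩ := h0.choose_spec
  exact (hom_lat_iff j hj h1 hI).1 ⟨_, h2.symm.trans h⟩

include hj in
theorem hom_col {I J : Ideal (𝓞 K)} (hI : I ≠ ⊥) :
    Hom (NI q I) (col j I (lat j J)) (lat j (J * cj q I)) := by
  have h1 : (NI q I : ℂ) ≠ 0 := by exact_mod_cast NI_ne_zero q hI
  have h2 : I * (J * cj q I) = Ideal.span {(NI q I : 𝓞 K)} * J := by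
    rw [← mul_cj]
    ring
  refine ⟨h1, fun z => ⟨fun hz => ?_, ?_⟩⟩
  · obtain ⟨b, hb, e⟩ := hz _ (NI_mem q I)
    rw [map_natCast] at e
    refine ⟨b, ?_, e⟩
    have h3 : I * Ideal.span {b} ≤ I * (J * cj q I) := by
      rw [h2, Ideal.mul_le]
      intro a ha x hx
      obtain ⟨y, rfl⟩ := Ideal.mem_span_singleton'.1 hx
      obtain ⟨w, hw, e'⟩ := hz a ha
      refine Ideal.mem_span_singleton_mul.2 ⟨y * w, J.mul_mem_left _ hw, hj ?_⟩
      simp only [map_mul, map_natCast, e, e']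
      ring
    rw [← Ideal.dvd_iff_le, mul_dvd_mul_iff_left hI, Ideal.dvd_iff_le] at h3
    exact h3 (Ideal.mem_span_singleton_self b)
  · rintro ⟨b, hb, e⟩ a ha
    obtain ⟨y, hy, e'⟩ := Ideal.mem_span_singleton_mul.1 (h2 ▸ Ideal.mul_mem_mul ha hb)
    have := congrArg j e'
    rw [map_mul, map_mul, map_natCast, e] at this
    exact ⟨y, hy, mul_left_cancel₀ h1 (by rw [this]; ring)⟩

include hn4 in
theorem cjL_lat (J : Ideal (𝓞 K)) : cjL (lat j J) = lat j (cj q J) := by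
  ext z
  rw [mem_cjL, mem_lat, mem_lat]
  constructor
  · rintro ⟨a, ha, e⟩
    exact ⟨q.s a, (s_mem_cj q).2 ha, by rw [j_s q hn4, e, Complex.conj_conj]⟩
  · rintro ⟨a, ha, e⟩
    exact ⟨q.s a, (mem_cj q).1 ha, by rw [j_s q hn4, e]⟩

include hj in
theorem cyc {I : Ideal (𝓞 K)} (hp : (NI q I).Prime) (hZ : ∀ x : 𝓞 K, ∃ k : ℤ, x - k ∈ I) :
    Cyc j I := by
  intro Λ hΛ
  have hI : I ≠ ⊥ := ne_bot_of_NI q hp.ne_zero
  have hI' := prime_of_NI q hp
  obtain ⟨J, hJ, c, h⟩ := exists_ideal q j hΛ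
  have h1 := (h.col j I).trans (hom_col q j hj hI)
  have h2 : Hom (NI q I * c) Λ (lat j (J * cj q I * I)) := by
    refine h.trans ⟨by exact_mod_cast hp.ne_zero, fun z => ?_⟩
    rw [show J * cj q I * I = Ideal.span {(NI q I : 𝓞 K)} * J by rw [← mul_cj]; ring]
    constructor
    · rintro ⟨a, ha, rfl⟩
      exact ⟨_, Ideal.mem_span_singleton_mul.2 ⟨a, ha, rfl⟩, by rw [map_mul, map_natCast]⟩
    · rintro ⟨b, hb, e⟩
      obtain ⟨a, ha, rfl⟩ := Ideal.mem_span_singleton_mul.1 hb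
      rw [map_mul, map_natCast] at e
      exact ⟨a, ha, mul_left_cancel₀ (by exact_mod_cast hp.ne_zero) e⟩
  have hJ' : J * cj q I ≠ ⊥ := mul_ne_zero hJ (cj_ne_bot q hI)
  generalize J * cj q I = L at h1 h2 hJ'
  generalize (NI q I : ℂ) * c = d at h1 h2
  have hd := h1.1
  obtain ⟨b, hb, hb'⟩ : ∃ b ∈ L, b ∉ L * I := by
    by_contra hh
    push Not at hh
    have h3 : L * I ∣ L * 1 := by rwa [mul_one, Ideal.dvd_iff_le]
    rw [mul_dvd_mul_iff_left hJ'] at h3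
    exact hI'.not_dvd_one h3
  have h3 : L * I ⊔ Ideal.span {b} = L := by
    obtain ⟨L', hL'⟩ := Ideal.dvd_iff_le.2 (sup_le Ideal.mul_le_left
      ((Ideal.span_singleton_le_iff_mem _).2 hb) : L * I ⊔ Ideal.span {b} ≤ L)
    have h4 : L * L' ∣ L * I := by
      rw [← hL', Ideal.dvd_iff_le]
      exact le_sup_left
    rw [mul_dvd_mul_iff_left hJ'] at h4
    rcases hI'.irreducible.dvd_iff.1 h4 with h5 | h5
    · rw [hL', Ideal.isUnit_iff.1 h5, Ideal.mul_top]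
    · rw [← associated_iff_eq.1 h5] at hL'
      exact absurd (hL' ▸ (le_sup_right : Ideal.span {b} ≤ _) (Ideal.mem_span_singleton_self b)) hb'
  refine ⟨d⁻¹ * j b, (h1.symm.2 _).1 ⟨b, hb, rfl⟩, fun e => ?_, fun w hw => ?_⟩
  · obtain ⟨a, ha, e'⟩ := (h2.symm.2 _).2 e
    exact hb' (hj e' ▸ ha)
  · obtain ⟨a, ha, e⟩ := (h1.2 _).1 hw
    rw [← h3] at ha
    obtain ⟨y, hy, x, hx, rfl⟩ := Submodule.mem_sup.1 ha
    obtain ⟨x, rfl⟩ := Ideal.mem_span_singleton'.1 hx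
    obtain ⟨k, hk⟩ := hZ x
    refine ⟨k, (h2.2 _).2 ⟨y + b * (x - k), add_mem hy (Ideal.mul_mem_mul hb hk), ?_⟩⟩
    simp only [map_add, map_mul, map_sub, map_intCast] at e ⊢
    field_simp
    linear_combination e

theorem sq_inj {I J : Ideal (𝓞 K)} (h : I * I = J * J) : I = J := by
  rw [← sq, ← sq] at h
  exact le_antisymm
    (Ideal.dvd_iff_le.1 ((UniqueFactorizationMonoid.pow_dvd_pow_iff_dvd two_ne_zero).1 h.symm.dvd))
    (Ideal.dvd_iff_le.1 ((UniqueFactorizationMonoid.pow_dvd_pow_iff_dvd two_ne_zero).1 h.dvd))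

theorem norm_of_sq {L : Ideal (𝓞 K)} (hL : L ≠ ⊥) {A : ClassGroup (𝓞 K)} (h : A * A = cl L) :
    ∃ a b m : ℤ, m ≠ 0 ∧ a ^ 2 + n * b ^ 2 = 4 * m ^ 2 * NI q L := by
  obtain ⟨I, hI, rfl⟩ := cl_surj A
  rw [← cl_mul hI hI] at h
  obtain ⟨x, -, hx⟩ := exists_gen q (mul_ne_zero hI hI) hL h
  have h1 := congrArg (NI q) hx
  rw [NI_mul, NI_mul, NI_cj, NI_span] at h1
  have h2 := two_N q x
  rw [← h1] at h2
  push_cast at h2
  exact ⟨(crd q x).1, (crd q x).2, NI q I, by exact_mod_cast NI_ne_zero q hI,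
    by linear_combination -h2⟩

theorem latStmt : LatStmt := by
  intro s t h
  have hsq : Squarefree (s * t) :=
    (Nat.squarefree_mul ((Nat.coprime_primes h.hs h.ht).2 h.ne)).2
      ⟨h.hs.squarefree, h.ht.squarefree⟩
  have h8 : s * t % 8 = 7 := by rw [Nat.mul_mod, h.s8, h.t8]
  have hn4 : s * t % 4 = 3 := by omega
  let q := qf (s * t) hsq
  let j : 𝓞 (Kn (s * t)) →+* ℂ := (algebraMap (Kn (s * t)) ℂ).comp (algebraMap _ _)
  have hj : Function.Injective j :=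
    (algebraMap (Kn (s * t)) ℂ).injective.comp RingOfIntegers.coe_injective
  obtain ⟨P, hP, hP'⟩ := exists_split q hn4 Nat.prime_two (by
    rw [Nat.cast_ofNat, jacobiSym.at_two (Nat.odd_iff.2 (by omega)), ZMod.χ₈_nat_mod_eight, h8]
    rfl)
  have hP0 : P ≠ ⊥ := ne_bot_of_NI q (by omega)
  have hP2 : NI q (cj q P) = 2 := by rw [NI_cj, hP]
  obtain ⟨T, hT⟩ : ∃ T : Ideal (𝓞 (Kn (s * t))), T = Ideal.span {(t : 𝓞 (Kn (s * t))), q.t} :=
    ⟨_, rfl⟩
  have hTT : T * T = Ideal.span {(t : 𝓞 (Kn (s * t)))} := hT ▸ q.amb_ideal (dvd_mul_left t s)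
  have hTN : NI q T = t := by
    apply NI_eq
    unfold QF.HasN
    rw [hT, q.amb_ideal_map, q.amb_ideal (dvd_mul_left t s)]
  have hT0 : T ≠ ⊥ := ne_bot_of_NI q (by rw [hTN]; exact h.ht.ne_zero)
  have hττ : cl T * cl T = 1 := by rw [← cl_mul hT0 hT0, hTT, cl_span]
  have hZ : ∀ I : Ideal (𝓞 (Kn (s * t))), (∃ k : ℤ, om q hn4 - k ∈ I) →
      ∀ x : 𝓞 (Kn (s * t)), ∃ k : ℤ, x - k ∈ I := by
    rintro I ⟨k, hk⟩ x
    obtain ⟨u, v, rfl⟩ := exists_uv q hn4 x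
    exact ⟨u + v * k, by convert I.mul_mem_left v hk using 1; push_cast; ring⟩
  have hZ2 : ∀ I : Ideal (𝓞 (Kn (s * t))), NI q I = 2 → Cyc j I := by
    intro I hI
    have h1 : (NI q I).Prime := hI ▸ Nat.prime_two
    refine cyc q j hj h1 (hZ I ?_)
    have h2 := (Ideal.isPrime_of_prime (prime_of_NI q h1)).mem_or_mem
      (x := om q hn4) (y := om q hn4 - 1) (by
        have h3 := om_sq q hn4
        have h4 := NI_mem q I
        rw [show (s * t + 1) / 4 = 2 * ((s * t + 1) / 8) by omega, Nat.cast_mul] at h3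
        rw [hI] at h4
        convert I.mul_mem_left (-(((s * t + 1) / 8 : ℕ) : 𝓞 (Kn (s * t)))) h4 using 1
        linear_combination h3)
    rcases h2 with h2 | h2
    · exact ⟨0, by simpa using h2⟩
    · exact ⟨1, by simpa using h2⟩
  refine ⟨_, _, j, ClassGroup (𝓞 (Kn (s * t))), inferInstance, inferInstance, q.t, cl, cls j, P,
    cj q P, T, ?_, fun a => ?_, fun a ha => ⟨q.s a, q.N a, Nat.pos_of_ne_zero (q.N_ne_zero ha),
      q.mul_s a⟩, fun A => ?_, cl_surj, fun Λ Λ' h1 h2 => ?_, fun Λ I h1 hI => ?_,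
    fun Λ h1 => ?_, by rw [mul_cj, hP]; rfl, ?_,
    fun a ha => ⟨q.s a, (s_mem_cj q).2 ha, j_s q hn4 j a⟩,
    fun a ha => ⟨q.s a, (mem_cj q).1 ha, j_s q hn4 j a⟩, hT, hTT, hZ2 _ hP, hZ2 _ hP2, ?_,
    fun A hA => ?_, hττ, fun A hA => ?_, fun A hA => ?_⟩
  · rw [q.t_sq, Nat.cast_mul]
  · obtain ⟨u, v, rfl⟩ := exists_uv q hn4 a
    refine ⟨u + v / 2, v / 2, ?_⟩
    simp only [map_add, map_mul, map_intCast, j_om]
    push_cast
    ring
  · obtain ⟨I, hI, rfl⟩ := cl_surj A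
    exact ⟨_, oLat_lat q hn4 j hI, cls_eq j hj hI (Hom.refl _)⟩
  · obtain ⟨I, hI, c, e⟩ := exists_ideal q j h1
    obtain ⟨J, hJ, d, e'⟩ := exists_ideal q j h2
    rw [cls_eq j hj hI e, cls_eq j hj hJ e', ← hom_lat_iff j hj hI hJ]
    exact ⟨fun ⟨x, hx⟩ => ⟨_, (e.trans hx).trans e'.symm⟩,
      fun ⟨x, hx⟩ => ⟨_, (e.symm.trans hx).trans e'⟩⟩
  · obtain ⟨J, hJ, c, e⟩ := exists_ideal q j h1
    have h2 := (e.col j I).trans (hom_col q j hj hI)
    have h3 : J * cj q I ≠ ⊥ := mul_ne_zero hJ (cj_ne_bot q hI)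
    exact ⟨h2.symm.oLat j (oLat_lat q hn4 j h3), by
      rw [cls_eq j hj h3 h2, cls_eq j hj hJ e, cl_mul hJ (cj_ne_bot q hI), cl_cj]⟩
  · obtain ⟨J, hJ, c, e⟩ := exists_ideal q j h1
    have h2 := e.cjL
    rw [cjL_lat q hn4] at h2
    exact ⟨h2.symm.oLat j (oLat_lat q hn4 j (cj_ne_bot q hJ)), by
      rw [cls_eq j hj (cj_ne_bot q hJ) h2, cls_eq j hj hJ e, cl_cj]⟩
  · exact Ideal.IsMaximal.coprime_of_ne
      ((Ideal.isPrime_of_prime (prime_of_NI q (hP ▸ Nat.prime_two))).isMaximal hP0)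
      ((Ideal.isPrime_of_prime (prime_of_NI q (hP2 ▸ Nat.prime_two))).isMaximal (cj_ne_bot q hP0))
      hP'
  · refine cyc q j hj (by rw [hTN]; exact h.ht) (hZ T ⟨(t / 2 : ℕ) + 1, ?_⟩)
    have h1 : (t : 𝓞 (Kn (s * t))) ∈ T := hT ▸ Ideal.subset_span (by simp)
    have h2 : q.t ∈ T := hT ▸ Ideal.subset_span (by simp)
    have h3 : (t : 𝓞 (Kn (s * t))) = 2 * (t / 2 : ℕ) + 1 := by
      have := h.t8
      exact_mod_cast (by omega : t = 2 * (t / 2) + 1)
    convert sub_mem (T.mul_mem_left ((t / 2 : ℕ) + 1) h2) (T.mul_mem_left (om q hn4) h1) using 1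
    rw [Int.cast_add, Int.cast_natCast, Int.cast_one]
    linear_combination (((t / 2 : ℕ) : 𝓞 (Kn (s * t))) + 1) * two_om q hn4 + om q hn4 * h3
  · obtain ⟨I, hI, rfl⟩ := cl_surj A
    rw [← cl_mul hI hI] at hA
    obtain ⟨γ, -, hγ⟩ := cl_eq_one (mul_ne_zero hI hI) hA
    obtain ⟨a, ha, hr, ⟨J, hJ, x, y, hx, hy, e⟩, -⟩ := q.amb hI (hasN_NI q I) hγ
    have hJ0 : J ≠ ⊥ := by
      rintro rfl
      rw [Ideal.mul_bot] at e
      exact mul_ne_zero (QF.span_ne_bot hx) hI e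
    have h1 := congrArg cl e
    rw [cl_mul (QF.span_ne_bot hx) hI, cl_mul (QF.span_ne_bot hy) hJ0, cl_span, cl_span, one_mul,
      one_mul] at h1
    rw [h1]
    have h2 : a ∣ s * t := by
      rw [← Nat.prod_primeFactors_of_squarefree ha]
      refine Finset.prod_primes_dvd _ (fun p hp => (Nat.prime_of_mem_primeFactors hp).prime)
        fun p hp => ?_
      rcases hr p (Nat.prime_of_mem_primeFactors hp) (Nat.dvd_of_mem_primeFactors hp) with e | e
      · exact e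
      · exact absurd hn4 e.2
    have hθ : Ideal.span {q.t} * Ideal.span {q.t} =
        Ideal.span {((s * t : ℕ) : 𝓞 (Kn (s * t)))} := by
      rw [Ideal.span_singleton_mul_span_singleton, ← sq, q.t_sq, Ideal.span_singleton_neg]
    obtain ⟨b, hb⟩ := h2
    rcases fac2 h.hs h.ht hb.symm with ⟨e1, -⟩ | ⟨e1, -⟩ | ⟨e1, -⟩ | ⟨e1, -⟩ <;> rw [e1] at hJ
    · left
      rw [sq_inj (hJ.trans hθ.symm), cl_span]
    · right
      have h3 : J * T = Ideal.span {q.t} := sq_inj (by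
        rw [hθ, mul_mul_mul_comm, hJ, hTT, Ideal.span_singleton_mul_span_singleton, Nat.cast_mul])
      have h4 := congrArg cl h3
      rw [cl_mul hJ0 hT0, cl_span, ← hττ] at h4
      exact mul_right_cancel h4
    · right
      rw [sq_inj (hJ.trans hTT.symm)]
    · left
      rw [sq_inj (I := J) (J := Ideal.span {1}) (by
        rw [hJ, Ideal.span_singleton_mul_span_singleton, Nat.cast_one, mul_one]), cl_span]
  · obtain ⟨a, b, m, hm, e⟩ := norm_of_sq q hT0 hA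
    rw [hTN] at e
    have ht0 : (t : ℤ) ≠ 0 := by exact_mod_cast h.ht.ne_zero
    have := (nosolZ h.ht h.t_s h.t_one (x := 2 * m * t) (y := b * t) (z := a)
      (by push_cast at e; linear_combination (-(t : ℤ)) * e)).1
    exact mul_ne_zero (mul_ne_zero two_ne_zero hm) ht0 this
  · obtain ⟨a, b, m, hm, e⟩ := norm_of_sq q hP0 hA
    rw [hP] at e
    have := (nosolZ h.ht h.t_two h.t_nds (x := a) (y := 2 * m) (z := b)
      (by push_cast at e; linear_combination e)).2.1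
    exact mul_ne_zero two_ne_zero hm this

end Vale.Agent.P027H
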