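import Vale.Agent.P027H.Unif
import Vale.Agent.P027H.Lat1

/-!
# P027 (H): the invariants of level two and four
-/

open scoped ComplexConjugate
open Filter Topology

namespace Vale.Agent.P027H

variable {O : Type} [CommRing O] {j : O →+* ℂ} {Λ Λ' M : Submodule ℤ ℂ} {I J P P' Q Q' : Ideal O}

theorem OLat.le_col (h : OLat j Λ) (I : Ideal O) : Λ ≤ col j I Λ := fun z hz a _ => h.2 a z hz

theorem col_mono (h : Λ ≤ M) (I : Ideal O) : col j I Λ ≤ col j I M := fun _ hz a ha => h (hz a ha)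

theorem col_col (I J : Ideal O) (Λ : Submodule ℤ ℂ) : col j I (col j J Λ) = col j (I * J) Λ := by
  ext z
  constructor
  · intro h c hc
    refine Submodule.mul_induction_on hc (fun a ha b hb => ?_) fun x y hx hy => ?_
    · exact mem_of_eq (h a ha b hb) (by rw [map_mul]; ring)
    · exact mem_of_eq (add_mem hx hy) (by rw [map_add]; ring)
  · intro h a ha b hb
    exact mem_of_eq (h _ (Ideal.mul_mem_mul ha hb)) (by rw [map_mul]; ring)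

theorem OLat.col_span (h : OLat j Λ) {a : O} {z : ℂ} :
    z ∈ col j (Ideal.span {a}) Λ ↔ j a * z ∈ Λ := by
  refine ⟨fun hz => hz a (Ideal.mem_span_singleton_self a), fun hz b hb => ?_⟩
  obtain ⟨c, rfl⟩ := Ideal.mem_span_singleton'.1 hb
  exact mem_of_eq (h.2 c _ hz) (by rw [map_mul]; ring)

theorem col_inf (h : I ⊔ J = ⊤) {z : ℂ} (h1 : z ∈ col j I Λ) (h2 : z ∈ col j J Λ) : z ∈ Λ := by
  obtain ⟨a, ha, b, hb, e⟩ := Submodule.mem_sup.1 (h ▸ Submodule.mem_top : (1 : O) ∈ I ⊔ J)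
  have := congrArg j e
  rw [map_add, map_one] at this
  exact mem_of_eq (add_mem (h1 a ha) (h2 b hb)) (by linear_combination (-z) * this)

theorem cj_col (h1 : ∀ a ∈ I, ∃ a' ∈ J, j a' = conj (j a))
    (h2 : ∀ a ∈ J, ∃ a' ∈ I, j a' = conj (j a)) (Λ : Submodule ℤ ℂ) :
    cjL (col j I Λ) = col j J (cjL Λ) := by
  ext z
  constructor
  · intro h a ha
    obtain ⟨a', ha', e⟩ := h2 a ha
    rw [mem_cjL, map_mul, ← e]
    exact h a' ha'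
  · intro h a ha
    obtain ⟨a', ha', e⟩ := h1 a ha
    have := h a' ha'
    rwa [mem_cjL, map_mul, e, Complex.conj_conj] at this

variable (j) in
/-- a point of `I⁻¹ Λ` outside `Λ` -/
noncomputable def pt (I : Ideal O) (Λ : Submodule ℤ ℂ) : ℂ :=
  Classical.epsilon fun z => z ∈ col j I Λ ∧ z ∉ Λ

theorem Cyc.pt (h : Cyc j I) (hΛ : OLat j Λ) : pt j I Λ ∈ col j I Λ ∧ pt j I Λ ∉ Λ := by
  obtain ⟨z, h1, h2, -⟩ := h Λ hΛ
  exact Classical.epsilon_spec (p := fun z => z ∈ col j I Λ ∧ z ∉ Λ) ⟨z, h1, h2⟩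

variable (j) in
/-- a root of the cubic -/
noncomputable def ee (I : Ideal O) (Λ : Submodule ℤ ℂ) : ℂ := wp Λ (pt j I Λ)

variable (j) in
/-- the difference of two roots -/
noncomputable def DD (P P' : Ideal O) (Λ : Submodule ℤ ℂ) : ℂ := ee j P Λ - ee j P' Λ

variable (j) in
/-- the modulus -/
noncomputable def bb (P P' : Ideal O) (Λ : Submodule ℤ ℂ) : ℂ :=
  (wp Λ (pt j P (col j P Λ)) - ee j P Λ) / DD j P P' Λ

variable (j) in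
/-- an odd elliptic function -/
noncomputable def ff (P P' : Ideal O) (Λ : Submodule ℤ ℂ) (z : ℂ) : ℂ :=
  dwp Λ z / (2 * (wp Λ z + (ee j P Λ + ee j P' Λ)))

theorem ff_symm (P P' : Ideal O) (Λ : Submodule ℤ ℂ) : ff j P P' Λ = ff j P' P Λ := by
  funext z
  rw [ff, ff, add_comm (ee j P Λ)]

theorem DD_symm (P P' : Ideal O) (Λ : Submodule ℤ ℂ) : DD j P' P Λ = -DD j P P' Λ := by
  rw [DD, DD, neg_sub]

theorem IsLat.ff_congr (h : IsLat Λ) {z w : ℂ} (hzw : z - w ∈ Λ) :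
    ff j P P' Λ z = ff j P P' Λ w := by rw [ff, ff, h.wp_congr hzw, h.dwp_congr hzw]

theorem IsLat.ff_neg (h : IsLat Λ) (z : ℂ) : ff j P P' Λ (-z) = -ff j P P' Λ z := by
  rw [ff, ff, h.wp_neg, h.dwp_neg, neg_div]

variable (j) in
/-- the decomposition of two -/
structure Two (P P' : Ideal O) : Prop where
  PP' : P * P' = Ideal.span {(2 : O)}
  cop : P ⊔ P' = ⊤
  cyc : Cyc j P
  cyc' : Cyc j P'
  ol : ∀ Λ, OLat j Λ → OLat j (col j P Λ)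
  ol' : ∀ Λ, OLat j Λ → OLat j (col j P' Λ)

namespace Two

variable (h : Two j P P')
include h

theorem symm : Two j P' P :=
  ⟨by rw [mul_comm, h.PP'], by rw [sup_comm, h.cop], h.cyc', h.cyc, h.ol', h.ol⟩

theorem two_mul {z : ℂ} (hz : z ∈ col j P Λ) : 2 * z ∈ Λ := by
  have := hz 2 (Ideal.mul_le_left (h.PP' ▸ Ideal.mem_span_singleton_self 2))
  rwa [map_ofNat] at this

theorem sub_mem (hΛ : OLat j Λ) {z w : ℂ} (hz : z ∈ col j P Λ) (hz' : z ∉ Λ) (hw : w ∈ col j P Λ)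
    (hw' : w ∉ Λ) : z - w ∈ Λ := by
  obtain ⟨u, hu, -, hk⟩ := h.cyc Λ hΛ
  have key : ∀ z ∈ col j P Λ, z ∉ Λ → z - u ∈ Λ := fun z hz hz' => by
    obtain ⟨k, e⟩ := hk z hz
    obtain ⟨l, rfl | rfl⟩ := Int.even_or_odd' k
    · exact absurd (mem_of_eq (add_mem e (int_mul_mem l (h.two_mul hu))) (by push_cast; ring)) hz'
    · exact mem_of_eq (add_mem e (int_mul_mem l (h.two_mul hu))) (by push_cast; ring)
  exact mem_of_eq (_root_.sub_mem (key z hz hz') (key w hw hw')) (by ring)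

theorem four (hΛ : OLat j Λ) {q : ℂ} (hq : q ∈ col j P (col j P Λ)) (hq' : q ∉ col j P Λ) :
    2 * q ∈ col j P Λ ∧ 2 * q ∉ Λ := by
  refine ⟨h.two_mul hq, fun e => hq' (col_inf h.cop hq ?_)⟩
  rw [col_col, h.symm.PP', hΛ.col_span, map_ofNat]
  exact e

theorem ee_eq (hΛ : OLat j Λ) {z : ℂ} (hz : z ∈ col j P Λ) (hz' : z ∉ Λ) : ee j P Λ = wp Λ z :=
  hΛ.1.wp_congr (h.sub_mem hΛ (h.cyc.pt hΛ).1 (h.cyc.pt hΛ).2 hz hz')

theorem bb_eq (hΛ : OLat j Λ) {q : ℂ} (hq : q ∈ col j P (col j P Λ)) (hq' : q ∉ col j P Λ) :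
    bb j P P' Λ = (wp Λ q - ee j P Λ) / DD j P P' Λ := by
  obtain ⟨a1, a2⟩ := h.cyc.pt (h.ol Λ hΛ)
  have h1 := h.sub_mem (h.ol Λ hΛ) a1 a2 hq hq'
  obtain ⟨b1, b2⟩ := h.four hΛ hq hq'
  rw [bb]
  congr 2
  by_cases e : pt j P (col j P Λ) - q ∈ Λ
  · exact hΛ.1.wp_congr e
  · exact hΛ.1.wp_congr' (mem_of_eq (add_mem (h.sub_mem hΛ h1 e b1 b2) (h.two_mul b1)) (by ring))

theorem notMem (hΛ : OLat j Λ) : pt j P' Λ ∉ col j P Λ := fun e =>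
  (h.cyc'.pt hΛ).2 (col_inf h.cop e (h.cyc'.pt hΛ).1)

theorem wp_ne (hΛ : OLat j Λ) {z : ℂ} (hz : z ∉ col j P Λ) : wp Λ z ≠ ee j P Λ := by
  obtain ⟨a1, a2⟩ := h.cyc.pt hΛ
  exact hΛ.1.wp_ne (fun e => hz (hΛ.le_col P e)) a2
    (fun e => hz (mem_of_eq (add_mem (hΛ.le_col P e) a1) (by ring)))
    (fun e => hz (mem_of_eq (_root_.sub_mem (hΛ.le_col P e) a1) (by ring)))

theorem DD_ne (hΛ : OLat j Λ) : DD j P P' Λ ≠ 0 :=
  sub_ne_zero.2 (h.wp_ne hΛ (h.notMem hΛ)).symm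

theorem root (hΛ : OLat j Λ) : 4 * ee j P Λ ^ 3 - g2 Λ * ee j P Λ - g3 Λ = 0 := by
  obtain ⟨a1, a2⟩ := h.cyc.pt hΛ
  rw [ee, ← hΛ.1.ode a2, (hΛ.1.dwp_eq_zero a2).2 (h.two_mul a1)]
  ring

theorem g2_eq (hΛ : OLat j Λ) :
    g2 Λ = 4 * (ee j P Λ ^ 2 + ee j P Λ * ee j P' Λ + ee j P' Λ ^ 2) :=
  mul_left_cancel₀ (h.DD_ne hΛ) (by rw [DD]; linear_combination h.symm.root hΛ - h.root hΛ)

theorem ode (hΛ : OLat j Λ) {z : ℂ} (hz : z ∉ Λ) : dwp Λ z ^ 2 =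
    4 * (wp Λ z - ee j P Λ) * (wp Λ z - ee j P' Λ) * (wp Λ z + (ee j P Λ + ee j P' Λ)) := by
  linear_combination hΛ.1.ode hz + h.root hΛ + (ee j P Λ - wp Λ z) * h.g2_eq hΛ

theorem half (hΛ : OLat j Λ) {z : ℂ} (hz : z ∉ col j P Λ) :
    (wp Λ (z - pt j P Λ) - ee j P Λ) * (wp Λ z - ee j P Λ) =
      DD j P P' Λ * (2 * ee j P Λ + ee j P' Λ) := by
  obtain ⟨a1, a2⟩ := h.cyc.pt hΛ
  have := hΛ.1.wp_half a2 (h.two_mul a1) (fun e => hz (hΛ.le_col P e))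
    (fun e => hz (mem_of_eq (add_mem (hΛ.le_col P e) a1) (by ring)))
  rw [← ee] at this
  rw [this, h.g2_eq hΛ, DD]
  ring

theorem wp_four (hΛ : OLat j Λ) {q : ℂ} (hq : q ∈ col j P (col j P Λ)) (hq' : q ∉ col j P Λ) :
    wp Λ (q - pt j P Λ) = wp Λ q := by
  obtain ⟨a1, a2⟩ := h.cyc.pt hΛ
  obtain ⟨b1, b2⟩ := h.four hΛ hq hq'
  exact hΛ.1.wp_congr' (mem_of_eq (h.sub_mem hΛ b1 b2 a1 a2) (by ring))

theorem four_sq (hΛ : OLat j Λ) {q : ℂ} (hq : q ∈ col j P (col j P Λ)) (hq' : q ∉ col j P Λ) :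
    (wp Λ q - ee j P Λ) ^ 2 = DD j P P' Λ * (2 * ee j P Λ + ee j P' Λ) := by
  rw [← h.half hΛ hq', h.wp_four hΛ hq hq', sq]

theorem circ (hΛ : OLat j Λ) : bb j P' P Λ ^ 2 + bb j P P' Λ ^ 2 = 1 := by
  obtain ⟨a1, a2⟩ := h.cyc.pt (h.ol Λ hΛ)
  obtain ⟨b1, b2⟩ := h.cyc'.pt (h.ol' Λ hΛ)
  have := h.DD_ne hΛ
  rw [bb, bb, div_pow, div_pow, h.four_sq hΛ a1 a2, h.symm.four_sq hΛ b1 b2, DD_symm]
  field_simp
  rw [DD]
  ring

theorem bb_ne (hΛ : OLat j Λ) : bb j P P' Λ ≠ 0 :=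
  div_ne_zero (sub_ne_zero.2 (h.wp_ne hΛ (h.cyc.pt (h.ol Λ hΛ)).2)) (h.DD_ne hΛ)

theorem velu (hΛ : OLat j Λ) (z : ℂ) :
    wp (col j P Λ) z = wp Λ z + wp Λ (z - pt j P Λ) - ee j P Λ := by
  obtain ⟨a1, a2⟩ := h.cyc.pt hΛ
  have hr : Reps ![0, pt j P Λ] Λ (col j P Λ) := by
    refine ⟨hΛ.le_col P, fun i => ?_, fun m hm => ?_, fun i k e => ?_⟩
    · fin_cases i
      · exact zero_mem _
      · exact a1
    · by_cases e : m ∈ Λ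
      · exact ⟨0, by simpa using e⟩
      · exact ⟨1, h.sub_mem hΛ hm e a1 a2⟩
    · fin_cases i <;> fin_cases k <;> simp_all
  rw [hr.wp hΛ.1 (h.ol Λ hΛ).1, Fin.sum_univ_two]
  simp only [Matrix.cons_val_zero, Matrix.cons_val_one, sub_zero, hΛ.1.wp_mem (zero_mem _), ee]
  ring

theorem land (hΛ : OLat j Λ) : (1 + bb j P P' Λ) * (1 + bb j P' P (col j P Λ)) = 2 := by
  have h1 := h.ol Λ hΛ
  have hle := hΛ.le_col P
  obtain ⟨a1, a2⟩ := h.cyc.pt h1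
  obtain ⟨b1, b2⟩ := h.cyc'.pt (h.ol' Λ hΛ)
  obtain ⟨c1, c2⟩ := h.cyc'.pt hΛ
  have n1 := h.notMem hΛ
  have n2 : pt j P' (col j P' Λ) ∉ col j P' (col j P Λ) := fun e => by
    rw [col_col, h.symm.PP', hΛ.col_span, map_ofNat] at e
    exact (h.symm.four hΛ b1 b2).2 e
  have n3 : pt j P' (col j P' Λ) ∉ col j P Λ := fun e => n2 (h1.le_col P' e)
  have d1 := h.DD_ne hΛ
  have d2 := h.symm.DD_ne h1
  have e1 := h.symm.ee_eq h1 (col_mono hle P' c1) n1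
  have e2 : ee j P (col j P Λ) = wp (col j P Λ) (pt j P (col j P Λ)) := rfl
  rw [h.symm.bb_eq h1 (col_mono (col_mono hle P') P' b1) n2, bb]
  rw [DD, e1, e2, h.velu hΛ, h.velu hΛ, h.wp_four hΛ a1 a2] at d2
  rw [DD.eq_1 j P' P, e1, e2, h.velu hΛ, h.velu hΛ, h.velu hΛ, h.wp_four hΛ a1 a2]
  have r1 := h.four_sq hΛ a1 a2
  have r2 := h.symm.four_sq hΛ b1 b2
  have r3 := h.half hΛ n3
  have r4 := h.half hΛ n1
  have r5 := sub_ne_zero.2 (h.wp_ne hΛ n3)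
  rw [← ee] at r4 d2 ⊢
  rw [DD] at *
  generalize ee j P Λ = x1 at *
  generalize ee j P' Λ = x3 at *
  generalize wp Λ (pt j P (col j P Λ)) = y at *
  generalize wp Λ (pt j P' (col j P' Λ)) = x at *
  generalize wp Λ (pt j P' (col j P' Λ) - pt j P Λ) = x' at *
  generalize wp Λ (pt j P' Λ - pt j P Λ) = x2 at *
  have k1 : x2 = -x1 - x3 := mul_left_cancel₀ d1 (by linear_combination -r4)
  have k2 : x' = 2 * x3 - x := mul_right_cancel₀ r5 (by linear_combination r3 + r2)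
  subst k1 k2
  rw [one_add_div d1, one_add_div d2, div_mul_div_comm, div_eq_iff (mul_ne_zero d1 d2)]
  linear_combination (-2 : ℂ) * r1

end Two

variable (j) in
/-- a weak form of transport -/
structure WT (σ : ℂ →+* ℂ) (c : ℂ) (φ : ℂ → ℂ) (P P' Q Q' : Ideal O) (Λ Λ' : Submodule ℤ ℂ) :
    Prop where
  ol : OLat j Λ
  ol' : OLat j Λ'
  ne : c ≠ 0
  mem : ∀ z, φ z ∈ Λ' ↔ z ∈ Λ
  wp : ∀ z, wp Λ' (φ z) = c ^ 2 * σ (wp Λ z)
  dwp : ∀ z, dwp Λ' (φ z) = c ^ 3 * σ (dwp Λ z)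
  m1 : ∀ z, φ z ∈ col j Q Λ' ↔ z ∈ col j P Λ
  m2 : ∀ z, φ z ∈ col j Q (col j Q Λ') ↔ z ∈ col j P (col j P Λ)
  m3 : ∀ z, φ z ∈ col j Q' Λ' ↔ z ∈ col j P' Λ

namespace WT

variable {σ : ℂ →+* ℂ} {c : ℂ} {φ : ℂ → ℂ} (w : WT j σ c φ P P' Q Q' Λ Λ') (h : Two j P P')
  (h' : Two j Q Q')
include w h h'

theorem ee1 : ee j Q Λ' = c ^ 2 * σ (ee j P Λ) := by
  obtain ⟨a1, a2⟩ := h.cyc.pt w.ol
  rw [h'.ee_eq w.ol' ((w.m1 _).2 a1) (mt (w.mem _).1 a2), w.wp, ee]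

theorem ee3 : ee j Q' Λ' = c ^ 2 * σ (ee j P' Λ) := by
  obtain ⟨a1, a2⟩ := h.cyc'.pt w.ol
  rw [h'.symm.ee_eq w.ol' ((w.m3 _).2 a1) (mt (w.mem _).1 a2), w.wp, ee]

theorem DD : DD j Q Q' Λ' = c ^ 2 * σ (DD j P P' Λ) := by
  rw [P027H.DD, P027H.DD, w.ee1 h h', w.ee3 h h', map_sub, mul_sub]

theorem bb : bb j Q Q' Λ' = σ (bb j P P' Λ) := by
  obtain ⟨a1, a2⟩ := h.cyc.pt (h.ol Λ w.ol)
  rw [h'.bb_eq w.ol' ((w.m2 _).2 a1) (mt (w.m1 _).1 a2), w.wp, w.ee1 h h', w.DD h h', P027H.bb,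
    map_div₀, map_sub, ← mul_sub, mul_div_mul_left _ _ (pow_ne_zero 2 w.ne)]

theorem ff (z : ℂ) : ff j Q Q' Λ' (φ z) = c * σ (ff j P P' Λ z) := by
  rw [P027H.ff, P027H.ff, w.wp, w.dwp, w.ee1 h h', w.ee3 h h', map_div₀, map_mul, map_add, map_add,
    map_ofNat, ← mul_add, ← mul_add, mul_left_comm, pow_succ, mul_assoc,
    mul_div_mul_left _ _ (pow_ne_zero 2 w.ne), mul_div_assoc]

end WT

theorem Hom.wt {c : ℂ} (h : Hom c Λ Λ') (hΛ : OLat j Λ) (P P' : Ideal O) :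
    WT j (RingHom.id ℂ) c⁻¹ (fun z => c * z) P P' P P' Λ Λ' :=
  ⟨hΛ, h.oLat j hΛ, inv_ne_zero h.1, fun z => (h.2 z).symm, h.wp, h.dwp,
    fun z => ((h.col j P).2 z).symm, fun z => (((h.col j P).col j P).2 z).symm,
    fun z => ((h.col j P').2 z).symm⟩

theorem wt_cj (hΛ : OLat j Λ) (hΛ' : OLat j (cjL Λ))
    (h1 : ∀ a ∈ P, ∃ a' ∈ P', j a' = conj (j a)) (h2 : ∀ a ∈ P', ∃ a' ∈ P, j a' = conj (j a)) :
    WT j conj 1 conj P P' P' P Λ (cjL Λ) := by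
  refine ⟨hΛ, hΛ', one_ne_zero, fun z => ?_, fun z => ?_, fun z => ?_, fun z => ?_, fun z => ?_,
    fun z => ?_⟩
  · rw [mem_cjL, Complex.conj_conj]
  · rw [wp_cj, one_pow, one_mul]
  · rw [dwp_cj, one_pow, one_mul]
  · rw [← cj_col h1 h2, mem_cjL, Complex.conj_conj]
  · rw [← cj_col h1 h2, ← cj_col h1 h2, mem_cjL, Complex.conj_conj]
  · rw [← cj_col h2 h1, mem_cjL, Complex.conj_conj]

variable (j) in
/-- the transport of a lattice with complex multiplication -/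
structure TrO (σ : ℂ →+* ℂ) (Λ Λ' : Submodule ℤ ℂ) (φ : ℂ → ℂ) : Prop where
  tr : Tr σ Λ Λ' φ
  ol : OLat j Λ
  ol' : OLat j Λ'
  lin : ∀ a z, φ (j a * z) - j a * φ z ∈ Λ'

namespace TrO

variable {σ : ℂ →+* ℂ} {φ : ℂ → ℂ} (h : TrO j σ Λ Λ' φ)
include h

theorem mem_col (I : Ideal O) (z : ℂ) : φ z ∈ col j I Λ' ↔ z ∈ col j I Λ :=
  forall₂_congr fun a _ => by
    rw [← h.tr.mem]
    exact ⟨fun e => mem_of_eq (add_mem (h.lin a z) e) (by ring),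
      fun e => mem_of_eq (sub_mem e (h.lin a z)) (by ring)⟩

theorem wt (P P' : Ideal O) : WT j σ 1 φ P P' P P' Λ Λ' :=
  ⟨h.ol, h.ol', one_ne_zero, h.tr.mem, fun z => by rw [h.tr.wp, one_pow, one_mul],
    fun z => by rw [h.tr.dwp, one_pow, one_mul], h.mem_col P,
    fun z => by rw [col_col, col_col, h.mem_col], h.mem_col P'⟩

theorem col {n : ℕ} (hn : 0 < n) (hI : (n : O) ∈ I) (h1 : OLat j (col j I Λ))
    (h2 : OLat j (col j I Λ')) : TrO j σ (col j I Λ) (col j I Λ') φ := by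
  obtain ⟨M', hle, h'⟩ := h.tr.sup (h.ol.le_col I) hn fun z hz => by
    have := hz _ hI
    rwa [map_natCast] at this
  have e : M' = P027H.col j I Λ' := by
    ext z'
    obtain ⟨z, hz⟩ := h.tr.surj z'
    have key : ∀ N : Submodule ℤ ℂ, Λ' ≤ N → (z' ∈ N ↔ φ z ∈ N) := fun N hN =>
      ⟨fun e => mem_of_eq (add_mem (hN hz) e) (by ring),
        fun e => mem_of_eq (sub_mem e (hN hz)) (by ring)⟩
    rw [key _ hle, key _ (h.ol'.le_col I), h'.mem, h.mem_col]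
  subst e
  exact ⟨h', h1, h2, fun a z => hle (h.lin a z)⟩

end TrO

end Vale.Agent.P027H
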