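import Vale.Agent.P027H.Iface

/-!
# P027 (H): lattices in `ℂ`, sandwiches and systems of representatives
-/

open scoped ComplexConjugate
open Module

namespace Vale.Agent.P027H

variable {Λ Λ' Λ'' M : Submodule ℤ ℂ} {c d : ℂ}

theorem int_mul_mem {z : ℂ} (k : ℤ) (h : z ∈ Λ) : (k : ℂ) * z ∈ Λ := by
  rw [← zsmul_eq_mul]
  exact Λ.smul_mem k h

theorem nat_mul_mem {z : ℂ} (k : ℕ) (h : z ∈ Λ) : (k : ℂ) * z ∈ Λ := by
  have := int_mul_mem (k : ℤ) h
  rwa [Int.cast_natCast] at this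

theorem mem_of_eq {z w : ℂ} (h : z ∈ Λ) (e : w = z) : w ∈ Λ := e ▸ h

/-- the lattice `c Λ` -/
def scl (c : ℂ) (Λ : Submodule ℤ ℂ) : Submodule ℤ ℂ where
  carrier := {z | c⁻¹ * z ∈ Λ}
  add_mem' := fun {a b} ha hb => by
    show c⁻¹ * (a + b) ∈ Λ
    rw [mul_add]
    exact Λ.add_mem ha hb
  zero_mem' := by
    show c⁻¹ * 0 ∈ Λ
    rw [mul_zero]
    exact Λ.zero_mem
  smul_mem' := fun n {a} ha => by
    show c⁻¹ * (n • a) ∈ Λ
    rw [mul_smul_comm]
    exact Λ.smul_mem n ha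

theorem mem_scl {z : ℂ} : z ∈ scl c Λ ↔ c⁻¹ * z ∈ Λ := Iff.rfl

theorem mem_cjL {z : ℂ} : z ∈ cjL Λ ↔ conj z ∈ Λ := Iff.rfl

theorem hom_scl (hc : c ≠ 0) (Λ : Submodule ℤ ℂ) : Hom c Λ (scl c Λ) :=
  ⟨hc, fun z => by rw [mem_scl, ← mul_assoc, inv_mul_cancel₀ hc, one_mul]⟩

theorem Hom.symm (h : Hom c Λ Λ') : Hom c⁻¹ Λ' Λ :=
  ⟨inv_ne_zero h.1, fun z => by rw [h.2, ← mul_assoc, mul_inv_cancel₀ h.1, one_mul]⟩

theorem Hom.trans (h : Hom c Λ Λ') (h' : Hom d Λ' Λ'') : Hom (d * c) Λ Λ'' :=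
  ⟨mul_ne_zero h'.1 h.1, fun z => by rw [h.2, h'.2, mul_assoc]⟩

theorem Hom.unique (h : Hom c Λ Λ') (h' : Hom c Λ Λ'') : Λ' = Λ'' := by
  ext z
  rw [h.symm.2, h'.symm.2]

theorem Hom.refl (Λ : Submodule ℤ ℂ) : Hom 1 Λ Λ := ⟨one_ne_zero, fun z => by rw [one_mul]⟩

/-- the bijection attached to a homothety -/
noncomputable def Hom.equiv (h : Hom c Λ Λ') : Λ ≃ Λ' where
  toFun l := ⟨c * l, (h.2 _).1 l.2⟩
  invFun l := ⟨c⁻¹ * l, (h.symm.2 _).1 l.2⟩
  left_inv l := Subtype.ext (by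
    show c⁻¹ * (c * l) = l
    rw [← mul_assoc, inv_mul_cancel₀ h.1, one_mul])
  right_inv l := Subtype.ext (by
    show c * (c⁻¹ * l) = l
    rw [← mul_assoc, mul_inv_cancel₀ h.1, one_mul])

theorem Hom.isLat (h : Hom c Λ Λ') (hΛ : IsLat Λ) : IsLat Λ' := by
  obtain ⟨L, rfl⟩ := hΛ
  refine ⟨⟨c * L.ω₁, c * L.ω₂, ?_⟩, ?_⟩
  · rw [LinearIndependent.pair_iff]
    intro s t hst
    refine LinearIndependent.pair_iff.1 L.indep s t (mul_left_cancel₀ h.1 ?_)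
    simp only [Complex.real_smul] at hst ⊢
    linear_combination hst
  · ext z
    rw [h.symm.2, PeriodPair.mem_lattice, PeriodPair.mem_lattice]
    have hc := h.1
    constructor
    · rintro ⟨m, n, rfl⟩
      exact ⟨m, n, by field_simp⟩
    · rintro ⟨m, n, h1⟩
      refine ⟨m, n, ?_⟩
      have : z = c * (c⁻¹ * z) := by field_simp
      rw [this, ← h1]
      ring

theorem IsLat.cj (hΛ : IsLat Λ) : IsLat (cjL Λ) := by
  obtain ⟨L, rfl⟩ := hΛ
  refine ⟨⟨conj L.ω₁, conj L.ω₂, ?_⟩, ?_⟩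
  · rw [LinearIndependent.pair_iff]
    intro s t hst
    refine LinearIndependent.pair_iff.1 L.indep s t ?_
    have := congrArg conj hst
    simpa using this
  · ext z
    rw [mem_cjL, PeriodPair.mem_lattice, PeriodPair.mem_lattice]
    constructor
    · rintro ⟨m, n, rfl⟩
      exact ⟨m, n, by simp⟩
    · rintro ⟨m, n, h1⟩
      refine ⟨m, n, ?_⟩
      have := congrArg conj h1
      simpa using this

/-- a group between `Λ` and `Λ / n` is a lattice -/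
theorem IsLat.of_between (hΛ : IsLat Λ) (hle : Λ ≤ M) {n : ℕ} (hn : 0 < n)
    (h : ∀ z ∈ M, (n : ℂ) * z ∈ Λ) : IsLat M := by
  have hn0 : (n : ℂ) ≠ 0 := by exact_mod_cast hn.ne'
  obtain ⟨L', hL'⟩ := (hom_scl (inv_ne_zero hn0) Λ).isLat hΛ
  obtain ⟨L, rfl⟩ := hΛ
  have h1 : (M : Set ℂ) ⊆ L'.lattice := fun z hz => by
    rw [hL']
    show (n : ℂ)⁻¹⁻¹ * z ∈ L.lattice
    rw [inv_inv]
    exact h z hz
  have h2 : DiscreteTopology (L'.lattice : Set ℂ) := inferInstanceAs (DiscreteTopology L'.lattice)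
  have h3 : DiscreteTopology M := DiscreteTopology.of_subset h2 h1
  have h4 : IsZLattice ℝ M := ⟨by
    rw [eq_top_iff, ← IsZLattice.span_top (K := ℝ) (L := L.lattice)]
    exact Submodule.span_mono hle⟩
  have h5 : finrank ℤ M = 2 := by rw [ZLattice.rank ℝ M, Complex.finrank_real_complex]
  let b : Basis (Fin 2) ℤ M := Module.finBasisOfFinrankEq ℤ M h5
  let b' := b.ofZLatticeBasis ℝ M
  refine ⟨⟨b' 0, b' 1, ?_⟩, ?_⟩
  · have e : ![b' 0, b' 1] = b' := by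
      funext i
      fin_cases i <;> rfl
    rw [e]
    exact b'.linearIndependent
  · rw [← b.ofZLatticeBasis_span ℝ, PeriodPair.lattice]
    congr 1
    ext z
    simp only [Set.mem_insert_iff, Set.mem_singleton_iff, Set.mem_range, Fin.exists_fin_two]
    constructor
    · rintro (h | h)
      · exact Or.inl h.symm
      · exact Or.inr h.symm
    · rintro (h | h)
      · exact Or.inl h.symm
      · exact Or.inr h.symm

/-- `r` is a system of representatives of `M / Λ` -/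
structure Reps {ι : Type} (r : ι → ℂ) (Λ M : Submodule ℤ ℂ) : Prop where
  le : Λ ≤ M
  mem : ∀ i, r i ∈ M
  ex : ∀ m ∈ M, ∃ i, m - r i ∈ Λ
  inj : ∀ i k, r i - r k ∈ Λ → i = k

theorem exists_reps (hM : IsLat M) (hle : Λ ≤ M) {n : ℕ} (hn : 0 < n)
    (h : ∀ z ∈ M, (n : ℂ) * z ∈ Λ) : ∃ (ι : Type) (_ : Fintype ι) (r : ι → ℂ), Reps r Λ M := by
  classical
  obtain ⟨L, rfl⟩ := hM
  let N : Submodule ℤ L.lattice := Λ.comap L.lattice.subtype
  let φ : Fin n × Fin n → L.lattice ⧸ N := fun p => N.mkQ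
    ⟨(p.1 : ℕ) * L.ω₁ + (p.2 : ℕ) * L.ω₂, add_mem (nat_mul_mem _ L.ω₁_mem_lattice)
      (nat_mul_mem _ L.ω₂_mem_lattice)⟩
  have hφ : Function.Surjective φ := by
    intro x
    obtain ⟨⟨z, hz⟩, rfl⟩ := N.mkQ_surjective x
    obtain ⟨a, b, rfl⟩ := PeriodPair.mem_lattice.1 hz
    have hn' : (0 : ℤ) < n := by exact_mod_cast hn
    have lt : ∀ a : ℤ, (a % n).toNat < n := fun a => by
      have h1 := Int.emod_nonneg a hn'.ne'
      have h2 := Int.emod_lt_of_pos a hn'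
      omega
    have cst : ∀ a : ℤ, (((a % n).toNat : ℕ) : ℂ) = a - n * (a / n : ℤ) := fun a => by
      have h1 := Int.toNat_of_nonneg (Int.emod_nonneg a hn'.ne')
      have h2 : (((a % n).toNat : ℕ) : ℤ) = a - n * (a / n) := by rw [h1, Int.emod_def]
      exact_mod_cast congrArg (Int.cast : ℤ → ℂ) h2
    refine ⟨(⟨_, lt a⟩, ⟨_, lt b⟩), ?_⟩
    refine (Submodule.Quotient.eq N).2 ?_
    show ((((a % n).toNat : ℕ) : ℂ) * L.ω₁ + (((b % n).toNat : ℕ) : ℂ) * L.ω₂) -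
      (a * L.ω₁ + b * L.ω₂) ∈ Λ
    rw [cst, cst]
    refine mem_of_eq (neg_mem (add_mem (int_mul_mem (a / n) (h _ L.ω₁_mem_lattice))
      (int_mul_mem (b / n) (h _ L.ω₂_mem_lattice)))) (by ring)
  have hfin : Finite (L.lattice ⧸ N) := Finite.of_surjective φ hφ
  refine ⟨L.lattice ⧸ N, Fintype.ofFinite _, fun x => ((N.mkQ_surjective x).choose : ℂ),
    hle, fun x => (N.mkQ_surjective x).choose.2, fun m hm => ⟨N.mkQ ⟨m, hm⟩, ?_⟩, fun x y hxy => ?_⟩
  · have h1 := (N.mkQ_surjective (N.mkQ ⟨m, hm⟩)).choose_spec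
    exact (Submodule.Quotient.eq N).1 h1.symm
  · rw [← (N.mkQ_surjective x).choose_spec, ← (N.mkQ_surjective y).choose_spec]
    exact (Submodule.Quotient.eq N).2 hxy

/-- the bijection attached to a system of representatives -/
noncomputable def Reps.equiv {ι : Type} {r : ι → ℂ} (h : Reps r Λ M) : ι × Λ ≃ M :=
  Equiv.ofBijective (fun p => ⟨r p.1 + p.2, add_mem (h.mem _) (h.le p.2.2)⟩) (by
    constructor
    · rintro ⟨i, l⟩ ⟨k, l'⟩ e
      have e' : r i + l = r k + l' := congrArg Subtype.val e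
      have : i = k := h.inj i k (mem_of_eq (sub_mem l'.2 l.2) (by linear_combination e'))
      subst this
      exact Prod.ext rfl (Subtype.ext (add_left_cancel e'))
    · rintro ⟨m, hm⟩
      obtain ⟨i, hi⟩ := h.ex m hm
      exact ⟨(i, ⟨_, hi⟩), Subtype.ext (by show r i + (m - r i) = m; ring)⟩)

theorem Reps.equiv_apply {ι : Type} {r : ι → ℂ} (h : Reps r Λ M) (p : ι × Λ) :
    (h.equiv p : ℂ) = r p.1 + p.2 := rfl

end Vale.Agent.P027H
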