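import Vale.Agent.P027H.Inv

/-!
# P027 (H): the product formula for an isogeny of odd degree
-/

open scoped ComplexConjugate
open Filter Topology

namespace Vale.Agent.P027H

variable {O : Type} [CommRing O] {j : O →+* ℂ} {Λ M : Submodule ℤ ℂ} {P P' : Ideal O}

theorem Reps.perm {ι : Type} [Finite ι] {r : ι → ℂ} (h : Reps r Λ M) {r' : ι → ℂ}
    (h1 : ∀ i, r' i ∈ M) (h2 : ∀ i k, r' i - r' k ∈ Λ → i = k) :
    ∃ e : ι ≃ ι, ∀ i, r' i - r (e i) ∈ Λ := by
  choose f hf using fun i => h.ex _ (h1 i)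
  have hi : Function.Injective f := fun i k e =>
    h2 i k (mem_of_eq (sub_mem (hf i) (hf k)) (by rw [e]; ring))
  exact ⟨Equiv.ofBijective f hi.bijective_of_finite, hf⟩

theorem reps_prod {κ : Type} [Fintype κ] {r : Option κ → ℂ} (h : Reps r Λ M) (h0 : r none = 0)
    (hΛ : IsLat Λ) (hM : IsLat M) {p z : ℂ} (hp : p ∉ M) (hz : z ∉ M) :
    (wp Λ z - wp Λ p) * ∏ k, (wp Λ (z - r (some k)) - wp Λ p) =
      (∏ k, (wp Λ (r (some k)) - wp Λ p)) * (wp M z - wp M p) := by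
  have hn : ∀ z, z ∉ M → ∀ i, z - r i ∉ Λ := fun z hz i e =>
    hz (mem_of_eq (add_mem (h.le e) (h.mem i)) (by ring))
  have hr : ∀ k, -r (some k) ∉ Λ := fun k e => by
    have := h.inj none (some k) (by rwa [h0, zero_sub])
    simp at this
  obtain ⟨c, hc⟩ := hM.liou (f := fun z => ∏ i, (wp Λ (z - r i) - wp Λ p) -
      (∏ k, (wp Λ (r (some k)) - wp Λ p)) * wp M z)
    (fun z _ l hl => by
      obtain ⟨e, he⟩ := h.perm (r' := fun i => r i - l) (fun i => sub_mem (h.mem i) hl)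
        fun i k e => h.inj i k (mem_of_eq e (by ring))
      rw [hM.wp_congr (mem_of_eq hl (add_sub_cancel_left z l)),
        ← e.prod_comp fun i => wp Λ (z - r i) - wp Λ p]
      congr 1
      exact Finset.prod_congr rfl fun i _ => by
        rw [hΛ.wp_congr (mem_of_eq (neg_mem (he i)) (by ring) : z + l - r i - (z - r (e i)) ∈ Λ)])
    (fun z hz => by
      refine DifferentiableAt.sub (DifferentiableAt.fun_finsetProd fun i _ => ?_)
        ((hM.hasDerivAt_wp hz).differentiableAt.const_mul _)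
      exact (((hΛ.hasDerivAt_wp (hn z hz i)).differentiableAt).comp z
        (differentiableAt_id.sub_const _)).sub_const _)
    (fun z _ => by
      obtain ⟨e, he⟩ := h.perm (r' := fun i => -r i) (fun i => neg_mem (h.mem i))
        fun i k e => h.inj i k (mem_of_eq (neg_mem e) (by ring))
      rw [hM.wp_neg, ← e.prod_comp fun i => wp Λ (z - r i) - wp Λ p]
      congr 1
      exact Finset.prod_congr rfl fun i _ => by
        rw [hΛ.wp_congr' (mem_of_eq (he i) (by ring) : -z - r i + (z - r (e i)) ∈ Λ)])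
    (by
      have t1 : Tendsto (fun z : ℂ => z ^ 2 * wp Λ p) (𝓝[≠] 0) (𝓝 0) := by
        have : Continuous fun z : ℂ => z ^ 2 * wp Λ p := by fun_prop
        simpa using (this.tendsto 0).mono_left nhdsWithin_le_nhds
      have t2 : Tendsto (fun z : ℂ => ∏ k, (wp Λ (z - r (some k)) - wp Λ p)) (𝓝[≠] 0)
          (𝓝 (∏ k, (wp Λ (r (some k)) - wp Λ p))) := by
        refine tendsto_finsetProd _ fun k _ => Tendsto.sub_const ?_ _
        rw [← hΛ.wp_neg]
        refine (hΛ.analyticAt_wp (hr k)).continuousAt.tendsto.comp ?_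
        have : Continuous fun z : ℂ => z - r (some k) := by fun_prop
        simpa using (this.tendsto 0).mono_left nhdsWithin_le_nhds
      have t3 := ((hΛ.tendsto_wp.sub t1).mul t2).sub
        (hM.tendsto_wp.const_mul (∏ k, (wp Λ (r (some k)) - wp Λ p)))
      rw [sub_zero, one_mul, mul_one, sub_self] at t3
      refine t3.congr fun z => ?_
      rw [Fintype.prod_option, h0, sub_zero]
      ring)
  have a1 := hc z hz
  have a2 := hc p hp
  simp only [Fintype.prod_option, h0, sub_zero, sub_self, zero_mul] at a1 a2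
  linear_combination a1 - a2

theorem Two.prod (h : Two j P P') (hΛ : OLat j Λ) (hM : OLat j M) {κ : Type} [Fintype κ]
    {r : Option κ → ℂ} (hr : Reps r Λ M) (h0 : r none = 0) (h2 : ∀ z ∈ M, 2 * z ∈ Λ → z ∈ Λ) :
    (∏ k, ff j P P' Λ (r (some k))) ^ 2 * DD j P P' M = DD j P P' Λ ^ (Fintype.card κ + 1) := by
  obtain ⟨a1, a2⟩ := h.cyc.pt hΛ
  obtain ⟨b1, b2⟩ := h.cyc'.pt hΛ
  have a3 : pt j P Λ ∉ M := fun e => a2 (h2 _ e (h.two_mul a1))
  have b3 : pt j P' Λ ∉ M := fun e => b2 (h2 _ e (h.symm.two_mul b1))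
  have k1 := reps_prod hr h0 hΛ.1 hM.1 b3 a3
  rw [← h.ee_eq hM (col_mono hr.le P a1) a3, ← h.symm.ee_eq hM (col_mono hr.le P' b1) b3, ← ee,
    ← ee, ← DD, ← DD] at k1
  have hk : ∀ k, wp Λ (r (some k)) - ee j P' Λ ≠ 0 ∧ ff j P P' Λ (r (some k)) ^ 2 *
      (wp Λ (pt j P Λ - r (some k)) - ee j P' Λ) = DD j P P' Λ * (wp Λ (r (some k)) - ee j P' Λ) := by
    intro k
    have n1 : r (some k) ∉ Λ := fun e => by
      have := hr.inj (some k) none (by rwa [h0, sub_zero])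
      simp at this
    have n2 : 2 * r (some k) ∉ Λ := fun e => n1 (h2 _ (hr.mem _) e)
    have n3 := mt (hΛ.1.dwp_eq_zero n1).1 n2
    have e1 := h.ode hΛ n1
    have e2 := h.half hΛ fun e => n2 (h.two_mul e)
    rw [← hΛ.1.wp_neg, neg_sub] at e2
    have n4 := pow_ne_zero 2 n3
    rw [e1] at n4
    have n5 := right_ne_zero_of_mul n4
    refine ⟨right_ne_zero_of_mul (left_ne_zero_of_mul n4), ?_⟩
    rw [ff, div_pow, e1]
    rw [DD] at e2 ⊢
    field_simp
    linear_combination 4 * (wp Λ (r (some k)) - ee j P' Λ) * e2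
  have k2 : ∏ k, (wp Λ (r (some k)) - ee j P' Λ) ≠ 0 := Finset.prod_ne_zero_iff.2 fun k _ => (hk k).1
  have k3 := Finset.prod_congr (s₁ := Finset.univ) rfl fun k _ => (hk k).2
  rw [Finset.prod_mul_distrib, Finset.prod_mul_distrib, Finset.prod_pow, Finset.prod_const,
    Finset.card_univ] at k3
  apply mul_right_cancel₀ k2
  rw [pow_succ]
  linear_combination DD j P P' Λ * k3 - (∏ k, ff j P P' Λ (r (some k))) ^ 2 * k1

/-! ### half systems -/

theorem cong {t : ℕ} {u : ℂ} (hu : (t : ℂ) * u ∈ Λ) {a b : ℤ} (h : (a : ZMod t) = b) :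
    a * u - b * u ∈ Λ := by
  obtain ⟨c, hc⟩ := (ZMod.intCast_eq_intCast_iff_dvd_sub b a t).1 h.symm
  have : (a : ℂ) - b = t * c := by exact_mod_cast hc
  exact mem_of_eq (int_mul_mem c hu) (by linear_combination u * this)

theorem cong_zero {t : ℕ} [Fact t.Prime] {u : ℂ} (hu : (t : ℂ) * u ∈ Λ) (hu' : u ∉ Λ) {a : ℤ}
    (h : a * u ∈ Λ) : (a : ZMod t) = 0 := by
  by_contra h0
  obtain ⟨b, hb⟩ := ZMod.intCast_surjective (a : ZMod t)⁻¹
  have := cong hu (a := b * a) (b := 1) (by push_cast; rw [hb, inv_mul_cancel₀ h0])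
  exact hu' (mem_of_eq (sub_mem (int_mul_mem b h) this) (by push_cast; ring))

theorem exists_root (t : ℕ) [Fact t.Prime] : ∃ g : ℤ, IsPrimitiveRoot (g : ZMod t) (t - 1) := by
  obtain ⟨x, hx⟩ := IsCyclic.exists_ofOrder_eq_natCard (α := (ZMod t)ˣ)
  obtain ⟨g, hg⟩ := ZMod.intCast_surjective (x : ZMod t)
  refine ⟨g, ?_⟩
  rw [hg, IsPrimitiveRoot.coe_units_iff, ← ZMod.card_units t, ← Nat.card_eq_fintype_card, ← hx]
  exact IsPrimitiveRoot.orderOf x

/-- the product over a half system -/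
noncomputable def HP (g : ℤ) (n : ℕ) (F : ℂ → ℂ) (u : ℂ) : ℂ :=
  ∏ i ∈ Finset.range n, F ((g : ℂ) ^ i * u)

section HP

variable {g : ℤ} {n t : ℕ} {F : ℂ → ℂ} (hF : ∀ x y, x - y ∈ Λ → F x = F y)
  (hn : ∀ x, F (-x) = -F x) (hg : (g : ZMod t) ^ n = -1)

include hF in
theorem HP_congr {u v : ℂ} (h : u - v ∈ Λ) : HP g n F u = HP g n F v :=
  Finset.prod_congr rfl fun i _ => hF _ _ (mem_of_eq (int_mul_mem (g ^ i) h) (by push_cast; ring))

include hF hn hg in
theorem HP_step (h0 : 0 < n) {u : ℂ} (hu : (t : ℂ) * u ∈ Λ) : HP g n F (g * u) = -HP g n F u := by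
  obtain ⟨m, rfl⟩ : ∃ m, n = m + 1 := ⟨n - 1, by omega⟩
  rw [HP, HP, Finset.prod_range_succ, Finset.prod_range_succ', pow_zero, one_mul, ← mul_neg, ← hn,
    hF _ (-u) (mem_of_eq (cong hu (a := g ^ (m + 1)) (b := -1) (by push_cast; exact hg))
      (by push_cast; ring))]
  congr 1
  exact Finset.prod_congr rfl fun i _ => by rw [pow_succ, mul_assoc]

include hF hn hg in
theorem HP_pow (h0 : 0 < n) {u : ℂ} (hu : (t : ℂ) * u ∈ Λ) (m : ℕ) :
    HP g n F ((g : ℂ) ^ m * u) = (-1) ^ m * HP g n F u := by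
  induction m with
  | zero => simp
  | succ m ih =>
    rw [pow_succ', mul_assoc, HP_step hF hn hg h0
      (mem_of_eq (int_mul_mem (g ^ m) hu) (by push_cast; ring)), ih]
    ring

end HP

theorem half_root {k t : ℕ} [Fact t.Prime] (ht : t = 4 * k + 1) {g : ℤ}
    (hg : IsPrimitiveRoot (g : ZMod t) (t - 1)) : 0 < 2 * k ∧ (g : ZMod t) ^ (2 * k) = -1 := by
  have := (Fact.out : t.Prime).two_le
  exact ⟨by omega, (hg.pow (by omega) (by omega : t - 1 = 2 * k * 2)).eq_neg_one_of_two_right⟩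

theorem exists_pow {t : ℕ} [Fact t.Prime] {g : ℤ} (hg : IsPrimitiveRoot (g : ZMod t) (t - 1))
    {a : ZMod t} (ha : a ≠ 0) : ∃ i < t - 1, (g : ZMod t) ^ i = a := by
  have := (Fact.out : t.Prime).two_le
  have : NeZero (t - 1) := ⟨by omega⟩
  exact hg.eq_pow_of_pow_eq_one (ZMod.pow_card_sub_one_eq_one ha)

theorem Two.main (h : Two j P P') (hΛ : OLat j Λ) (hM : OLat j M) {k t : ℕ} [Fact t.Prime]
    (ht : t = 4 * k + 1) {g : ℤ} (hg : IsPrimitiveRoot (g : ZMod t) (t - 1)) (hle : Λ ≤ M)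
    (htM : ∀ z ∈ M, (t : ℂ) * z ∈ Λ) {u : ℂ} (hu : u ∈ M) (hu' : u ∉ Λ)
    (hc : ∀ z ∈ M, ∃ a : ℤ, z - a * u ∈ Λ) :
    HP g (2 * k) (ff j P P' Λ) u ^ 4 * DD j P P' M = DD j P P' Λ ^ t := by
  obtain ⟨h0, h1⟩ := half_root ht hg
  have htu := htM u hu
  have hg0 : ∀ i : ℕ, (g : ℂ) ^ i * u ∉ Λ := fun i e => by
    have := cong_zero htu hu' (a := g ^ i) (by push_cast; exact e)
    push_cast at this
    exact pow_ne_zero i (hg.ne_zero (by omega)) this
  have hr : Reps (fun o : Option (Fin (t - 1)) => o.elim 0 fun i => (g : ℂ) ^ (i : ℕ) * u) Λ M := by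
    refine ⟨hle, ?_, fun z hz => ?_, ?_⟩
    · rintro (_ | i)
      · exact zero_mem _
      · exact mem_of_eq (int_mul_mem (g ^ (i : ℕ)) hu) (by simp)
    · obtain ⟨a, ha⟩ := hc z hz
      by_cases e : (a : ZMod t) = 0
      · exact ⟨none, mem_of_eq (add_mem ha (cong htu (b := 0) (by simpa using e))) (by simp)⟩
      · obtain ⟨i, hi, e'⟩ := exists_pow hg e
        exact ⟨some ⟨i, hi⟩, mem_of_eq (add_mem ha (cong htu (b := g ^ i)
          (by push_cast; exact e'.symm))) (by simp)⟩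
    · rintro (_ | i) (_ | l) e
      · rfl
      · exact absurd (by simpa using e) (hg0 l)
      · exact absurd (by simpa using e) (hg0 i)
      · have := cong_zero htu hu' (a := g ^ (i : ℕ) - g ^ (l : ℕ))
          (mem_of_eq e (by simp [sub_mul]))
        push_cast at this
        rw [Fin.ext (hg.pow_inj i.2 l.2 (sub_eq_zero.1 this))]
  have k1 := h.prod hΛ hM hr rfl fun z hz e => mem_of_eq
    (_root_.sub_mem (htM z hz) (nat_mul_mem (2 * k) e))
    (by rw [ht]; push_cast; ring)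
  have k2 := HP_pow (F := ff j P P' Λ) (fun _ _ => hΛ.1.ff_congr) hΛ.1.ff_neg h1 h0 htu (2 * k)
  rw [pow_mul (-1 : ℂ), neg_one_sq, one_pow, one_mul] at k2
  simp only [Option.elim_some, Fintype.card_fin] at k1
  rw [Fin.prod_univ_eq_prod_range (fun i => ff j P P' Λ ((g : ℂ) ^ i * u)),
    show t - 1 = 2 * k + 2 * k by omega, Finset.prod_range_add] at k1
  simp only [add_comm (2 * k), pow_add, mul_assoc] at k1
  rw [← HP, ← HP, k2] at k1
  rw [ht]
  linear_combination k1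

end Vale.Agent.P027H
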