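import Vale.Agent.P027H.Lat0
import Vale.Agent.P014G.Uni

/-!
# P027 (H): the Weierstrass functions of a lattice given as a submodule
-/

open scoped ComplexConjugate
open Filter Topology

namespace Vale.Agent.P027H

open Vale.Agent.P010.H193

variable {Λ Λ' M : Submodule ℤ ℂ} {c : ℂ}

/-- `℘` -/
noncomputable def wp (Λ : Submodule ℤ ℂ) (z : ℂ) : ℂ :=
  ∑' l : Λ, (1 / (z - l) ^ 2 - 1 / (l : ℂ) ^ 2)

/-- `℘'` -/
noncomputable def dwp (Λ : Submodule ℤ ℂ) (z : ℂ) : ℂ := - ∑' l : Λ, 2 / (z - l) ^ 3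

/-- the Eisenstein sums -/
noncomputable def GG (Λ : Submodule ℤ ℂ) (n : ℕ) : ℂ := ∑' l : Λ, ((l : ℂ) ^ n)⁻¹

/-- `g₂` -/
noncomputable def g2 (Λ : Submodule ℤ ℂ) : ℂ := 60 * GG Λ 4

/-- `g₃` -/
noncomputable def g3 (Λ : Submodule ℤ ℂ) : ℂ := 140 * GG Λ 6

theorem wp_lat (L : PeriodPair) : wp L.lattice = L.weierstrassP := rfl
theorem dwp_lat (L : PeriodPair) : dwp L.lattice = L.derivWeierstrassP := rfl
theorem g2_lat (L : PeriodPair) : g2 L.lattice = L.g₂ := rfl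
theorem g3_lat (L : PeriodPair) : g3 L.lattice = L.g₃ := rfl

/-! ### homotheties and conjugation -/

theorem Hom.wp (h : Hom c Λ Λ') (z : ℂ) : wp Λ' (c * z) = c⁻¹ ^ 2 * wp Λ z := by
  have hc := h.1
  rw [P027H.wp, P027H.wp, ← h.equiv.tsum_eq, ← tsum_mul_left]
  refine tsum_congr fun l => ?_
  show 1 / (c * z - c * l) ^ 2 - 1 / (c * l) ^ 2 = _
  rw [← mul_sub, mul_pow, mul_pow]
  simp only [one_div, mul_inv, inv_pow]
  ring

theorem Hom.dwp (h : Hom c Λ Λ') (z : ℂ) : dwp Λ' (c * z) = c⁻¹ ^ 3 * dwp Λ z := by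
  have hc := h.1
  rw [P027H.dwp, P027H.dwp, ← h.equiv.tsum_eq, mul_neg, ← tsum_mul_left]
  congr 1
  refine tsum_congr fun l => ?_
  show 2 / (c * z - c * l) ^ 3 = _
  rw [← mul_sub, mul_pow]
  simp only [div_eq_mul_inv, mul_inv, inv_pow]
  ring

theorem Hom.GG (h : Hom c Λ Λ') (n : ℕ) : GG Λ' n = c⁻¹ ^ n * GG Λ n := by
  rw [P027H.GG, P027H.GG, ← h.equiv.tsum_eq, ← tsum_mul_left]
  refine tsum_congr fun l => ?_
  show ((c * l) ^ n)⁻¹ = _
  rw [mul_pow, mul_inv, inv_pow]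

theorem Hom.g2 (h : Hom c Λ Λ') : g2 Λ' = c⁻¹ ^ 4 * g2 Λ := by
  rw [P027H.g2, P027H.g2, h.GG]
  ring

theorem Hom.g3 (h : Hom c Λ Λ') : g3 Λ' = c⁻¹ ^ 6 * g3 Λ := by
  rw [P027H.g3, P027H.g3, h.GG]
  ring

/-- conjugation as a bijection of lattices -/
def cjE (Λ : Submodule ℤ ℂ) : Λ ≃ cjL Λ where
  toFun l := ⟨conj (l : ℂ), by rw [mem_cjL, Complex.conj_conj]; exact l.2⟩
  invFun l := ⟨conj (l : ℂ), l.2⟩
  left_inv l := Subtype.ext (Complex.conj_conj _)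
  right_inv l := Subtype.ext (Complex.conj_conj _)

theorem wp_cj (Λ : Submodule ℤ ℂ) (z : ℂ) : wp (cjL Λ) (conj z) = conj (wp Λ z) := by
  rw [wp, wp, ← (cjE Λ).tsum_eq, Complex.conj_tsum]
  refine tsum_congr fun l => ?_
  show 1 / (conj z - conj (l : ℂ)) ^ 2 - 1 / (conj (l : ℂ)) ^ 2 = _
  simp

theorem dwp_cj (Λ : Submodule ℤ ℂ) (z : ℂ) : dwp (cjL Λ) (conj z) = conj (dwp Λ z) := by
  rw [dwp, dwp, ← (cjE Λ).tsum_eq, map_neg, Complex.conj_tsum]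
  congr 1
  refine tsum_congr fun l => ?_
  show 2 / (conj z - conj (l : ℂ)) ^ 3 = _
  simp [map_ofNat]

theorem GG_cj (Λ : Submodule ℤ ℂ) (n : ℕ) : GG (cjL Λ) n = conj (GG Λ n) := by
  rw [GG, GG, ← (cjE Λ).tsum_eq, Complex.conj_tsum]
  refine tsum_congr fun l => ?_
  show ((conj (l : ℂ)) ^ n)⁻¹ = _
  simp

theorem g2_cj (Λ : Submodule ℤ ℂ) : g2 (cjL Λ) = conj (g2 Λ) := by
  rw [g2, g2, GG_cj, map_mul, map_ofNat]

theorem g3_cj (Λ : Submodule ℤ ℂ) : g3 (cjL Λ) = conj (g3 Λ) := by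
  rw [g3, g3, GG_cj, map_mul, map_ofNat]

/-! ### basic properties -/

namespace IsLat

variable (h : IsLat Λ)
include h

theorem wp_congr {z w : ℂ} (hzw : z - w ∈ Λ) : wp Λ z = wp Λ w := by
  obtain ⟨L, rfl⟩ := h
  have := L.weierstrassP_add_coe w ⟨_, hzw⟩
  rw [wp_lat, ← this]
  congr 1
  show z = w + (z - w)
  ring

theorem dwp_congr {z w : ℂ} (hzw : z - w ∈ Λ) : dwp Λ z = dwp Λ w := by
  obtain ⟨L, rfl⟩ := h
  have := L.derivWeierstrassP_add_coe w ⟨_, hzw⟩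
  rw [dwp_lat, ← this]
  congr 1
  show z = w + (z - w)
  ring

theorem wp_neg (z : ℂ) : wp Λ (-z) = wp Λ z := by
  obtain ⟨L, rfl⟩ := h
  exact L.weierstrassP_neg z

theorem dwp_neg (z : ℂ) : dwp Λ (-z) = -dwp Λ z := by
  obtain ⟨L, rfl⟩ := h
  exact L.derivWeierstrassP_neg z

theorem wp_congr' {z w : ℂ} (hzw : z + w ∈ Λ) : wp Λ z = wp Λ w := by
  rw [← h.wp_neg w]
  exact h.wp_congr (by rwa [sub_neg_eq_add])

theorem dwp_congr' {z w : ℂ} (hzw : z + w ∈ Λ) : dwp Λ z = -dwp Λ w := by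
  rw [← h.dwp_neg w]
  exact h.dwp_congr (by rwa [sub_neg_eq_add])

theorem wp_mem {z : ℂ} (hz : z ∈ Λ) : wp Λ z = 0 := by
  obtain ⟨L, rfl⟩ := h
  exact L.weierstrassP_coe ⟨z, hz⟩

theorem dwp_mem {z : ℂ} (hz : z ∈ Λ) : dwp Λ z = 0 := by
  obtain ⟨L, rfl⟩ := h
  exact L.derivWeierstrassP_coe ⟨z, hz⟩

theorem ode {z : ℂ} (hz : z ∉ Λ) : dwp Λ z ^ 2 = 4 * wp Λ z ^ 3 - g2 Λ * wp Λ z - g3 Λ := by
  obtain ⟨L, rfl⟩ := h
  exact L.derivWeierstrassP_sq z hz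

theorem wp_ne {z w : ℂ} (hz : z ∉ Λ) (hw : w ∉ Λ) (h1 : z - w ∉ Λ) (h2 : z + w ∉ Λ) :
    wp Λ z ≠ wp Λ w := by
  obtain ⟨L, rfl⟩ := h
  intro e
  rcases (wp_eq_iff L hw hz).1 e.symm with h3 | h3
  · exact h1 h3
  · exact h2 h3

theorem dwp_eq_zero {z : ℂ} (hz : z ∉ Λ) : dwp Λ z = 0 ↔ 2 * z ∈ Λ := by
  obtain ⟨L, rfl⟩ := h
  exact wp_deriv_eq_zero_iff L hz

theorem sub_mem_of_eq {z w : ℂ} (hz : z ∉ Λ) (hw : w ∉ Λ) (h1 : wp Λ z = wp Λ w)
    (h2 : dwp Λ z = dwp Λ w) : z - w ∈ Λ := by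
  obtain ⟨L, rfl⟩ := h
  exact wp_unique L hw hz h1.symm h2.symm

theorem analyticAt_wp {z : ℂ} (hz : z ∉ Λ) : AnalyticAt ℂ (wp Λ) z := by
  obtain ⟨L, rfl⟩ := h
  exact wp_analyticAt L hz

theorem hasDerivAt_wp {z : ℂ} (hz : z ∉ Λ) : HasDerivAt (wp Λ) (dwp Λ z) z := by
  obtain ⟨L, rfl⟩ := h
  exact wp_hasDerivAt L hz

theorem notMem_nhds {z : ℂ} (hz : z ∉ Λ) : ∀ᶠ x in 𝓝 z, x ∉ Λ := by
  obtain ⟨L, rfl⟩ := h
  exact wp_notMem_nhds L hz

theorem notMem_zero : ∀ᶠ z in 𝓝[≠] (0 : ℂ), z ∉ Λ := by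
  obtain ⟨L, rfl⟩ := h
  exact P014G.eventually_notMem L

theorem tendsto_wp : Tendsto (fun z => z ^ 2 * wp Λ z) (𝓝[≠] 0) (𝓝 1) := by
  obtain ⟨L, rfl⟩ := h
  have h1 := (P014G.pa_analytic L).continuousAt.tendsto
  rw [P014G.pa_zero] at h1
  refine (h1.mono_left nhdsWithin_le_nhds).congr' ?_
  filter_upwards [self_mem_nhdsWithin] with z hz
  exact P014G.pa_eq L hz

theorem ext_g (h' : IsLat Λ') (h2 : g2 Λ = g2 Λ') (h3 : g3 Λ = g3 Λ') : Λ = Λ' := by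
  obtain ⟨L, rfl⟩ := h
  obtain ⟨L', rfl⟩ := h'
  exact le_antisymm (fun _ hl => P014G.lattice_le h2 h3 hl)
    (fun _ hl => P014G.lattice_le h2.symm h3.symm hl)

/-- two independent points of order two -/
theorem exists_two : ∃ a b : ℂ, a ∉ Λ ∧ b ∉ Λ ∧ a + b ∉ Λ ∧ 2 * a ∈ Λ ∧ 2 * b ∈ Λ := by
  obtain ⟨L, rfl⟩ := h
  refine ⟨L.ω₁ / 2, L.ω₂ / 2, L.ω₁_div_two_notMem_lattice, L.ω₂_div_two_notMem_lattice, ?_,
    mem_of_eq L.ω₁_mem_lattice (by ring), mem_of_eq L.ω₂_mem_lattice (by ring)⟩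
  intro h1
  have h2 := (L.mul_ω₁_add_mul_ω₂_mem_lattice (α := 1 / 2) (β := 1 / 2)).1
    (mem_of_eq h1 (by push_cast; ring))
  norm_num at h2

/-- three distinct values -/
theorem exists_three : ∃ a b c : ℂ, a ∉ Λ ∧ b ∉ Λ ∧ c ∉ Λ ∧ 2 * a ∈ Λ ∧ 2 * b ∈ Λ ∧ 2 * c ∈ Λ ∧
    wp Λ a ≠ wp Λ b ∧ wp Λ a ≠ wp Λ c ∧ wp Λ b ≠ wp Λ c := by
  obtain ⟨a, b, ha, hb, hab, h2a, h2b⟩ := h.exists_two
  refine ⟨a, b, a + b, ha, hb, hab, h2a, h2b, mem_of_eq (add_mem h2a h2b) (by ring),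
    h.wp_ne ha hb (fun e => hab (mem_of_eq (add_mem e h2b) (by ring))) hab,
    h.wp_ne ha hab (fun e => hb (mem_of_eq (neg_mem e) (by ring)))
      (fun e => hb (mem_of_eq (sub_mem e h2a) (by ring))),
    h.wp_ne hb hab (fun e => ha (mem_of_eq (neg_mem e) (by ring)))
      (fun e => ha (mem_of_eq (sub_mem e h2b) (by ring)))⟩

theorem disc_ne : 4 * (-g2 Λ / 4) ^ 3 + 27 * (-g3 Λ / 4) ^ 2 ≠ 0 := by
  obtain ⟨a, b, c, ha, hb, hc, h2a, h2b, h2c, h1, h2, h3⟩ := h.exists_three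
  have ea := h.ode ha
  have eb := h.ode hb
  have ec := h.ode hc
  rw [(h.dwp_eq_zero ha).2 h2a] at ea
  rw [(h.dwp_eq_zero hb).2 h2b] at eb
  rw [(h.dwp_eq_zero hc).2 h2c] at ec
  generalize wp Λ a = x at *
  generalize wp Λ b = y at *
  generalize wp Λ c = z at *
  have d1 := sub_ne_zero.2 h1
  have d2 := sub_ne_zero.2 h2
  have d3 := sub_ne_zero.2 h3
  have e1 : g2 Λ = 4 * (x ^ 2 + x * y + y ^ 2) :=
    mul_left_cancel₀ d1 (by linear_combination ea - eb)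
  have e2 : g2 Λ = 4 * (x ^ 2 + x * z + z ^ 2) :=
    mul_left_cancel₀ d2 (by linear_combination ea - ec)
  have e3 : z = -x - y := mul_left_cancel₀ d3 (by linear_combination (e2 - e1) / 4)
  have e4 : g3 Λ = 4 * x ^ 3 - g2 Λ * x := by linear_combination ea
  have e5 : 4 * (-g2 Λ / 4) ^ 3 + 27 * (-g3 Λ / 4) ^ 2 =
      -((x - y) * (x - z) * (y - z)) ^ 2 := by
    rw [e4, e1, e3]
    ring
  rw [e5]
  exact neg_ne_zero.2 (pow_ne_zero _ (mul_ne_zero (mul_ne_zero d1 d2) d3))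

/-- an even elliptic function without double pole is constant -/
theorem liou {f : ℂ → ℂ} (hper : ∀ z, z ∉ Λ → ∀ l ∈ Λ, f (z + l) = f z)
    (hd : ∀ z, z ∉ Λ → DifferentiableAt ℂ f z) (hev : ∀ z, z ∉ Λ → f (-z) = f z)
    (hlim : Tendsto (fun z => z ^ 2 * f z) (𝓝[≠] 0) (𝓝 0)) : ∃ c, ∀ z, z ∉ Λ → f z = c := by
  classical
  have hz0 := h.notMem_zero
  have hg : AnalyticAt ℂ (fun z => z ^ 2 * f z) 0 := by
    refine Complex.analyticAt_of_differentiable_on_punctured_nhds_of_continuousAt ?_ ?_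
    · filter_upwards [hz0] with z hz
      exact (differentiableAt_id.pow 2).mul (hd z hz)
    · rw [continuousAt_iff_punctured_nhds]
      simpa using hlim
  have hge : (fun z => (-z) ^ 2 * f (-z)) =ᶠ[𝓝 0] fun z : ℂ => z ^ 2 * f z := by
    have h1 := eventually_nhdsWithin_iff.1 hz0
    filter_upwards [h1] with z hz
    by_cases h0 : z = 0
    · simp [h0]
    · rw [hev z (hz h0), neg_sq]
  have hd0 : deriv (fun z => z ^ 2 * f z) 0 = 0 := by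
    have h1 := hge.deriv_eq
    have h2 := deriv_comp_neg (fun z : ℂ => z ^ 2 * f z) 0
    rw [neg_zero, h1] at h2
    linear_combination h2 / 2
  have hord : ((2 : ℕ) : ℕ∞) ≤ analyticOrderAt (fun z => z ^ 2 * f z) 0 := by
    rw [natCast_le_analyticOrderAt_iff_iteratedDeriv_eq_zero hg]
    intro i hi
    interval_cases i
    · simp
    · simpa using hd0
  obtain ⟨g, hga, hgf⟩ := (natCast_le_analyticOrderAt hg).1 hord
  let F : ℂ → ℂ := fun z => if z ∈ Λ then g 0 else f z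
  have hF0 : F =ᶠ[𝓝 0] g := by
    filter_upwards [eventually_nhdsWithin_iff.1 hz0, hgf] with z hz h1
    by_cases h0 : z = 0
    · simp [F, h0]
    · have h2 : z ∉ Λ := hz h0
      simp only [F, if_neg h2]
      rw [sub_zero, smul_eq_mul] at h1
      exact mul_left_cancel₀ (pow_ne_zero 2 h0) h1
  have hFper : ∀ z, ∀ l ∈ Λ, F (z + l) = F z := by
    intro z l hl
    by_cases hz : z ∈ Λ
    · simp only [F, if_pos hz, if_pos (add_mem hz hl)]
    · have : z + l ∉ Λ := fun e => hz (mem_of_eq (sub_mem e hl) (by ring))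
      simp only [F, if_neg hz, if_neg this]
      exact hper z hz l hl
  have hFd : Differentiable ℂ F := by
    intro z
    by_cases hz : z ∈ Λ
    · have h1 : DifferentiableAt ℂ F 0 := hga.differentiableAt.congr_of_eventuallyEq hF0
      have h2 : F = fun w => F (w - z) := by
        funext w
        rw [← hFper (w - z) z hz, sub_add_cancel]
      rw [h2]
      exact DifferentiableAt.comp (g := F) (f := fun w => w - z) z (by rwa [sub_self])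
        (differentiableAt_id.sub_const z)
    · refine (hd z hz).congr_of_eventuallyEq ?_
      filter_upwards [h.notMem_nhds hz] with w hw
      simp only [F, if_neg hw]
  obtain ⟨L, rfl⟩ := h
  refine ⟨F 0, fun z hz => ?_⟩
  have := hFd.apply_eq_apply_of_bounded (IsZLattice.isCompact_range_of_periodic L.lattice _
    hFd.continuous hFper).isBounded z 0
  rw [← this]
  simp only [F, if_neg hz]

end IsLat

/-! ### the formulas of Velu -/

section Velu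

variable {ι : Type} [Fintype ι] {r : ι → ℂ}

theorem Reps.wp (h : Reps r Λ M) (hΛ : IsLat Λ) (hM : IsLat M) (z : ℂ) :
    wp M z = ∑ i, (wp Λ (z - r i) - wp Λ (r i)) := by
  obtain ⟨L, rfl⟩ := hΛ
  obtain ⟨L', rfl⟩ := hM
  have h1 := h.equiv.hasSum_iff.2 (L'.hasSum_weierstrassP z)
  have h2 := h1.prod_fiberwise (g := fun i => P027H.wp L.lattice (z - r i) -
      P027H.wp L.lattice (r i)) fun i => by
    have h3 := (L.hasSum_weierstrassP (z - r i)).sub (L.hasSum_weierstrassP (-r i))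
    rw [L.weierstrassP_neg] at h3
    refine h3.congr_fun fun l => ?_
    show 1 / (z - (r i + l)) ^ 2 - 1 / (r i + l) ^ 2 = _
    rw [show -r i - l = -(r i + l) by ring, neg_sq, sub_sub z]
    ring
  exact h2.unique (hasSum_fintype _)

theorem Reps.dwp (h : Reps r Λ M) (hΛ : IsLat Λ) (hM : IsLat M) (z : ℂ) :
    dwp M z = ∑ i, dwp Λ (z - r i) := by
  obtain ⟨L, rfl⟩ := hΛ
  obtain ⟨L', rfl⟩ := hM
  have h1 := h.equiv.hasSum_iff.2 (L'.hasSum_derivWeierstrassP z)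
  have h2 := h1.prod_fiberwise (g := fun i => P027H.dwp L.lattice (z - r i)) fun i => by
    refine (L.hasSum_derivWeierstrassP (z - r i)).congr_fun fun l => ?_
    show -2 / (z - (r i + l)) ^ 3 = _
    rw [sub_sub z]
  exact h2.unique (hasSum_fintype _)

end Velu

end Vale.Agent.P027H
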